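import Crest.Agent.R140.C3Defs
import Mathlib
import Crest.Prelude.Def_MarkovType

-- ▼ part R140/C3Rank
section

/-! Row 140, part C3: ranks in finite subsets of a linear order, coefficient sums -/

set_option autoImplicit false

namespace Crest.Agent.R140.C3

open Crest.Agent.R140

section rank
variable {Λ : Type} [LinearOrder Λ]

/-- rank of `q` in the finite set `Q` -/
def rkF (Q : Finset Λ) (q : Λ) : ℕ := (Q.filter (· < q)).card

theorem rkF_lt {Q : Finset Λ} {q : Λ} (hq : q ∈ Q) : rkF Q q < Q.card := by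
  apply Finset.card_lt_card
  rw [Finset.ssubset_iff_of_subset (Finset.filter_subset _ _)]
  exact ⟨q, hq, by simp⟩

theorem rkF_strict {Q : Finset Λ} {q q' : Λ} (hq : q ∈ Q) (hlt : q < q') : rkF Q q < rkF Q q' := by
  apply Finset.card_lt_card
  rw [Finset.ssubset_iff_of_subset]
  · exact ⟨q, by simp [hq, hlt], by simp⟩
  · intro x hx
    simp only [Finset.mem_filter] at hx ⊢
    exact ⟨hx.1, hx.2.trans hlt⟩

theorem rkF_image (e : Λ ≃o Λ) (Q : Finset Λ) (q : Λ) : rkF (Q.image e) (e q) = rkF Q q := by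
  unfold rkF
  rw [Finset.filter_image, Finset.card_image_of_injective _ e.injective]
  congr 1
  ext x
  simp

/-- `Q ∪ h Q` -/
def Qs (e : Λ ≃o Λ) (Q : Finset Λ) : Finset Λ := Q ∪ Q.image e

theorem Qs_card (e : Λ ≃o Λ) (Q : Finset Λ) : (Qs e Q).card ≤ 2 * Q.card := by
  refine (Finset.card_union_le _ _).trans ?_
  have := Finset.card_image_le (s := Q) (f := e)
  omega

theorem Qs_symm (e : Λ ≃o Λ) (Q : Finset Λ) : (Qs e.symm Q).image e = Qs e Q := by
  unfold Qs
  rw [Finset.image_union, Finset.image_image]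
  have : (⇑e ∘ ⇑e.symm) = id := by ext x; simp
  rw [this, Finset.image_id, Finset.union_comm]

theorem rk_symm (e : Λ ≃o Λ) (Q : Finset Λ) (q : Λ) :
    rkF (Qs e.symm Q) (e.symm q) = rkF (Qs e Q) q := by
  rw [← rkF_image e (Qs e.symm Q) (e.symm q), Qs_symm]
  simp

theorem rk_symm' (e : Λ ≃o Λ) (Q : Finset Λ) (q : Λ) :
    rkF (Qs e.symm Q) q = rkF (Qs e Q) (e q) := by
  have := rk_symm e Q (e q)
  simpa using this

/-- sum over the order enumeration of a finite set -/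
theorem sum_orderEmb {M : Type*} [AddCommMonoid M] (Q : Finset Λ) (F : Λ → M) :
    ∑ j : Fin Q.card, F (Q.orderEmbOfFin rfl j) = ∑ q ∈ Q, F q := by
  have h : Finset.univ.map (Q.orderEmbOfFin rfl).toEmbedding = Q := by
    ext x
    simp only [Finset.mem_map, Finset.mem_univ, true_and]
    have := Finset.range_orderEmbOfFin Q rfl
    constructor
    · rintro ⟨j, rfl⟩
      exact Finset.orderEmbOfFin_mem Q rfl j
    · intro hx
      have : x ∈ Set.range (Q.orderEmbOfFin rfl) := by rw [this]; exact hx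
      obtain ⟨j, rfl⟩ := this
      exact ⟨j, rfl⟩
  conv_rhs => rw [← h]
  rw [Finset.sum_map]
  rfl

end rank

section act
variable {Λ : Type} [LinearOrder Λ] {X : Type*} [NormedAddCommGroup X] [NormedSpace ℝ X]

theorem finsupp_sum_eq (b : Λ →₀ ℤ) (Q : Finset Λ) (hb : b.support ⊆ Q) (y : Λ → X) :
    ∑ q ∈ Q, (b q : ℝ) • y q = b.sum (fun q c => (c : ℝ) • y q) := by
  unfold Finsupp.sum
  symm
  apply Finset.sum_subset hb
  intro q _ hq
  simp only [Finsupp.mem_support_iff, not_not] at hq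
  simp [hq]

theorem finsupp_sum_mapDomain (e : Λ ≃o Λ) (b : Λ →₀ ℤ) (y : Λ → X) :
    (Finsupp.mapDomain e b).sum (fun q c => (c : ℝ) • y q) =
      b.sum (fun q c => (c : ℝ) • y (e q)) := by
  rw [Finsupp.sum_mapDomain_index_inj (f := e) e.injective]

/-- `∑_j b(e_j) x(z_j)` -/
noncomputable def Dv (Q : Finset Λ) {ι : Type*} (x : ι → X) (b : Λ →₀ ℤ) (z : Fin Q.card → ι) : X :=
  ∑ j, (b (Q.orderEmbOfFin rfl j) : ℝ) • x (z j)

theorem Dv_rank (Q : Finset Λ) {ι : Type*} (x : ι → X) (b : Λ →₀ ℤ) (hb : b.support ⊆ Q)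
    (r : Λ → ι) : Dv Q x b (fun j => r (Q.orderEmbOfFin rfl j)) =
      b.sum (fun q c => (c : ℝ) • x (r q)) := by
  unfold Dv
  rw [sum_orderEmb Q (fun q => (b q : ℝ) • x (r q)), finsupp_sum_eq b Q hb (fun q => x (r q))]

/-- moving a vector: if `z_j = r(e_j)` and `z'_j = r(h e_j)` then
`∑ b(e_j) x(z'_j) = ∑ (h b)(e_j) x(z_j)` -/
theorem Dv_move (Q : Finset Λ) {ι : Type*} (x : ι → X) (b : Λ →₀ ℤ) (e : Λ ≃o Λ)
    (hb : b.support ⊆ Q) (hb' : (Finsupp.mapDomain e b).support ⊆ Q) (r : Λ → ι) :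
    Dv Q x b (fun j => r (e (Q.orderEmbOfFin rfl j))) =
      Dv Q x (Finsupp.mapDomain e b) (fun j => r (Q.orderEmbOfFin rfl j)) := by
  rw [Dv_rank Q x (Finsupp.mapDomain e b) hb' r, finsupp_sum_mapDomain,
    Dv_rank Q x b hb (fun q => r (e q))]

theorem Dv_zero (Q : Finset Λ) {ι : Type*} (x : ι → X) (z : Fin Q.card → ι) :
    Dv Q x 0 z = 0 := by
  simp [Dv]

theorem Dv_add (Q : Finset Λ) {ι : Type*} (x : ι → X) (b b' : Λ →₀ ℤ) (z : Fin Q.card → ι) :
    Dv Q x (b + b') z = Dv Q x b z + Dv Q x b' z := by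
  unfold Dv
  rw [← Finset.sum_add_distrib]
  refine Finset.sum_congr rfl fun j _ => ?_
  rw [Finsupp.add_apply, Int.cast_add, add_smul]

/-- ℓ¹ norm of an integer vector -/
noncomputable def l1 (b : Λ →₀ ℤ) : ℝ := ∑ q ∈ b.support, |(b q : ℝ)|

theorem l1_nonneg (b : Λ →₀ ℤ) : 0 ≤ l1 b := Finset.sum_nonneg fun _ _ => abs_nonneg _

theorem l1_eq (b : Λ →₀ ℤ) (Q : Finset Λ) (hb : b.support ⊆ Q) :
    ∑ q ∈ Q, |(b q : ℝ)| = l1 b := by
  unfold l1
  symm
  apply Finset.sum_subset hb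
  intro q _ hq
  simp only [Finsupp.mem_support_iff, not_not] at hq
  simp [hq]

theorem norm_Dv_le (Q : Finset Λ) {ι : Type*} (x : ι → X) (hx : ∀ i, ‖x i‖ ≤ 1) (b : Λ →₀ ℤ)
    (hb : b.support ⊆ Q) (z : Fin Q.card → ι) : ‖Dv Q x b z‖ ≤ l1 b := by
  unfold Dv
  refine (norm_sum_le _ _).trans ?_
  rw [← l1_eq b Q hb, ← sum_orderEmb Q (fun q => |(b q : ℝ)|)]
  refine Finset.sum_le_sum fun j _ => ?_
  rw [norm_smul, Real.norm_eq_abs]
  have := mul_le_mul_of_nonneg_left (hx (z j)) (abs_nonneg ((b (Q.orderEmbOfFin rfl j) : ℤ) : ℝ))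
  simpa using this

end act

end Crest.Agent.R140.C3
end

-- ▼ part R140/C3J
section

/-! Row 140, part C3: the finite chain `J` on pairs `(z,u)`. -/

set_option autoImplicit false

namespace Crest.Agent.R140.C3

open Crest.Agent.R140

section avg
variable {Ω : Type} [Fintype Ω] (μ : Ω → ℝ)

/-- weighted mean -/
noncomputable def av (f : Ω → ℝ) : ℝ := ∑ ω, μ ω * f ω



theorem av_mulL (c : ℝ) (f : Ω → ℝ) : av μ (fun ω => c * f ω) = c * av μ f := by
  unfold av; rw [Finset.mul_sum]; exact Finset.sum_congr rfl fun _ _ => by ring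

theorem av_mulR (c : ℝ) (f : Ω → ℝ) : av μ (fun ω => f ω * c) = av μ f * c := by
  unfold av; rw [Finset.sum_mul]; exact Finset.sum_congr rfl fun _ _ => by ring

theorem av_sum {ι : Type*} (s : Finset ι) (f : ι → Ω → ℝ) :
    av μ (fun ω => ∑ i ∈ s, f i ω) = ∑ i ∈ s, av μ (f i) := by
  unfold av; rw [Finset.sum_comm]; exact Finset.sum_congr rfl fun _ _ => by rw [Finset.mul_sum]

variable {μ}

theorem av_mono (hμ : ∀ ω, 0 ≤ μ ω) {f g : Ω → ℝ} (h : ∀ ω, f ω ≤ g ω) : av μ f ≤ av μ g :=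
  Finset.sum_le_sum fun i _ => mul_le_mul_of_nonneg_left (h i) (hμ i)

theorem av_nonneg (hμ : ∀ ω, 0 ≤ μ ω) {f : Ω → ℝ} (h : ∀ ω, 0 ≤ f ω) : 0 ≤ av μ f :=
  Finset.sum_nonneg fun i _ => mul_nonneg (hμ i) (h i)

theorem av_const (hμ1 : ∑ ω, μ ω = 1) (c : ℝ) : av μ (fun _ : Ω => c) = c := by
  unfold av; rw [← Finset.sum_mul, hμ1, one_mul]

end avg

/-- elementary product inequality -/
theorem one_sub_le_prod {ι : Type*} (s : Finset ι) (y : ι → ℝ) (h0 : ∀ i, 0 ≤ y i)
    (h1 : ∀ i, y i ≤ 1) : 1 - ∑ i ∈ s, (1 - y i) ≤ ∏ i ∈ s, y i ∧ ∏ i ∈ s, y i ≤ 1 := by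
  classical
  induction s using Finset.induction_on with
  | empty => simp
  | insert a s ha ih =>
    rw [Finset.sum_insert ha, Finset.prod_insert ha]
    have hp : 0 ≤ ∏ i ∈ s, y i := Finset.prod_nonneg fun i _ => h0 i
    refine ⟨?_, ?_⟩
    · nlinarith [h0 a, h1 a, ih.1, ih.2]
    · nlinarith [h0 a, h1 a, ih.1, ih.2]

theorem card_bad (R : ℕ) (d : ℤ) :
    (Finset.univ.filter (fun a : Fin R => ¬ (0 ≤ ((a : ℕ) : ℤ) + d ∧ ((a : ℕ) : ℤ) + d < R))).card
      ≤ d.natAbs := by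
  rcases le_total 0 d with hd | hd
  · have : d.natAbs = (Finset.range d.natAbs).card := by simp
    rw [this]
    apply Finset.card_le_card_of_injOn (fun a : Fin R => R - 1 - (a : ℕ))
    · intro a ha
      simp only [Finset.coe_filter, Finset.mem_univ, true_and, Set.mem_ofPred_eq] at ha
      simp only [Finset.coe_range, Set.mem_Iio]
      have := a.isLt
      omega
    · intro a _ b _ hab
      have := a.isLt
      have := b.isLt
      simp only at hab
      ext
      omega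
  · have : d.natAbs = (Finset.range d.natAbs).card := by simp
    rw [this]
    apply Finset.card_le_card_of_injOn (fun a : Fin R => (a : ℕ))
    · intro a ha
      simp only [Finset.coe_filter, Finset.mem_univ, true_and, Set.mem_ofPred_eq] at ha
      simp only [Finset.coe_range, Set.mem_Iio]
      have := a.isLt
      omega
    · intro a _ b _ hab
      ext
      exact hab

/-- number of `a < R` with `0 ≤ a + d < R` -/
theorem card_shift (R : ℕ) (d : ℤ) :
    (R : ℝ) - |(d : ℝ)| ≤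
      ∑ a : Fin R, (if 0 ≤ ((a : ℕ) : ℤ) + d ∧ ((a : ℕ) : ℤ) + d < R then (1 : ℝ) else 0) := by
  have hbad : ∑ a : Fin R, (if ¬ (0 ≤ ((a : ℕ) : ℤ) + d ∧ ((a : ℕ) : ℤ) + d < R) then (1 : ℝ) else 0)
      ≤ |(d : ℝ)| := by
    rw [Finset.sum_boole]
    have h := card_bad R d
    have h2 : ((d.natAbs : ℕ) : ℝ) = |(d : ℝ)| := by
      rw [Nat.cast_natAbs]; simp
    rw [← h2]
    exact_mod_cast h
  have hsum : ∑ a : Fin R, (if 0 ≤ ((a : ℕ) : ℤ) + d ∧ ((a : ℕ) : ℤ) + d < R then (1 : ℝ) else 0) +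
      ∑ a : Fin R, (if ¬ (0 ≤ ((a : ℕ) : ℤ) + d ∧ ((a : ℕ) : ℤ) + d < R) then (1 : ℝ) else 0) = R := by
    rw [← Finset.sum_add_distrib]
    have : ∀ a : Fin R, ((if 0 ≤ ((a : ℕ) : ℤ) + d ∧ ((a : ℕ) : ℤ) + d < R then (1 : ℝ) else 0) +
      (if ¬ (0 ≤ ((a : ℕ) : ℤ) + d ∧ ((a : ℕ) : ℤ) + d < R) then (1 : ℝ) else 0)) = 1 := by
      intro a; split_ifs <;> simp
    rw [Finset.sum_congr rfl (fun a _ => this a)]
    simp
  linarith

section chain
variable {Λ : Type} [LinearOrder Λ] {S : Type} (h : S → Λ ≃o Λ) (m : S → Λ →₀ ℤ) (Q : Finset Λ)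
  {Ω : Type} [Fintype Ω] (μ : Ω → ℝ) (ζ : Ω → ℕ → ℕ) (N R : ℕ)

/-- state space -/
abbrev V (k N R : ℕ) : Type := (Fin k → Fin (N + 1)) × (Fin (N + 1) → Fin R)

/-- the random sequence with values in `Fin (N+1)` -/
def zf (ω : Ω) (i : ℕ) : Fin (N + 1) := Fin.ofNat (N + 1) (ζ ω i)

/-- source configuration -/
def za (s : S) (ω : Ω) : Fin Q.card → Fin (N + 1) :=
  fun j => zf ζ N ω (rkF (Qs (h s) Q) (Q.orderEmbOfFin rfl j))

/-- target configuration -/
def zb (s : S) (ω : Ω) : Fin Q.card → Fin (N + 1) :=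
  fun j => zf ζ N ω (rkF (Qs (h s) Q) (h s (Q.orderEmbOfFin rfl j)))

/-- displacement of the `u`-coordinate -/
noncomputable def dl (s : S) (ω : Ω) (ν : Fin (N + 1)) : ℤ :=
  (m s).sum (fun q c => if zf ζ N ω (rkF (Qs (h s) Q) q) = ν then c else 0)

/-- the condition for a transition -/
def Tr (s : S) (ω : Ω) (v v' : V Q.card N R) : Prop :=
  v.1 = za h Q ζ N s ω ∧ v'.1 = zb h Q ζ N s ω ∧
    ∀ ν, ((v'.2 ν : ℕ) : ℤ) = ((v.2 ν : ℕ) : ℤ) + dl h m Q ζ N s ω ν

open Classical in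
/-- the joint measure of letter `s` -/
noncomputable def J (s : S) (v v' : V Q.card N R) : ℝ :=
  av μ (fun ω => if Tr h m Q ζ N R s ω v v' then (((R : ℝ) ^ (N + 1))⁻¹) else 0)

theorem J_nonneg (hμ : ∀ ω, 0 ≤ μ ω) (s : S) (v v' : V Q.card N R) : 0 ≤ J h m Q μ ζ N R s v v' := by
  unfold J
  refine av_nonneg hμ fun ω => ?_
  split_ifs <;> positivity

theorem dl_inv (inv : S → S) (h_inv : ∀ s, h (inv s) = (h s).symm)
    (m_inv : ∀ s, m (inv s) = -(Finsupp.mapDomain (h s).symm (m s))) (s : S) (ω : Ω)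
    (ν : Fin (N + 1)) : dl h m Q ζ N (inv s) ω ν = - dl h m Q ζ N s ω ν := by
  unfold dl
  rw [m_inv s, h_inv s]
  rw [Finsupp.sum_neg_index (by intro a; simp)]
  rw [Finsupp.sum_mapDomain_index_inj (f := (h s).symm) (h s).symm.injective]
  unfold Finsupp.sum
  rw [← Finset.sum_neg_distrib]
  refine Finset.sum_congr rfl fun q _ => ?_
  beta_reduce
  rw [rk_symm]
  split_ifs <;> simp

theorem J_symm (inv : S → S) (h_inv : ∀ s, h (inv s) = (h s).symm)
    (m_inv : ∀ s, m (inv s) = -(Finsupp.mapDomain (h s).symm (m s))) (s : S)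
    (v v' : V Q.card N R) : J h m Q μ ζ N R (inv s) v' v = J h m Q μ ζ N R s v v' := by
  classical
  unfold J
  congr 1
  funext ω
  have e1 : za h Q ζ N (inv s) ω = zb h Q ζ N s ω := by
    funext j
    unfold za zb
    rw [h_inv s, rk_symm']
  have e2 : zb h Q ζ N (inv s) ω = za h Q ζ N s ω := by
    funext j
    unfold za zb
    rw [h_inv s, rk_symm]
  have : Tr h m Q ζ N R (inv s) ω v' v ↔ Tr h m Q ζ N R s ω v v' := by
    unfold Tr
    rw [e1, e2]
    constructor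
    · rintro ⟨a, b, c⟩
      refine ⟨b, a, fun ν => ?_⟩
      have := c ν
      rw [dl_inv h m Q ζ N inv h_inv m_inv] at this
      linarith
    · rintro ⟨a, b, c⟩
      refine ⟨b, a, fun ν => ?_⟩
      have := c ν
      rw [dl_inv h m Q ζ N inv h_inv m_inv]
      linarith
  exact if_congr this rfl rfl

open Classical in
/-- probability of a source configuration -/
noncomputable def Pz (s : S) (z : Fin Q.card → Fin (N + 1)) : ℝ :=
  av μ (fun ω => if z = za h Q ζ N s ω then (1 : ℝ) else 0)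

theorem Tr_unique (s : S) (ω : Ω) (v v' v'' : V Q.card N R) (h1 : Tr h m Q ζ N R s ω v v')
    (h2 : Tr h m Q ζ N R s ω v v'') : v' = v'' := by
  obtain ⟨_, b, c⟩ := h1
  obtain ⟨_, b', c'⟩ := h2
  refine Prod.ext (b.trans b'.symm) ?_
  funext ν
  have := c ν
  have := c' ν
  ext
  omega

open Classical in
theorem sum_Tr_le (s : S) (ω : Ω) (v : V Q.card N R) (c : ℝ) (hc : 0 ≤ c) :
    ∑ v', (if Tr h m Q ζ N R s ω v v' then c else 0) ≤ if v.1 = za h Q ζ N s ω then c else 0 := by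
  by_cases hv : ∃ v', Tr h m Q ζ N R s ω v v'
  · obtain ⟨v₀, hv₀⟩ := hv
    rw [if_pos hv₀.1, Finset.sum_eq_single v₀]
    · rw [if_pos hv₀]
    · intro v' _ hne
      rw [if_neg]
      intro h'
      exact hne (Tr_unique h m Q ζ N R s ω v v' v₀ h' hv₀)
    · intro h'
      exact absurd (Finset.mem_univ _) h'
  · rw [Finset.sum_eq_zero]
    · split_ifs
      · exact hc
      · exact le_rfl
    · intro v' _
      rw [if_neg]
      intro h'
      exact hv ⟨v', h'⟩

theorem sum_J_le (hμ : ∀ ω, 0 ≤ μ ω) (s : S) (v : V Q.card N R) :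
    ∑ v', J h m Q μ ζ N R s v v' ≤ ((R : ℝ) ^ (N + 1))⁻¹ * Pz h Q μ ζ N s v.1 := by
  classical
  unfold J Pz
  rw [← av_sum, ← av_mulL]
  refine av_mono hμ fun ω => ?_
  refine (sum_Tr_le h m Q ζ N R s ω v _ (by positivity)).trans ?_
  split_ifs <;> simp

/-- displacement vector of one letter, in terms of the vector `m s` -/
theorem sum_dl {X : Type*} [NormedAddCommGroup X] [NormedSpace ℝ X] (x : Fin (N + 1) → X) (s : S)
    (ω : Ω) : ∑ ν, (dl h m Q ζ N s ω ν : ℝ) • x ν =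
      (m s).sum (fun q c => (c : ℝ) • x (zf ζ N ω (rkF (Qs (h s) Q) q))) := by
  unfold dl Finsupp.sum
  have : ∀ ν, ((∑ q ∈ (m s).support, (if zf ζ N ω (rkF (Qs (h s) Q) q) = ν then (m s) q else 0) : ℤ)
      : ℝ) • x ν = ∑ q ∈ (m s).support,
        (if zf ζ N ω (rkF (Qs (h s) Q) q) = ν then ((m s) q : ℝ) • x ν else 0) := by
    intro ν
    rw [Int.cast_sum, Finset.sum_smul]
    refine Finset.sum_congr rfl fun q _ => ?_
    split_ifs <;> simp
  rw [Finset.sum_congr rfl fun ν _ => this ν, Finset.sum_comm]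
  refine Finset.sum_congr rfl fun q _ => ?_
  rw [Finset.sum_ite_eq Finset.univ (zf ζ N ω (rkF (Qs (h s) Q) q))
    (fun ν => ((m s) q : ℝ) • x ν)]
  simp

theorem sum_abs_dl (s : S) (ω : Ω) : ∑ ν, |(dl h m Q ζ N s ω ν : ℝ)| ≤ l1 (m s) := by
  unfold dl Finsupp.sum l1
  have : ∀ ν, |((∑ q ∈ (m s).support, (if zf ζ N ω (rkF (Qs (h s) Q) q) = ν then (m s) q else 0) : ℤ)
      : ℝ)| ≤ ∑ q ∈ (m s).support,
        (if zf ζ N ω (rkF (Qs (h s) Q) q) = ν then |((m s) q : ℝ)| else 0) := by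
    intro ν
    rw [Int.cast_sum]
    refine (Finset.abs_sum_le_sum_abs _ _).trans ?_
    refine Finset.sum_le_sum fun q _ => ?_
    split_ifs <;> simp
  refine (Finset.sum_le_sum fun ν _ => this ν).trans ?_
  rw [Finset.sum_comm]
  refine Finset.sum_le_sum fun q _ => ?_
  rw [Finset.sum_ite_eq Finset.univ (zf ζ N ω (rkF (Qs (h s) Q) q))
    (fun _ => |((m s) q : ℝ)|)]
  simp

/-- the function on states -/
noncomputable def fst {X : Type*} [NormedAddCommGroup X] [NormedSpace ℝ X] (x : Fin (N + 1) → X)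
    (v : V Q.card N R) : X := ∑ ν, ((v.2 ν : ℕ) : ℝ) • x ν

theorem fst_sub {X : Type*} [NormedAddCommGroup X] [NormedSpace ℝ X] (x : Fin (N + 1) → X) (s : S)
    (hm : (m s).support ⊆ Q) (ω : Ω) (v v' : V Q.card N R) (hT : Tr h m Q ζ N R s ω v v') :
    fst Q N R x v' - fst Q N R x v = Dv Q x (m s) (za h Q ζ N s ω) := by
  have e1 : Dv Q x (m s) (za h Q ζ N s ω) = ∑ ν, (dl h m Q ζ N s ω ν : ℝ) • x ν := by
    rw [sum_dl]
    exact Dv_rank Q x (m s) hm (fun q => zf ζ N ω (rkF (Qs (h s) Q) q))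
  rw [e1]
  unfold fst
  rw [← Finset.sum_sub_distrib]
  refine Finset.sum_congr rfl fun ν _ => ?_
  rw [← sub_smul]
  congr 1
  have := hT.2.2 ν
  have h2 : (((v'.2 ν : ℕ) : ℤ) : ℝ) = (((v.2 ν : ℕ) : ℤ) : ℝ) + (dl h m Q ζ N s ω ν : ℝ) := by
    rw [this]; push_cast; ring
  push_cast at h2
  linarith

/-- path property -/
theorem path_step {X : Type*} [NormedAddCommGroup X] [NormedSpace ℝ X] (x : Fin (N + 1) → X) (s : S)
    (hm : (m s).support ⊆ Q) (b : Λ →₀ ℤ) (hb : b.support ⊆ Q)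
    (hb' : (Finsupp.mapDomain (h s) b).support ⊆ Q) (v v' : V Q.card N R)
    (hJ : J h m Q μ ζ N R s v v' ≠ 0) :
    Dv Q x (m s + Finsupp.mapDomain (h s) b) v.1 =
      (fst Q N R x v' - fst Q N R x v) + Dv Q x b v'.1 := by
  classical
  have : ∃ ω, Tr h m Q ζ N R s ω v v' := by
    by_contra hcon
    push Not at hcon
    apply hJ
    unfold J
    simp [hcon, av]
  obtain ⟨ω, hω⟩ := this
  rw [fst_sub h m Q ζ N R x s hm ω v v' hω, Dv_add, hω.1, hω.2.1]
  congr 1
  exact (Dv_move Q x b (h s) hb hb' (fun q => zf ζ N ω (rkF (Qs (h s) Q) q))).symm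

open Classical in
/-- mass of the transitions for one `ω` -/
theorem mass_le (s : S) (ω : Ω) :
    ∑ v, ∑ v', (if Tr h m Q ζ N R s ω v v' then (((R : ℝ) ^ (N + 1))⁻¹) else 0) ≤ 1 := by
  refine (Finset.sum_le_sum fun v _ => sum_Tr_le h m Q ζ N R s ω v _ (by positivity)).trans ?_
  rw [Fintype.sum_prod_type]
  simp only
  rw [Finset.sum_eq_single (za h Q ζ N s ω)]
  · simp only [if_true, Finset.sum_const, Finset.card_univ, Fintype.card_fun, Fintype.card_fin,
      nsmul_eq_mul, Nat.cast_pow]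
    rcases eq_or_ne R 0 with rfl | hR
    · simp
    · rw [mul_inv_cancel₀]
      positivity
  · intro z _ hz
    simp [hz]
  · intro h'
    exact absurd (Finset.mem_univ _) h'

open Classical in
theorem le_mass (hR : 1 ≤ R) (s : S) (ω : Ω) :
    1 - l1 (m s) / R ≤
      ∑ v, ∑ v', (if Tr h m Q ζ N R s ω v v' then (((R : ℝ) ^ (N + 1))⁻¹) else 0) := by
  have hR0 : (0 : ℝ) < R := by exact_mod_cast hR
  -- lower bound by good `u`
  set d : Fin (N + 1) → ℤ := dl h m Q ζ N s ω with hd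
  have h1 : ∀ u : Fin (N + 1) → Fin R,
      (((R : ℝ) ^ (N + 1))⁻¹) * ∏ ν, (if 0 ≤ ((u ν : ℕ) : ℤ) + d ν ∧ ((u ν : ℕ) : ℤ) + d ν < R
        then (1 : ℝ) else 0) ≤
      ∑ v', (if Tr h m Q ζ N R s ω (za h Q ζ N s ω, u) v' then (((R : ℝ) ^ (N + 1))⁻¹) else 0) := by
    intro u
    by_cases hu : ∀ ν, 0 ≤ ((u ν : ℕ) : ℤ) + d ν ∧ ((u ν : ℕ) : ℤ) + d ν < R
    · have hT : Tr h m Q ζ N R s ω (za h Q ζ N s ω, u)
          (zb h Q ζ N s ω, fun ν => ⟨(((u ν : ℕ) : ℤ) + d ν).toNat, by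
            have := hu ν; omega⟩) := by
        refine ⟨rfl, rfl, fun ν => ?_⟩
        have := hu ν
        simp only
        rw [Int.toNat_of_nonneg this.1]
      have h2 := Finset.single_le_sum (f := fun v' =>
        (if Tr h m Q ζ N R s ω (za h Q ζ N s ω, u) v' then (((R : ℝ) ^ (N + 1))⁻¹) else 0))
        (fun v' _ => by split_ifs <;> positivity) (Finset.mem_univ
          ((zb h Q ζ N s ω, fun ν => ⟨(((u ν : ℕ) : ℤ) + d ν).toNat, by
            have := hu ν; omega⟩) : V Q.card N R))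
      refine le_trans ?_ h2
      rw [if_pos hT, Finset.prod_eq_one, mul_one]
      intro ν _
      rw [if_pos (hu ν)]
    · push Not at hu
      obtain ⟨ν, hν⟩ := hu
      rw [Finset.prod_eq_zero (Finset.mem_univ ν), mul_zero]
      · exact Finset.sum_nonneg fun v' _ => by split_ifs <;> positivity
      · rw [if_neg]
        rintro ⟨a, b⟩
        exact absurd (hν a) (not_le.mpr b)
  have h3 : ∑ u : Fin (N + 1) → Fin R, (((R : ℝ) ^ (N + 1))⁻¹) *
      ∏ ν, (if 0 ≤ ((u ν : ℕ) : ℤ) + d ν ∧ ((u ν : ℕ) : ℤ) + d ν < R then (1 : ℝ) else 0) ≤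
      ∑ v, ∑ v', (if Tr h m Q ζ N R s ω v v' then (((R : ℝ) ^ (N + 1))⁻¹) else 0) := by
    rw [Fintype.sum_prod_type]
    have h4 := Finset.single_le_sum (f := fun z : Fin Q.card → Fin (N + 1) =>
      ∑ u : Fin (N + 1) → Fin R, ∑ v', (if Tr h m Q ζ N R s ω (z, u) v' then
        (((R : ℝ) ^ (N + 1))⁻¹) else 0)) (fun z _ => Finset.sum_nonneg fun u _ =>
          Finset.sum_nonneg fun v' _ => by split_ifs <;> positivity)
          (Finset.mem_univ (za h Q ζ N s ω))
    exact (Finset.sum_le_sum fun u _ => h1 u).trans h4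
  refine le_trans ?_ h3
  rw [← Finset.mul_sum]
  have h5 : ∑ u : Fin (N + 1) → Fin R,
      ∏ ν, (if 0 ≤ ((u ν : ℕ) : ℤ) + d ν ∧ ((u ν : ℕ) : ℤ) + d ν < R then (1 : ℝ) else 0) =
      ∏ ν, ∑ a : Fin R, (if 0 ≤ ((a : ℕ) : ℤ) + d ν ∧ ((a : ℕ) : ℤ) + d ν < R then (1 : ℝ) else 0) := by
    rw [Finset.prod_univ_sum]
    simp
  rw [h5]
  set y : Fin (N + 1) → ℝ := fun ν => (∑ a : Fin R,
    (if 0 ≤ ((a : ℕ) : ℤ) + d ν ∧ ((a : ℕ) : ℤ) + d ν < R then (1 : ℝ) else 0)) / R with hy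
  have h6 : (((R : ℝ) ^ (N + 1))⁻¹) * ∏ ν, ∑ a : Fin R,
      (if 0 ≤ ((a : ℕ) : ℤ) + d ν ∧ ((a : ℕ) : ℤ) + d ν < R then (1 : ℝ) else 0) = ∏ ν, y ν := by
    rw [hy, Finset.prod_div_distrib]
    simp only [Finset.prod_const, Finset.card_univ, Fintype.card_fin]
    rw [div_eq_inv_mul]
  rw [h6]
  have hy0 : ∀ ν, 0 ≤ y ν := fun ν => div_nonneg (Finset.sum_nonneg fun a _ => by
    split_ifs <;> positivity) hR0.le
  have hy1 : ∀ ν, y ν ≤ 1 := by
    intro ν
    rw [hy]
    simp only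
    rw [div_le_one hR0]
    refine (Finset.sum_le_sum (g := fun _ => (1 : ℝ)) fun a _ => ?_).trans ?_
    · split_ifs <;> norm_num
    · simp
  refine le_trans ?_ (one_sub_le_prod Finset.univ y hy0 hy1).1
  have h7 : ∑ ν, (1 - y ν) ≤ l1 (m s) / R := by
    refine le_trans (Finset.sum_le_sum (g := fun ν => |(d ν : ℝ)| / R) fun ν _ => ?_) ?_
    · have := card_shift R (d ν)
      rw [hy]
      simp only
      rw [sub_le_iff_le_add, ← add_div, le_div_iff₀ hR0]
      linarith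
    · rw [← Finset.sum_div]
      exact div_le_div_of_nonneg_right (sum_abs_dl h m Q ζ N s ω) hR0.le
  linarith

/-- total mass of `J s` -/
theorem le_sum_J (hμ : ∀ ω, 0 ≤ μ ω) (hμ1 : ∑ ω, μ ω = 1) (hR : 1 ≤ R) (s : S) :
    1 - l1 (m s) / R ≤ ∑ v, ∑ v', J h m Q μ ζ N R s v v' := by
  classical
  unfold J
  have : ∑ v, ∑ v', av μ (fun ω => if Tr h m Q ζ N R s ω v v' then (((R : ℝ) ^ (N + 1))⁻¹) else 0) =
      av μ (fun ω => ∑ v, ∑ v', if Tr h m Q ζ N R s ω v v' then (((R : ℝ) ^ (N + 1))⁻¹) else 0) := by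
    rw [av_sum]
    refine Finset.sum_congr rfl fun v _ => ?_
    rw [av_sum]
  rw [this, ← av_const hμ1 (1 - l1 (m s) / R)]
  exact av_mono hμ fun ω => le_mass h m Q ζ N R hR s ω

/-- energy of one letter -/
theorem energy_le (hμ : ∀ ω, 0 ≤ μ ω) {X : Type*} [NormedAddCommGroup X] [NormedSpace ℝ X] (x : Fin (N + 1) → X) (s : S)
    (hm : (m s).support ⊆ Q) (p : ℝ) :
    ∑ v, ∑ v', J h m Q μ ζ N R s v v' * ‖fst Q N R x v' - fst Q N R x v‖ ^ p ≤
      av μ (fun ω => ‖Dv Q x (m s) (za h Q ζ N s ω)‖ ^ p) := by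
  classical
  unfold J
  have : ∑ v, ∑ v', av μ (fun ω => if Tr h m Q ζ N R s ω v v' then (((R : ℝ) ^ (N + 1))⁻¹) else 0) *
        ‖fst Q N R x v' - fst Q N R x v‖ ^ p =
      av μ (fun ω => ∑ v, ∑ v', (if Tr h m Q ζ N R s ω v v' then (((R : ℝ) ^ (N + 1))⁻¹) else 0) *
        ‖fst Q N R x v' - fst Q N R x v‖ ^ p) := by
    rw [av_sum]
    refine Finset.sum_congr rfl fun v _ => ?_
    rw [av_sum]
    refine Finset.sum_congr rfl fun v' _ => ?_
    rw [av_mulR]
  rw [this]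
  refine av_mono hμ fun ω => ?_
  have e1 : ∀ v v', (if Tr h m Q ζ N R s ω v v' then (((R : ℝ) ^ (N + 1))⁻¹) else 0) *
        ‖fst Q N R x v' - fst Q N R x v‖ ^ p =
      (if Tr h m Q ζ N R s ω v v' then (((R : ℝ) ^ (N + 1))⁻¹) else 0) *
        ‖Dv Q x (m s) (za h Q ζ N s ω)‖ ^ p := by
    intro v v'
    split_ifs with hT
    · rw [fst_sub h m Q ζ N R x s hm ω v v' hT]
    · simp
  rw [Finset.sum_congr rfl fun v _ => Finset.sum_congr rfl fun v' _ => e1 v v']
  simp only [← Finset.sum_mul]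
  have := mass_le h m Q ζ N R s ω
  have hp : 0 ≤ ‖Dv Q x (m s) (za h Q ζ N s ω)‖ ^ p := by positivity
  calc _ ≤ 1 * ‖Dv Q x (m s) (za h Q ζ N s ω)‖ ^ p := mul_le_mul_of_nonneg_right this hp
    _ = _ := one_mul _

end chain

end Crest.Agent.R140.C3
end

-- ▼ part R140/Chain
section

set_option autoImplicit false
open Crest.AnalysisR

namespace Crest.Agent.R140

open Finset

/-- average over all words of length `t` in the alphabet `S` (recursive form). -/
noncomputable def wordAvg {S : Type} [Fintype S] : ℕ → (List S → ℝ) → ℝ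
  | 0, F => F []
  | t + 1, F => ((Fintype.card S : ℝ))⁻¹ * ∑ s : S, wordAvg t (fun w => F (s :: w))

section wordAvg

variable {S : Type} [Fintype S]

@[simp] lemma wordAvg_zero (F : List S → ℝ) : wordAvg 0 F = F [] := rfl

lemma wordAvg_succ (t : ℕ) (F : List S → ℝ) :
    wordAvg (t + 1) F = ((Fintype.card S : ℝ))⁻¹ * ∑ s : S, wordAvg t (fun w => F (s :: w)) := rfl

lemma wordAvg_congr (t : ℕ) (F G : List S → ℝ) (h : ∀ w : List S, w.length = t → F w = G w) :
    wordAvg t F = wordAvg t G := by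
  induction t generalizing F G with
  | zero => exact h [] rfl
  | succ t ih =>
    rw [wordAvg_succ, wordAvg_succ]
    congr 1
    refine Finset.sum_congr rfl (fun s _ => ih _ _ (fun w hw => h _ (by simp [hw])))

lemma wordAvg_mono (t : ℕ) (F G : List S → ℝ) (h : ∀ w : List S, w.length = t → F w ≤ G w) :
    wordAvg t F ≤ wordAvg t G := by
  induction t generalizing F G with
  | zero => exact h [] rfl
  | succ t ih =>
    rw [wordAvg_succ, wordAvg_succ]
    refine mul_le_mul_of_nonneg_left ?_ (by positivity)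
    exact Finset.sum_le_sum (fun s _ => ih _ _ (fun w hw => h _ (by simp [hw])))

lemma wordAvg_add (t : ℕ) (F G : List S → ℝ) :
    wordAvg t (fun w => F w + G w) = wordAvg t F + wordAvg t G := by
  induction t generalizing F G with
  | zero => rfl
  | succ t ih =>
    rw [wordAvg_succ, wordAvg_succ, wordAvg_succ, ← mul_add, ← Finset.sum_add_distrib]
    congr 1
    exact Finset.sum_congr rfl (fun s _ => ih _ _)

lemma wordAvg_mul_left (t : ℕ) (c : ℝ) (F : List S → ℝ) :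
    wordAvg t (fun w => c * F w) = c * wordAvg t F := by
  induction t generalizing F with
  | zero => rfl
  | succ t ih =>
    rw [wordAvg_succ, wordAvg_succ, mul_left_comm]
    congr 1
    rw [Finset.mul_sum]
    exact Finset.sum_congr rfl (fun s _ => ih _)


lemma wordAvg_const [Nonempty S] (t : ℕ) (c : ℝ) : wordAvg (S := S) t (fun _ => c) = c := by
  induction t with
  | zero => rfl
  | succ t ih =>
    rw [wordAvg_succ]
    simp only [ih, Finset.sum_const, Finset.card_univ, nsmul_eq_mul]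
    have : (Fintype.card S : ℝ) ≠ 0 := by exact_mod_cast Fintype.card_ne_zero
    field_simp


lemma wordAvg_sum {ι : Type*} (A : Finset ι) (t : ℕ) (F : ι → List S → ℝ) :
    wordAvg t (fun w => ∑ i ∈ A, F i w) = ∑ i ∈ A, wordAvg t (F i) := by
  classical
  induction A using Finset.induction_on with
  | empty =>
    simp only [Finset.sum_empty]
    have := wordAvg_mul_left (S := S) t 0 (fun _ => 0)
    simpa using this
  | insert a A ha ih =>
    simp only [Finset.sum_insert ha]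
    rw [wordAvg_add, ih]


end wordAvg

/-- `Path J w v v'`: some path from `v` to `v'` whose successive steps are labelled by the letters
of the word `w` and have positive weight. -/
def Path {V S : Type} (J : S → V → V → ℝ) : List S → V → V → Prop
  | [], v, v' => v = v'
  | s :: w, v, v'' => ∃ v', 0 < J s v v' ∧ Path J w v' v''

section chain

variable {X : Type*} [NormedAddCommGroup X] {V S : Type} [Fintype V] [DecidableEq V] [Fintype S]

/-- word matrices of the substochastic kernels `J s v v' / ρ v`. -/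
noncomputable def wordMat (J : S → V → V → ℝ) (ρ : V → ℝ) : List S → Matrix V V ℝ
  | [] => 1
  | s :: w => (Matrix.of fun v v' => J s v v' / ρ v) * wordMat J ρ w

omit [Fintype S] in
lemma wordMat_nonneg (J : S → V → V → ℝ) (ρ : V → ℝ) (hJ0 : ∀ s v v', 0 ≤ J s v v')
    (hρ0 : ∀ v, 0 ≤ ρ v) (w : List S) (v v' : V) : 0 ≤ wordMat J ρ w v v' := by
  induction w generalizing v v' with
  | nil =>
    simp only [wordMat, Matrix.one_apply]
    split_ifs <;> norm_num
  | cons s w ih =>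
    simp only [wordMat, Matrix.mul_apply, Matrix.of_apply]
    exact Finset.sum_nonneg (fun i _ => mul_nonneg (div_nonneg (hJ0 _ _ _) (hρ0 _)) (ih _ _))

omit [Fintype S] in
lemma wordMat_pos_path (J : S → V → V → ℝ) (ρ : V → ℝ) (hJ0 : ∀ s v v', 0 ≤ J s v v')
    (w : List S) (v v' : V) (h : wordMat J ρ w v v' ≠ 0) :
    Path J w v v' := by
  induction w generalizing v v' with
  | nil =>
    simp only [wordMat, Matrix.one_apply] at h
    by_contra hne
    exact h (if_neg hne)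
  | cons s w ih =>
    simp only [wordMat, Matrix.mul_apply, Matrix.of_apply] at h
    obtain ⟨u, -, hu⟩ := Finset.exists_ne_zero_of_sum_ne_zero h
    refine ⟨u, ?_, ih _ _ (right_ne_zero_of_mul hu)⟩
    have h2 := left_ne_zero_of_mul hu
    rcases (hJ0 s v u).lt_or_eq with h3 | h3
    · exact h3
    · exact absurd (by rw [← h3, zero_div]) h2

omit [Fintype S] [DecidableEq V] in
lemma J_div_mul (J : S → V → V → ℝ) (ρ : V → ℝ) (hJ0 : ∀ s v v', 0 ≤ J s v v')
    (hρ : ∀ s v, ∑ v', J s v v' ≤ ρ v) (s : S) (v v' : V) :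
    ρ v * (J s v v' / ρ v) = J s v v' := by
  by_cases h : ρ v = 0
  · have h1 : J s v v' ≤ ∑ v', J s v v' :=
      Finset.single_le_sum (f := fun v' => J s v v') (fun i _ => hJ0 s v i) (Finset.mem_univ v')
    have h2 := hρ s v
    have h3 := hJ0 s v v'
    rw [h] at h2 ⊢
    have : J s v v' = 0 := le_antisymm (h1.trans h2) h3
    rw [this]; simp
  · field_simp

omit [Fintype S] in
/-- row sums of the word matrices are at most one. -/
lemma wordMat_row_le (J : S → V → V → ℝ) (ρ : V → ℝ) (hJ0 : ∀ s v v', 0 ≤ J s v v')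
    (hρ0 : ∀ v, 0 ≤ ρ v)
    (hρ : ∀ s v, ∑ v', J s v v' ≤ ρ v) (w : List S) (v : V) :
    ∑ v', wordMat J ρ w v v' ≤ 1 := by
  induction w generalizing v with
  | nil => simp [wordMat, Matrix.one_apply]
  | cons s w ih =>
    simp only [wordMat, Matrix.mul_apply, Matrix.of_apply]
    rw [Finset.sum_comm]
    calc ∑ y, ∑ x, J s v y / ρ v * wordMat J ρ w y x
        = ∑ y, J s v y / ρ v * ∑ x, wordMat J ρ w y x := by
          refine Finset.sum_congr rfl (fun y _ => ?_)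
          rw [Finset.mul_sum]
      _ ≤ ∑ y, J s v y / ρ v * 1 := by
          refine Finset.sum_le_sum (fun y _ => mul_le_mul_of_nonneg_left (ih y)
            (div_nonneg (hJ0 _ _ _) (hρ0 _)))
      _ = (∑ y, J s v y) / ρ v := by
          simp only [mul_one]
          rw [Finset.sum_div]
      _ ≤ 1 := by
          exact div_le_one_of_le₀ (hρ s v) (hρ0 v)

/-- the loss of mass along a word. -/
lemma wordMat_mass (J : S → V → V → ℝ) (ρ : V → ℝ) (inv : S → S)
    (hJ0 : ∀ s v v', 0 ≤ J s v v') (hJs : ∀ s v v', J s v v' = J (inv s) v' v)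
    (hρ0 : ∀ v, 0 ≤ ρ v)
    (hρ : ∀ s v, ∑ v', J s v v' ≤ ρ v) (w : List S) :
    ∑ v, ρ v - w.length * ∑ v, ∑ s, (ρ v - ∑ v', J s v v') ≤
      ∑ v, ρ v * ∑ v', wordMat J ρ w v v' := by
  induction w with
  | nil => simp [wordMat, Matrix.one_apply]
  | cons s w ih =>
    have e1 : ∑ v, ρ v * ∑ v', wordMat J ρ (s :: w) v v' =
        ∑ y, (∑ v', J (inv s) y v') * ∑ x, wordMat J ρ w y x := by
      simp only [wordMat, Matrix.mul_apply, Matrix.of_apply]
      calc ∑ v, ρ v * ∑ v', ∑ y, J s v y / ρ v * wordMat J ρ w y v'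
          = ∑ v, ∑ y, J s v y * ∑ v', wordMat J ρ w y v' := by
            refine Finset.sum_congr rfl (fun v _ => ?_)
            rw [Finset.sum_comm, Finset.mul_sum]
            refine Finset.sum_congr rfl (fun y _ => ?_)
            rw [← Finset.mul_sum, ← mul_assoc, J_div_mul J ρ hJ0 hρ]
        _ = ∑ y, ∑ v, J s v y * ∑ v', wordMat J ρ w y v' := Finset.sum_comm
        _ = _ := by
            refine Finset.sum_congr rfl (fun y _ => ?_)
            rw [← Finset.sum_mul]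
            congr 1
            exact Finset.sum_congr rfl (fun v _ => hJs s v y)
    rw [e1]
    have e2 : ∑ y, ρ y * (∑ x, wordMat J ρ w y x) - ∑ v, ∑ s, (ρ v - ∑ v', J s v v') ≤
        ∑ y, (∑ v', J (inv s) y v') * ∑ x, wordMat J ρ w y x := by
      rw [← Finset.sum_sub_distrib]
      refine Finset.sum_le_sum (fun y _ => ?_)
      have a1 := wordMat_row_le J ρ hJ0 hρ0 hρ w y
      have a0 : 0 ≤ ∑ x, wordMat J ρ w y x :=
        Finset.sum_nonneg (fun x _ => wordMat_nonneg J ρ hJ0 hρ0 w y x)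
      have a2 : ρ y - ∑ v', J (inv s) y v' ≤ ∑ s, (ρ y - ∑ v', J s y v') :=
        Finset.single_le_sum (f := fun s => ρ y - ∑ v', J s y v')
          (fun i _ => sub_nonneg.2 (hρ i y)) (Finset.mem_univ (inv s))
      have a3 : 0 ≤ ρ y - ∑ v', J (inv s) y v' := sub_nonneg.2 (hρ _ _)
      nlinarith
    have e3 : ((s :: w).length : ℝ) = (w.length : ℝ) + 1 := by simp
    rw [e3]
    nlinarith

lemma wordAvg_wordMat (J : S → V → V → ℝ) (ρ : V → ℝ) (t : ℕ) (v v' : V) :
    ((Matrix.of fun v v' => (Fintype.card S : ℝ)⁻¹ * ∑ s, J s v v' / ρ v : Matrix V V ℝ) ^ t) v v' =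
      wordAvg t (fun w => wordMat J ρ w v v') := by
  induction t generalizing v v' with
  | zero => simp [wordMat]
  | succ t ih =>
    rw [pow_succ', Matrix.mul_apply, wordAvg_succ]
    simp only [wordMat, Matrix.mul_apply, Matrix.of_apply]
    have : ∀ s : S, wordAvg t (fun w => ∑ j, J s v j / ρ v * wordMat J ρ w j v') =
        ∑ j, J s v j / ρ v * wordAvg t (fun w => wordMat J ρ w j v') := by
      intro s
      rw [wordAvg_sum]
      exact Finset.sum_congr rfl (fun j _ => wordAvg_mul_left t _ _)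
    simp only [this]
    rw [Finset.sum_comm, Finset.mul_sum]
    refine Finset.sum_congr rfl (fun j _ => ?_)
    rw [ih, ← Finset.sum_mul]
    ring

/-- entrywise monotonicity of powers of nonnegative matrices. -/
lemma pow_entry_mono (A B : Matrix V V ℝ) (hA : ∀ i j, 0 ≤ A i j) (hAB : ∀ i j, A i j ≤ B i j)
    (t : ℕ) (i j : V) : 0 ≤ (A ^ t) i j ∧ (A ^ t) i j ≤ (B ^ t) i j := by
  induction t generalizing i j with
  | zero =>
    simp only [pow_zero, Matrix.one_apply]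
    constructor
    · split_ifs <;> norm_num
    · exact le_refl _
  | succ t ih =>
    rw [pow_succ', pow_succ', Matrix.mul_apply, Matrix.mul_apply]
    constructor
    · exact Finset.sum_nonneg (fun k _ => mul_nonneg (hA _ _) (ih _ _).1)
    · refine Finset.sum_le_sum (fun k _ => ?_)
      exact mul_le_mul (hAB _ _) (ih _ _).2 (ih _ _).1 ((hA _ _).trans (hAB _ _))

/-- **Abstract chain inequality.**  `J s` are nonnegative kernels on a finite set `V`, symmetric up
to the involution `inv`, with all row sums at most `ρ`. If the displacement of `f` along every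
path labelled by the word `w` is a function `D w v` of the word and the starting point, Markov type
gives the displayed inequality with an explicit loss term. -/
theorem chain_ineq {p K : ℝ} (hX : HasMarkovType X p K) (hp : 1 < p) (hK : 0 < K) [Nonempty S]
    (inv : S → S) (J : S → V → V → ℝ)
    (hJ0 : ∀ s v v', 0 ≤ J s v v') (hJs : ∀ s v v', J s v v' = J (inv s) v' v)
    (hinv : ∀ s, inv (inv s) = s)
    (ρ : V → ℝ) (hρ : ∀ s v, ∑ v', J s v v' ≤ ρ v)
    (f : V → X) (t : ℕ) (ht : 1 ≤ t) (D : List S → V → ℝ)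
    (hD : ∀ w v v', w.length = t → Path J w v v' → ‖f v' - f v‖ ^ p = D w v)
    (hD0 : ∀ w v, w.length = t → 0 ≤ D w v) (B : ℝ) (hDB : ∀ w v, w.length = t → D w v ≤ B) :
    wordAvg t (fun w => ∑ v, ρ v * D w v) ≤
      K ^ p * t * ((Fintype.card S : ℝ)⁻¹ * ∑ s, ∑ v, ∑ v', J s v v' * ‖f v' - f v‖ ^ p)
        + B * t * ∑ v, ∑ s, (ρ v - ∑ v', J s v v') := by
  classical
  have hρ0 : ∀ v, 0 ≤ ρ v := fun v =>
    (Finset.sum_nonneg (fun v' _ => hJ0 (Classical.arbitrary S) v v')).trans (hρ _ v)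
  have hc : (0 : ℝ) < (Fintype.card S : ℝ) := by exact_mod_cast Fintype.card_pos
  set c : ℝ := (Fintype.card S : ℝ)⁻¹ with hcdef
  have hc0 : 0 < c := by positivity
  -- loss estimate for one word
  have hB0 : IsEmpty V ∨ 0 ≤ B := by
    rcases isEmpty_or_nonempty V with h | ⟨⟨v⟩⟩
    · exact Or.inl h
    · right
      have h1 := hD0 (List.replicate t (Classical.arbitrary S)) v (by simp)
      have h2 := hDB (List.replicate t (Classical.arbitrary S)) v (by simp)
      linarith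
  have hloss : ∀ w : List S, w.length = t →
      ∑ v, ρ v * D w v ≤ ∑ v, ∑ v', ρ v * (wordMat J ρ w v v' * ‖f v' - f v‖ ^ p)
        + B * t * ∑ v, ∑ s, (ρ v - ∑ v', J s v v') := by
    intro w hw
    rcases hB0 with hV | hB
    · simp
    have hm := wordMat_mass J ρ inv hJ0 hJs hρ0 hρ w
    rw [hw] at hm
    have e1 : ∀ v, ∑ v', ρ v * (wordMat J ρ w v v' * ‖f v' - f v‖ ^ p) =
        ρ v * D w v * ∑ v', wordMat J ρ w v v' := by
      intro v
      rw [Finset.mul_sum]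
      refine Finset.sum_congr rfl (fun v' _ => ?_)
      by_cases h : wordMat J ρ w v v' = 0
      · rw [h]; ring
      · rw [hD w v v' hw (wordMat_pos_path J ρ hJ0 w v v' h)]; ring
    simp only [e1]
    have e2 : ∑ v, ρ v * D w v - ∑ v, ρ v * D w v * ∑ v', wordMat J ρ w v v' ≤
        B * (∑ v, ρ v - ∑ v, ρ v * ∑ v', wordMat J ρ w v v') := by
      rw [← Finset.sum_sub_distrib, ← Finset.sum_sub_distrib, Finset.mul_sum]
      refine Finset.sum_le_sum (fun v _ => ?_)
      have a1 := wordMat_row_le J ρ hJ0 hρ0 hρ w v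
      have a2 : ρ v * D w v - ρ v * D w v * ∑ v', wordMat J ρ w v v' =
        D w v * (ρ v * (1 - ∑ v', wordMat J ρ w v v')) := by ring
      have a3 : B * (ρ v - ρ v * ∑ v', wordMat J ρ w v v') =
        B * (ρ v * (1 - ∑ v', wordMat J ρ w v v')) := by ring
      rw [a2, a3]
      exact mul_le_mul_of_nonneg_right (hDB w v hw) (mul_nonneg (hρ0 v) (by linarith))
    have e3 : B * (∑ v, ρ v - ∑ v, ρ v * ∑ v', wordMat J ρ w v v') ≤
        B * (t * ∑ v, ∑ s, (ρ v - ∑ v', J s v v')) := by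
      refine mul_le_mul_of_nonneg_left (by linarith) hB
    linarith [mul_assoc B (t : ℝ) (∑ v, ∑ s, (ρ v - ∑ v', J s v v'))]
  have h1 : wordAvg t (fun w => ∑ v, ρ v * D w v) ≤
      wordAvg t (fun w => ∑ v, ∑ v', ρ v * (wordMat J ρ w v v' * ‖f v' - f v‖ ^ p))
        + B * t * ∑ v, ∑ s, (ρ v - ∑ v', J s v v') := by
    have h2 := wordAvg_mono t _ _ hloss
    rw [wordAvg_add, wordAvg_const] at h2
    exact h2
  refine h1.trans ?_
  gcongr
  -- the total mass
  set R : ℝ := ∑ v, ρ v with hR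
  have hR0 : 0 ≤ R := Finset.sum_nonneg (fun v _ => hρ0 v)
  have hJJ : 0 ≤ ∑ s, ∑ v, ∑ v', J s v v' * ‖f v' - f v‖ ^ p :=
    Finset.sum_nonneg (fun s _ => Finset.sum_nonneg (fun v _ => Finset.sum_nonneg
      (fun v' _ => mul_nonneg (hJ0 _ _ _) (Real.rpow_nonneg (norm_nonneg _) _))))
  rcases hR0.eq_or_lt with hR1 | hR1
  · -- zero mass
    have hz : ∀ v, ρ v = 0 := by
      intro v
      have := (Finset.sum_eq_zero_iff_of_nonneg (fun v _ => hρ0 v)).1 hR1.symm
      exact this v (Finset.mem_univ v)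
    simp only [hz, zero_mul, Finset.sum_const_zero]
    rw [wordAvg_const]
    have : 0 ≤ K ^ p := Real.rpow_nonneg hK.le _
    positivity
  -- the chain
  let A : V → V → ℝ := fun v v' => c * ∑ s, J s v v'
  let Q : Matrix V V ℝ := Matrix.of fun v v' => c * ∑ s, J s v v' / ρ v
  let P : Matrix V V ℝ := Matrix.of fun v v' =>
    Q v v' + if v = v' then 1 - ∑ y, Q v y else 0
  have hQ0 : ∀ v v', 0 ≤ Q v v' := fun v v' =>
    mul_nonneg hc0.le (Finset.sum_nonneg (fun s _ => div_nonneg (hJ0 _ _ _) (hρ0 _)))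
  have hQρ : ∀ v v', ρ v * Q v v' = A v v' := by
    intro v v'
    simp only [Q, A, Matrix.of_apply]
    rw [mul_left_comm, Finset.mul_sum]
    congr 1
    exact Finset.sum_congr rfl (fun s _ => J_div_mul J ρ hJ0 hρ s v v')
  have hQ1 : ∀ v, ∑ y, Q v y ≤ 1 := by
    intro v
    simp only [Q, Matrix.of_apply]
    rw [← Finset.mul_sum, Finset.sum_comm]
    have : ∀ s, ∑ y, J s v y / ρ v ≤ 1 := by
      intro s
      rw [← Finset.sum_div]
      exact div_le_one_of_le₀ (hρ s v) (hρ0 v)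
    calc c * ∑ s, ∑ y, J s v y / ρ v ≤ c * ∑ s : S, 1 :=
          mul_le_mul_of_nonneg_left (Finset.sum_le_sum (fun s _ => this s)) hc0.le
      _ = 1 := by
          rw [Finset.sum_const, Finset.card_univ, nsmul_eq_mul, mul_one, hcdef]
          field_simp
  have hPnn : ∀ i j, 0 ≤ P i j := by
    intro i j
    simp only [P, Matrix.of_apply]
    refine add_nonneg (hQ0 i j) ?_
    split_ifs
    · linarith [hQ1 i]
    · exact le_refl _
  have hPQ : ∀ i j, Q i j ≤ P i j := by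
    intro i j
    simp only [P, Matrix.of_apply]
    have : 0 ≤ (if i = j then 1 - ∑ y, Q i y else 0) := by
      split_ifs
      · linarith [hQ1 i]
      · exact le_refl _
    simp only [Q, Matrix.of_apply] at this ⊢
    linarith
  have hP1 : ∀ i, ∑ j, P i j = 1 := by
    intro i
    simp only [P, Matrix.of_apply]
    rw [Finset.sum_add_distrib]
    simp
  have hAs : ∀ v v', A v v' = A v' v := by
    intro v v'
    simp only [A]
    congr 1
    let e : S ≃ S := ⟨inv, inv, hinv, hinv⟩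
    rw [← Equiv.sum_comp e (fun s => J s v' v)]
    refine Finset.sum_congr rfl (fun s _ => ?_)
    exact hJs s v v'
  have hrev : ∀ i j, ρ i / R * P i j = ρ j / R * P j i := by
    intro i j
    have h3 : ρ i * P i j = ρ j * P j i := by
      simp only [P, Matrix.of_apply]
      rw [mul_add, mul_add]
      have q1 := hQρ i j
      have q2 := hQρ j i
      simp only [Q, Matrix.of_apply] at q1 q2 ⊢
      rw [q1, q2, hAs i j]
      congr 1
      by_cases hij : i = j
      · subst hij; rfl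
      · rw [if_neg hij, if_neg (Ne.symm hij)]; simp
    rw [div_mul_eq_mul_div, div_mul_eq_mul_div, h3]
  have hMT := hX V (fun v => ρ v / R) P (fun i => div_nonneg (hρ0 i) hR0)
    (by rw [← Finset.sum_div]; exact div_self hR1.ne') hPnn hP1 hrev f t ht
  -- right side
  have hRHS : ∑ i, ∑ j, ρ i / R * P i j * ‖f j - f i‖ ^ p ≤
      R⁻¹ * (c * ∑ s, ∑ v, ∑ v', J s v v' * ‖f v' - f v‖ ^ p) := by
    have h4 : ∀ i j, ρ i / R * P i j * ‖f j - f i‖ ^ p ≤ R⁻¹ * (A i j * ‖f j - f i‖ ^ p)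
        ∨ i = j := by
      intro i j
      by_cases hij : i = j
      · exact Or.inr hij
      left
      simp only [P, Matrix.of_apply, if_neg hij, add_zero]
      have q1 := hQρ i j
      simp only [Q, Matrix.of_apply] at q1
      rw [← q1]
      have : ρ i / R * (c * ∑ s, J s i j / ρ i) * ‖f j - f i‖ ^ p =
        R⁻¹ * (ρ i * (c * ∑ s, J s i j / ρ i) * ‖f j - f i‖ ^ p) := by
        rw [div_eq_mul_inv]; ring
      exact this.le
    have hp0 : p ≠ 0 := by linarith
    have h5 : ∀ i j, ρ i / R * P i j * ‖f j - f i‖ ^ p ≤ R⁻¹ * (A i j * ‖f j - f i‖ ^ p) := by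
      intro i j
      rcases h4 i j with h | h
      · exact h
      · subst h
        rw [sub_self, norm_zero, Real.zero_rpow hp0]
        simp
    refine (Finset.sum_le_sum (fun i _ => Finset.sum_le_sum (fun j _ => h5 i j))).trans ?_
    refine le_of_eq ?_
    simp only [A, mul_assoc, ← Finset.mul_sum]
    congr 2
    simp only [Finset.sum_mul]
    calc ∑ i, ∑ j, ∑ s, J s i j * ‖f j - f i‖ ^ p
        = ∑ i, ∑ s, ∑ j, J s i j * ‖f j - f i‖ ^ p :=
          Finset.sum_congr rfl (fun i _ => Finset.sum_comm)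
      _ = ∑ s, ∑ i, ∑ j, J s i j * ‖f j - f i‖ ^ p := Finset.sum_comm
  -- left side
  have hLHS : R⁻¹ * wordAvg t (fun w => ∑ v, ∑ v', ρ v * (wordMat J ρ w v v' * ‖f v' - f v‖ ^ p)) ≤
      ∑ i, ∑ j, ρ i / R * (P ^ t) i j * ‖f j - f i‖ ^ p := by
    have h6 : wordAvg t (fun w => ∑ v, ∑ v', ρ v * (wordMat J ρ w v v' * ‖f v' - f v‖ ^ p)) =
        ∑ v, ∑ v', ρ v * (Q ^ t) v v' * ‖f v' - f v‖ ^ p := by
      rw [wordAvg_sum]
      refine Finset.sum_congr rfl (fun v _ => ?_)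
      rw [wordAvg_sum]
      refine Finset.sum_congr rfl (fun v' _ => ?_)
      have := wordAvg_wordMat J ρ t v v'
      simp only [Q]
      rw [this, mul_assoc, mul_comm (wordAvg t _) (_ : ℝ), ← wordAvg_mul_left, ← wordAvg_mul_left]
      exact wordAvg_congr t _ _ (fun w _ => by ring)
    rw [h6, Finset.mul_sum]
    refine Finset.sum_le_sum (fun i _ => ?_)
    rw [Finset.mul_sum]
    refine Finset.sum_le_sum (fun j _ => ?_)
    have h7 := (pow_entry_mono Q P hQ0 hPQ t i j).2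
    have h8 : R⁻¹ * (ρ i * (Q ^ t) i j * ‖f j - f i‖ ^ p) =
      (ρ i / R * ‖f j - f i‖ ^ p) * (Q ^ t) i j := by
      rw [div_eq_mul_inv]; ring
    have h9 : ρ i / R * (P ^ t) i j * ‖f j - f i‖ ^ p =
      (ρ i / R * ‖f j - f i‖ ^ p) * (P ^ t) i j := by ring
    rw [h8, h9]
    exact mul_le_mul_of_nonneg_left h7
      (mul_nonneg (div_nonneg (hρ0 i) hR0) (Real.rpow_nonneg (norm_nonneg _) _))
  have hKp : 0 ≤ K ^ p := Real.rpow_nonneg hK.le _
  have hfin : R⁻¹ * wordAvg t (fun w => ∑ v, ∑ v', ρ v * (wordMat J ρ w v v' * ‖f v' - f v‖ ^ p)) ≤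
      R⁻¹ * (K ^ p * t * (c * ∑ s, ∑ v, ∑ v', J s v v' * ‖f v' - f v‖ ^ p)) := by
    refine hLHS.trans (hMT.trans ?_)
    calc K ^ p * t * ∑ i, ∑ j, ρ i / R * P i j * ‖f j - f i‖ ^ p
        ≤ K ^ p * t * (R⁻¹ * (c * ∑ s, ∑ v, ∑ v', J s v v' * ‖f v' - f v‖ ^ p)) :=
          mul_le_mul_of_nonneg_left hRHS (by positivity)
      _ = _ := by ring
  exact le_of_mul_le_mul_left hfin (inv_pos.2 hR1)

end chain

end Crest.Agent.R140
private theorem rz_eccabd092f : type_of% @_root_.Crest.Agent.R140.wordMat.eq_def := @_root_.Crest.Agent.R140.wordMat.eq_def -- L133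
private theorem rz_02ddc6d690 : type_of% @_root_.Crest.Agent.R140.wordMat.eq_1 := @_root_.Crest.Agent.R140.wordMat.eq_1 -- L133
end

-- ▼ part R140/ChainConv
section

set_option autoImplicit false
open Crest.AnalysisR

namespace Crest.Agent.R140

open Finset

/-- the recursive word average is the average over `Fin t → S`. -/
lemma wordAvg_eq_sum {S : Type} [Fintype S] (t : ℕ) (F : List S → ℝ) :
    wordAvg t F = (∑ w : Fin t → S, F (List.ofFn w)) / (Fintype.card S : ℝ) ^ t := by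
  induction t generalizing F with
  | zero => simp
  | succ t ih =>
    rw [wordAvg_succ]
    simp only [ih]
    rw [← (Fin.consEquiv (fun _ => S)).sum_comp, Fintype.sum_prod_type]
    simp only [Fin.consEquiv, Equiv.coe_fn_mk]
    rw [← Finset.sum_div, pow_succ', div_eq_mul_inv, div_eq_mul_inv, mul_inv]
    have : ∀ (s : S) (w : Fin t → S), List.ofFn (Fin.cons (α := fun _ => S) s w) =
        s :: List.ofFn w := by
      intro s w
      rw [List.ofFn_succ]
      simp
    simp only [this]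
    ring

/-- displacement along a path from a recursively defined displacement function. -/
lemma path_disp {X : Type*} [AddCommGroup X] {V S : Type} (J : S → V → V → ℝ) (f : V → X)
    (t : ℕ) (E : List S → V → X) (hE0 : ∀ v, E [] v = 0)
    (hE : ∀ s w v v', w.length < t → 0 < J s v v' → E (s :: w) v = (f v' - f v) + E w v')
    (w : List S) (hw : w.length ≤ t) (v v' : V) (h : Path J w v v') :
    E w v = f v' - f v := by
  induction w generalizing v with
  | nil =>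
    have h1 : v = v' := h
    rw [hE0, h1, sub_self]
  | cons s w ih =>
    obtain ⟨u, hu, hp⟩ := h
    have hlen : w.length < t := by
      rw [List.length_cons] at hw
      omega
    have h2 := ih (le_of_lt hlen) u hp
    rw [hE s w v u hlen hu, h2]
    abel

/-- **chain inequality**, displacement form. -/
theorem chain_ineq_disp {X : Type*} [NormedAddCommGroup X] {V S : Type} [Fintype V]
    [DecidableEq V] [Fintype S] {p K : ℝ} (hX : HasMarkovType X p K) (hp : 1 < p) (hK : 0 < K)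
    [Nonempty S] (inv : S → S) (J : S → V → V → ℝ)
    (hJ0 : ∀ s v v', 0 ≤ J s v v') (hJs : ∀ s v v', J s v v' = J (inv s) v' v)
    (hinv : ∀ s, inv (inv s) = s)
    (ρ : V → ℝ) (hρ : ∀ s v, ∑ v', J s v v' ≤ ρ v)
    (f : V → X) (t : ℕ) (ht : 1 ≤ t) (E : List S → V → X) (hE0 : ∀ v, E [] v = 0)
    (hE : ∀ s w v v', w.length < t → 0 < J s v v' → E (s :: w) v = (f v' - f v) + E w v')
    (B : ℝ) (hB : ∀ w v, w.length = t → ‖E w v‖ ^ p ≤ B) :
    wordAvg t (fun w => ∑ v, ρ v * ‖E w v‖ ^ p) ≤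
      K ^ p * t * ((Fintype.card S : ℝ)⁻¹ * ∑ s, ∑ v, ∑ v', J s v v' * ‖f v' - f v‖ ^ p)
        + B * t * ∑ v, ∑ s, (ρ v - ∑ v', J s v v') := by
  refine chain_ineq hX hp hK inv J hJ0 hJs hinv ρ hρ f t ht (fun w v => ‖E w v‖ ^ p) ?_ ?_ B ?_
  · intro w v v' hw hP
    rw [path_disp J f t E hE0 hE w hw.le v v' hP]
  · intro w v _
    exact Real.rpow_nonneg (norm_nonneg _) _
  · intro w v hw
    exact hB w v hw

end Crest.Agent.R140
end

-- ▼ part R140/C3Core

/-! Row 140, part C3: finite level group inequality -/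

set_option autoImplicit false

namespace Crest.Agent.R140.C3

open Crest.Agent.R140 Crest.AnalysisR

/-- spreading hypothesis -/
def SprH {Ω : Type} [Fintype Ω] (μ : Ω → ℝ) (ζ : Ω → ℕ → ℕ) (k n : ℕ) (ε : ℝ) : Prop :=
  ∀ j ≤ k, ∀ i i' : Fin j → ℕ, StrictMono i → StrictMono i' → (∀ a, i a < n) → (∀ a, i' a < n) →
    ∀ F : (Fin j → ℕ) → ℝ, (∀ z, |F z| ≤ 1) →
      |∑ ω, μ ω * F (fun a => ζ ω (i a)) - ∑ ω, μ ω * F (fun a => ζ ω (i' a))| ≤ ε

/-- the functional on lists -/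
noncomputable def QQ {X : Type*} [NormedAddCommGroup X] [NormedSpace ℝ X] (p : ℝ) {Ω A : Type}
    [Fintype Ω] [Fintype A] (μ : Ω → ℝ) (ζ : Ω → ℕ → ℕ) (w : A → ℝ) (x : A → ℕ → X)
    (l : List ℝ) : ℝ :=
  ∑ ω, μ ω * ∑ a, w a * ‖∑ j : Fin l.length, l.get j • x a (ζ ω j)‖ ^ p

/-- list of the coefficients of a finitely supported vector -/
noncomputable def listOf {Λ : Type*} [LinearOrder Λ] (v : Λ →₀ ℤ) : List ℝ :=
  (v.support.sort (· ≤ ·)).map (fun q => (v q : ℝ))

section spr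
variable {Ω : Type} [Fintype Ω] {μ : Ω → ℝ} {ζ : Ω → ℕ → ℕ} {k n : ℕ} {ε : ℝ}

theorem SprH.nonneg (H : SprH μ ζ k n ε) : 0 ≤ ε := by
  have := H 0 (Nat.zero_le _) (fun a => a.elim0) (fun a => a.elim0) (fun a => a.elim0)
    (fun a => a.elim0) (fun a => a.elim0) (fun a => a.elim0) (fun _ => 0) (fun _ => by simp)
  exact (abs_nonneg _).trans this

theorem SprH.bdd (H : SprH μ ζ k n ε) {j : ℕ} (hj : j ≤ k) {i i' : Fin j → ℕ} (hi : StrictMono i)
    (hi' : StrictMono i') (hn : ∀ a, i a < n) (hn' : ∀ a, i' a < n) (G : (Fin j → ℕ) → ℝ) (M : ℝ)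
    (hG : ∀ z, |G z| ≤ M) :
    |av μ (fun ω => G (fun a => ζ ω (i a))) - av μ (fun ω => G (fun a => ζ ω (i' a)))| ≤ M * ε := by
  have hM : 0 ≤ M := (abs_nonneg _).trans (hG (fun _ => 0))
  rcases hM.eq_or_lt with h0 | h0
  · have : ∀ z, G z = 0 := fun z => by
      have := hG z
      rw [← h0] at this
      exact abs_eq_zero.mp (le_antisymm this (abs_nonneg _))
    simp [av, this, ← h0]
  · have h1 := H j hj i i' hi hi' hn hn' (fun z => G z / M) (fun z => by
      rw [abs_div, abs_of_pos h0, div_le_one h0]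
      exact hG z)
    have h2 : ∀ i : Fin j → ℕ, ∑ ω, μ ω * (G (fun a => ζ ω (i a)) / M) =
        av μ (fun ω => G (fun a => ζ ω (i a))) / M := by
      intro i
      unfold av
      rw [Finset.sum_div]
      exact Finset.sum_congr rfl fun _ _ => by ring
    rw [h2, h2, ← sub_div, abs_div, abs_of_pos h0, div_le_iff₀ h0] at h1
    linarith

end spr

section close
variable {Λ : Type} [LinearOrder Λ] {Ω : Type} [Fintype Ω] {μ : Ω → ℝ} {ζ : Ω → ℕ → ℕ} {k : ℕ}
  {ε : ℝ}

/-- configuration of `Q` inside `Q'` -/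
def zr (Q Q' : Finset Λ) (ζ : Ω → ℕ → ℕ) (N : ℕ) (ω : Ω) : Fin Q.card → Fin (N + 1) :=
  fun j => zf ζ N ω (rkF Q' (Q.orderEmbOfFin rfl j))

theorem rk_strictMono {Q Q' : Finset Λ} (hQ : Q ⊆ Q') :
    StrictMono (fun j : Fin Q.card => rkF Q' (Q.orderEmbOfFin rfl j)) := by
  intro a b hab
  exact rkF_strict (hQ (Finset.orderEmbOfFin_mem Q rfl a)) ((Q.orderEmbOfFin rfl).strictMono hab)

theorem rk_lt' {Q Q' : Finset Λ} (hQ : Q ⊆ Q') {n : ℕ} (hn : Q'.card ≤ n) (j : Fin Q.card) :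
    rkF Q' (Q.orderEmbOfFin rfl j) < n :=
  (rkF_lt (hQ (Finset.orderEmbOfFin_mem Q rfl j))).trans_le hn

theorem close_z (H : SprH μ ζ k (2 * k) ε) (N : ℕ) {Q Q₁ Q₂ : Finset Λ} (h1 : Q ⊆ Q₁) (h2 : Q ⊆ Q₂)
    (c1 : Q₁.card ≤ 2 * k) (c2 : Q₂.card ≤ 2 * k) (hk : Q.card ≤ k)
    (G : (Fin Q.card → Fin (N + 1)) → ℝ) (M : ℝ) (hG : ∀ z, |G z| ≤ M) :
    |av μ (fun ω => G (zr Q Q₁ ζ N ω)) - av μ (fun ω => G (zr Q Q₂ ζ N ω))| ≤ M * ε :=
  H.bdd hk (rk_strictMono h1) (rk_strictMono h2) (rk_lt' h1 c1) (rk_lt' h2 c2)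
    (fun z => G (fun a => Fin.ofNat (N + 1) (z a))) M (fun z => hG _)

open Classical in
/-- law of a configuration -/
noncomputable def Pr (μ : Ω → ℝ) (Q Q' : Finset Λ) (ζ : Ω → ℕ → ℕ) (N : ℕ)
    (z : Fin Q.card → Fin (N + 1)) : ℝ :=
  av μ (fun ω => if z = zr Q Q' ζ N ω then (1 : ℝ) else 0)

theorem sum_Pr (Q Q' : Finset Λ) (N : ℕ) (g : (Fin Q.card → Fin (N + 1)) → ℝ) :
    ∑ z, Pr μ Q Q' ζ N z * g z = av μ (fun ω => g (zr Q Q' ζ N ω)) := by
  classical
  unfold Pr
  rw [Finset.sum_congr rfl fun z _ => (av_mulR μ (g z) _).symm, ← av_sum]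
  congr 1
  funext ω
  simp


theorem sum_abs_Pr (H : SprH μ ζ k (2 * k) ε) (N : ℕ) {Q Q₁ Q₂ : Finset Λ} (h1 : Q ⊆ Q₁)
    (h2 : Q ⊆ Q₂) (c1 : Q₁.card ≤ 2 * k) (c2 : Q₂.card ≤ 2 * k) (hk : Q.card ≤ k) :
    ∑ z, |Pr μ Q Q₁ ζ N z - Pr μ Q Q₂ ζ N z| ≤ ε := by
  classical
  set σ : (Fin Q.card → Fin (N + 1)) → ℝ :=
    fun z => if 0 ≤ Pr μ Q Q₁ ζ N z - Pr μ Q Q₂ ζ N z then 1 else -1 with hσ
  have e : ∀ z, |Pr μ Q Q₁ ζ N z - Pr μ Q Q₂ ζ N z| =
      Pr μ Q Q₁ ζ N z * σ z - Pr μ Q Q₂ ζ N z * σ z := by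
    intro z
    rw [hσ]
    simp only
    split_ifs with h
    · rw [abs_of_nonneg h]; ring
    · rw [abs_of_neg (not_le.mp h)]; ring
  rw [Finset.sum_congr rfl fun z _ => e z, Finset.sum_sub_distrib, sum_Pr, sum_Pr]
  have := close_z H N h1 h2 c1 c2 hk σ 1 (fun z => by rw [hσ]; simp only; split_ifs <;> simp)
  rw [one_mul] at this
  exact (le_abs_self _).trans this

end close

section lists
variable {Λ : Type} [LinearOrder Λ] {X : Type*} [NormedAddCommGroup X] [NormedSpace ℝ X]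

theorem listOf_length (b : Λ →₀ ℤ) : (listOf b).length = b.support.card := by
  simp [listOf]

theorem sum_listOf (b : Λ →₀ ℤ) (y : ℕ → X) :
    ∑ j : Fin (listOf b).length, (listOf b).get j • y j =
      ∑ j : Fin b.support.card, (b (b.support.orderEmbOfFin rfl j) : ℝ) • y j := by
  refine Fintype.sum_equiv (finCongr (listOf_length b)) _ _ fun j => ?_
  have h2 : (b.support.orderEmbOfFin rfl (finCongr (listOf_length b) j)) =
      (b.support.sort (· ≤ ·))[(j : ℕ)]'(by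
        have := j.isLt.trans_eq (listOf_length b); simpa using this) := by
    rw [Finset.orderEmbOfFin_apply]
    rfl
  rw [h2, List.get_eq_getElem]
  have h3 : (listOf b)[(j : ℕ)]'(j.isLt) = ((b ((b.support.sort (· ≤ ·))[(j : ℕ)]'(by
        have := j.isLt.trans_eq (listOf_length b); simpa using this))) : ℝ) :=
    List.getElem_map (fun q => (b q : ℝ))
  rw [h3]
  rfl

theorem sum_rank (b : Λ →₀ ℤ) (y : Λ → X) :
    b.sum (fun q c => (c : ℝ) • y q) =
      ∑ j : Fin b.support.card, (b (b.support.orderEmbOfFin rfl j) : ℝ) •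
        y (b.support.orderEmbOfFin rfl j) := by
  rw [sum_orderEmb b.support (fun q => (b q : ℝ) • y q)]
  rfl

theorem list_close {Ω : Type} [Fintype Ω] {μ : Ω → ℝ} {ζ : Ω → ℕ → ℕ} {k : ℕ}
    {ε : ℝ} (H : SprH μ ζ k (2 * k) ε) {p : ℝ} (hp : 0 ≤ p) (x : ℕ → X) (hx : ∀ i, ‖x i‖ ≤ 1)
    (b : Λ →₀ ℤ) (Q : Finset Λ) (hb : b.support ⊆ Q) (hQ : Q.card ≤ 2 * k)
    (hk : b.support.card ≤ k) :
    |av μ (fun ω => ‖b.sum (fun q c => (c : ℝ) • x (ζ ω (rkF Q q)))‖ ^ p) -
      av μ (fun ω => ‖∑ j : Fin (listOf b).length, (listOf b).get j • x (ζ ω j)‖ ^ p)| ≤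
      l1 b ^ p * ε := by
  have e1 : (fun ω => ‖b.sum (fun q c => (c : ℝ) • x (ζ ω (rkF Q q)))‖ ^ p) =
      fun ω => (fun z : Fin b.support.card → ℕ =>
        ‖∑ j : Fin b.support.card, (b (b.support.orderEmbOfFin rfl j) : ℝ) • x (z j)‖ ^ p)
        (fun j => ζ ω (rkF Q (b.support.orderEmbOfFin rfl j))) := by
    funext ω
    rw [sum_rank b (fun q => x (ζ ω (rkF Q q)))]
  have e2 : (fun ω => ‖∑ j : Fin (listOf b).length, (listOf b).get j • x (ζ ω j)‖ ^ p) =
      fun ω => (fun z : Fin b.support.card → ℕ =>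
        ‖∑ j : Fin b.support.card, (b (b.support.orderEmbOfFin rfl j) : ℝ) • x (z j)‖ ^ p)
        (fun j => ζ ω (j : ℕ)) := by
    funext ω
    rw [sum_listOf b (fun i => x (ζ ω i))]
  rw [e1, e2]
  refine H.bdd hk (rk_strictMono hb) (i' := fun j => (j : ℕ)) (fun a b hab => hab) (rk_lt' hb hQ)
    (fun a => by have := a.isLt; omega) (fun z : Fin b.support.card → ℕ =>
        ‖∑ j : Fin b.support.card, (b (b.support.orderEmbOfFin rfl j) : ℝ) • x (z j)‖ ^ p) _ ?_
  intro z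
  beta_reduce
  rw [abs_of_nonneg (by positivity)]
  refine Real.rpow_le_rpow (norm_nonneg _) ?_ hp
  refine (norm_sum_le _ _).trans ?_
  unfold l1
  rw [← sum_orderEmb b.support (fun q => |(b q : ℝ)|)]
  refine Finset.sum_le_sum fun j _ => ?_
  rw [norm_smul, Real.norm_eq_abs]
  have := mul_le_mul_of_nonneg_left (hx (z j)) (abs_nonneg ((b (b.support.orderEmbOfFin rfl j) : ℤ) : ℝ))
  simpa using this

end lists

end Crest.Agent.R140.C3
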