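import Mathlib
import Crest.Prelude.Def_MarkovType

/-!
Row 140, interface definitions for the group inequality (C3).
-/

set_option autoImplicit false

namespace Crest.Agent.R140

open scoped BigOperators

/-- An approximately spreadable random strictly increasing tuple (output of C1). -/
structure Spr (n : ℕ) (ε : ℝ) where
  N : ℕ
  Ω : Type
  fin : Fintype Ω
  μ : Ω → ℝ
  ζ : Ω → ℕ → ℕ
  μ_nonneg : ∀ ω, 0 ≤ μ ω
  μ_sum : ∑ ω, μ ω = 1
  lt : ∀ ω i, i < n → ζ ω i < N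
  mono : ∀ ω i j, i < j → j < n → ζ ω i < ζ ω j
  spr : ∀ (k : ℕ) (i i' : Fin k → ℕ), StrictMono i → StrictMono i' →
    (∀ j, i j < n) → (∀ j, i' j < n) → ∀ F : (Fin k → ℕ) → ℝ, (∀ v, |F v| ≤ 1) →
      |∑ ω, μ ω * F (fun j => ζ ω (i j)) - ∑ ω, μ ω * F (fun j => ζ ω (i' j))| ≤ ε

attribute [instance] Spr.fin

/-- A finite weighted family of sequences in the unit ball (output of B). -/
structure Fam (X : Type*) [NormedAddCommGroup X] where
  A : Type
  fin : Fintype A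
  w : A → ℝ
  x : A → ℕ → X
  w_nonneg : ∀ a, 0 ≤ w a
  w_sum : ∑ a, w a = 1
  norm_le : ∀ a i, ‖x a i‖ ≤ 1

attribute [instance] Fam.fin

/-- The `p`-th power functional of a coefficient vector. -/
noncomputable def QF {X : Type*} [NormedAddCommGroup X] [NormedSpace ℝ X] (p : ℝ)
    {n : ℕ} {ε : ℝ} (Z : Spr n ε) (F : Fam X) {k : ℕ} (c : Fin k → ℝ) : ℝ :=
  ∑ ω, Z.μ ω * ∑ a, F.w a * ‖∑ j, c j • F.x a (Z.ζ ω j)‖ ^ p


/-- The cocycle `b(s₁…s_t) = m_{s₁} + h_{s₁} m_{s₂} + h_{s₁} h_{s₂} m_{s₃} + …`. -/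
noncomputable def bw {Λ S : Type*} [LinearOrder Λ] (h : S → Λ ≃o Λ) (m : S → Λ →₀ ℤ) :
    List S → (Λ →₀ ℤ)
  | [] => 0
  | s :: w => m s + (bw h m w).mapDomain (h s)

/-- action of a word: `hw [s₁,…,s_k] q = h_{s₁} (h_{s₂} (… q))` -/
def hw {Λ S : Type*} [LinearOrder Λ] (h : S → Λ ≃o Λ) : List S → Λ → Λ
  | [], q => q
  | s :: w, q => h s (hw h w q)

end Crest.Agent.R140
private theorem rz_8645faa047 : type_of% @_root_.Crest.Agent.R140.bw.eq_def := @_root_.Crest.Agent.R140.bw.eq_def -- L53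
private theorem rz_01e3965bbc : type_of% @_root_.Crest.Agent.R140.bw.eq_1 := @_root_.Crest.Agent.R140.bw.eq_1 -- L53
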