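import Mathlib
import Crest.Agent.R140.C3Defs
import Crest.Agent.R140.Defs

-- ▼ part R140/Spread
section

/-!
Row 140, part C1: spreadable tuples.
-/

set_option autoImplicit false

namespace Crest.Agent.R140

open Finset

section Psi

variable {d M : ℕ}

/-- The digit vector `Ψ(a)`. -/
def Psi (y : Fin d → Fin (M + 1)) (R : Fin d → Fin d → Fin (M + 1)) (a : Fin d) :
    Fin d → Fin (M + 1) :=
  fun l => if l < a then y l else if l = a then y a - 1 else R a l

/-- The swapping bijection. -/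
def swapEquiv (a : Fin d) :
    ((Fin d → Fin (M + 1)) × (Fin d → Fin d → Fin (M + 1))) ≃
      ((Fin d → Fin (M + 1)) × (Fin d → Fin d → Fin (M + 1))) where
  toFun p := (Psi p.1 p.2 a, fun b l => if b = a ∧ a < l then p.1 l else p.2 b l)
  invFun q := (fun l => if l < a then q.1 l else if l = a then q.1 a + 1 else q.2 a l,
    fun b l => if b = a ∧ a < l then q.1 l else q.2 b l)
  left_inv := by
    rintro ⟨y, R⟩
    refine Prod.ext ?_ ?_
    · funext l
      simp only [Psi]
      rcases lt_trichotomy l a with h | h | h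
      · simp [h]
      · subst h; simp
      · have h1 : ¬ l < a := not_lt.mpr h.le
        have h2 : l ≠ a := h.ne'
        simp [h1, h2, h]
    · funext b l
      simp only [Psi]
      by_cases hb : b = a ∧ a < l
      · obtain ⟨rfl, h⟩ := hb
        have h1 : ¬ l < b := not_lt.mpr h.le
        have h2 : l ≠ b := h.ne'
        simp [h1, h2, h]
      · simp [hb]
  right_inv := by
    rintro ⟨y, R⟩
    refine Prod.ext ?_ ?_
    · funext l
      simp only [Psi]
      rcases lt_trichotomy l a with h | h | h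
      · simp [h]
      · subst h; simp
      · have h1 : ¬ l < a := not_lt.mpr h.le
        have h2 : l ≠ a := h.ne'
        simp [h1, h2, h]
    · funext b l
      by_cases hb : b = a ∧ a < l
      · obtain ⟨rfl, h⟩ := hb
        have h1 : ¬ l < b := not_lt.mpr h.le
        have h2 : l ≠ b := h.ne'
        simp [h1, h2, h]
      · simp [hb]

theorem swapEquiv_fst (a : Fin d) (p : (Fin d → Fin (M + 1)) × (Fin d → Fin d → Fin (M + 1))) :
    (swapEquiv a p).1 = Psi p.1 p.2 a := rfl

theorem Psi_swapEquiv (a b : Fin d) (hb : b < a)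
    (p : (Fin d → Fin (M + 1)) × (Fin d → Fin d → Fin (M + 1))) :
    Psi (swapEquiv a p).1 (swapEquiv a p).2 b = Psi p.1 p.2 b := by
  obtain ⟨y, R⟩ := p
  funext l
  simp only [Psi, swapEquiv, Equiv.coe_fn_mk]
  rcases lt_trichotomy l b with h | h | h
  · have h1 : l < a := h.trans hb
    simp [h, h1]
  · subst h; simp [hb]
  · have h1 : ¬ l < b := not_lt.mpr h.le
    have h2 : l ≠ b := h.ne'
    simp [h1, h2, hb.ne]

/-- The exact identity. -/
theorem sum_Psi_eq {k : ℕ} (D : Fin k → Fin d) (a : Fin d) (hD : ∀ j, D j < a)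
    (F : (Fin k → (Fin d → Fin (M + 1))) → (Fin d → Fin (M + 1)) → ℝ) :
    ∑ p : (Fin d → Fin (M + 1)) × (Fin d → Fin d → Fin (M + 1)),
        F (fun j => Psi p.1 p.2 (D j)) (Psi p.1 p.2 a)
      = ∑ p : (Fin d → Fin (M + 1)) × (Fin d → Fin d → Fin (M + 1)),
        F (fun j => Psi p.1 p.2 (D j)) p.1 := by
  rw [← (swapEquiv (M := M) a).sum_comp (fun p => F (fun j => Psi p.1 p.2 (D j)) p.1)]
  refine Finset.sum_congr rfl (fun p _ => ?_)
  have h : (fun j => Psi (swapEquiv a p).1 (swapEquiv a p).2 (D j))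
      = fun j => Psi p.1 p.2 (D j) := by
    funext j
    rw [Psi_swapEquiv a (D j) (hD j)]
  rw [h, swapEquiv_fst]

/-- Lexicographic comparison. -/
theorem Psi_lt (y : Fin d → Fin (M + 1)) (R : Fin d → Fin d → Fin (M + 1)) {a b : Fin d}
    (hab : a < b) (hy : y a ≠ 0) : toLex (Psi y R a) < toLex (Psi y R b) := by
  refine ⟨a, ?_, ?_⟩
  · intro j hj
    have hj' : j < b := lt_trans hj hab
    have hj2 : j < a := hj
    simp [Psi, hj', hj2]
  · have h : y a - 1 < y a := by
      rw [Fin.lt_def, Fin.coe_sub_one, if_neg hy]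
      have := Fin.pos_iff_ne_zero.mpr hy
      rw [Fin.lt_def] at this
      simp at this
      omega
    simpa [Psi, hab] using h

/-- Encoding of digit vectors, order preserving for the lexicographic order. -/
noncomputable def enc (d M : ℕ) :
    Lex (Fin d → Fin (M + 1)) ≃o Fin (Fintype.card (Lex (Fin d → Fin (M + 1)))) :=
  (Fintype.orderIsoFinOfCardEq _ rfl).symm

end Psi

/-- Uniform version. -/
def Good (k n N : ℕ) (ε : ℝ) (Ω : Type) [Fintype Ω] (ζ : Ω → Fin n → Fin N) : Prop :=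
  (((univ.filter (fun ω => ¬ StrictMono (ζ ω))).card : ℝ) ≤ ε * Fintype.card Ω) ∧
  ∀ i i' : Fin k → Fin n, StrictMono i → StrictMono i' →
    ∀ F : (Fin k → Fin N) → ℝ, (∀ v, |F v| ≤ 1) →
      |∑ ω, F (ζ ω ∘ i) - ∑ ω, F (ζ ω ∘ i')| ≤ ε * Fintype.card Ω

section Step

variable {d M : ℕ}

theorem card_fiber_zero (a : Fin d) :
    ((univ.filter (fun f : Fin d → Fin (M + 1) => f a = 0)).card) * (M + 1)
      = Fintype.card (Fin d → Fin (M + 1)) := by
  have h1 : Fintype.card (Fin d → Fin (M + 1)) =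
      ∑ c : Fin (M + 1), (univ.filter (fun f : Fin d → Fin (M + 1) => f a = c)).card := by
    rw [← Finset.card_univ]
    exact Finset.card_eq_sum_card_fiberwise (fun x _ => Finset.mem_coe.mpr (Finset.mem_univ _))
  have h2 : ∀ c : Fin (M + 1), (univ.filter (fun f : Fin d → Fin (M + 1) => f a = c)).card
      = (univ.filter (fun f : Fin d → Fin (M + 1) => f a = 0)).card := by
    intro c
    refine Finset.card_equiv (Equiv.subRight (fun _ => c)) ?_
    intro f
    simp [sub_eq_zero]
  rw [h1, Finset.sum_congr rfl (fun c _ => h2 c), Finset.sum_const, Finset.card_univ,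
    Fintype.card_fin, smul_eq_mul, mul_comm]

theorem card_bad (d M : ℕ) :
    ((univ.filter (fun p : (Fin d → Fin (M + 1)) × (Fin d → Fin d → Fin (M + 1)) =>
        ∃ a, p.1 a = 0)).card) * (M + 1)
      ≤ d * Fintype.card ((Fin d → Fin (M + 1)) × (Fin d → Fin d → Fin (M + 1))) := by
  classical
  have hsub : (univ.filter (fun p : (Fin d → Fin (M + 1)) × (Fin d → Fin d → Fin (M + 1)) =>
        ∃ a, p.1 a = 0)) ⊆ (univ : Finset (Fin d)).biUnion (fun a =>
          (univ.filter (fun f : Fin d → Fin (M + 1) => f a = 0)) ×ˢ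
            (univ : Finset (Fin d → Fin d → Fin (M + 1)))) := by
    intro p hp
    simp only [mem_filter, mem_univ, true_and] at hp
    obtain ⟨a, ha⟩ := hp
    simp only [mem_biUnion, mem_univ, true_and, mem_product, mem_filter, and_true]
    exact ⟨a, ha⟩
  calc _ ≤ ((univ : Finset (Fin d)).biUnion (fun a =>
          (univ.filter (fun f : Fin d → Fin (M + 1) => f a = 0)) ×ˢ
            (univ : Finset (Fin d → Fin d → Fin (M + 1))))).card * (M + 1) :=
        Nat.mul_le_mul_right _ (Finset.card_le_card hsub)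
    _ ≤ (∑ a : Fin d, ((univ.filter (fun f : Fin d → Fin (M + 1) => f a = 0)) ×ˢ
            (univ : Finset (Fin d → Fin d → Fin (M + 1)))).card) * (M + 1) :=
        Nat.mul_le_mul_right _ Finset.card_biUnion_le
    _ = ∑ a : Fin d, (((univ.filter (fun f : Fin d → Fin (M + 1) => f a = 0)).card * (M + 1)) *
            Fintype.card (Fin d → Fin d → Fin (M + 1))) := by
        rw [Finset.sum_mul]
        refine Finset.sum_congr rfl (fun a _ => ?_)
        rw [Finset.card_product, Finset.card_univ]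
        ring
    _ = _ := by
        simp_rw [card_fiber_zero]
        rw [Finset.sum_const, Finset.card_univ, Fintype.card_fin, smul_eq_mul,
          Fintype.card_prod]

end Step

theorem good_step (k n : ℕ) (ε : ℝ) (hε : 0 < ε) (N : ℕ) (Ω : Type) [Fintype Ω] [Nonempty Ω]
    (δ : Ω → Fin n → Fin N) (hδ : Good k n N (ε / 5) Ω δ) (M : ℕ)
    (hM : (N : ℝ) ≤ ε / 5 * (M + 1)) :
    Good (k + 1) n (Fintype.card (Lex (Fin N → Fin (M + 1)))) ε
      (Ω × ((Fin N → Fin (M + 1)) × (Fin N → Fin N → Fin (M + 1))))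
      (fun q j => enc N M (toLex (Psi q.2.1 q.2.2 (δ q.1 j)))) := by
  classical
  set P := (Fin N → Fin (M + 1)) × (Fin N → Fin N → Fin (M + 1)) with hP
  have hPpos : (0 : ℝ) < Fintype.card P := by
    have : 0 < Fintype.card P := Fintype.card_pos
    exact_mod_cast this
  have hΩpos : (0 : ℝ) < Fintype.card Ω := by
    have : 0 < Fintype.card Ω := Fintype.card_pos
    exact_mod_cast this
  obtain ⟨hbad, hclose⟩ := hδ
  have hcard : ((Fintype.card (Ω × P) : ℕ) : ℝ) = Fintype.card Ω * Fintype.card P := by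
    rw [Fintype.card_prod]; push_cast; ring
  refine ⟨?_, ?_⟩
  · -- strict monotonicity
    have hsub : (univ.filter (fun q : Ω × P =>
        ¬ StrictMono (fun j => enc N M (toLex (Psi q.2.1 q.2.2 (δ q.1 j)))))) ⊆
        ((univ.filter (fun ω => ¬ StrictMono (δ ω))) ×ˢ (univ : Finset P)) ∪
        ((univ : Finset Ω) ×ˢ (univ.filter (fun p : P => ∃ a, p.1 a = 0))) := by
      intro q hq
      simp only [mem_filter, mem_univ, true_and] at hq
      simp only [mem_union, mem_product, mem_filter, mem_univ, true_and, and_true]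
      by_contra hcon
      push Not at hcon
      obtain ⟨h1, h2⟩ := hcon
      apply hq
      intro a b hab
      exact (enc N M).strictMono (Psi_lt _ _ (h1 hab) (h2 _))
    have hb := card_bad N M
    have hb' : (((univ.filter (fun p : P => ∃ a, p.1 a = 0)).card : ℝ)) * (M + 1)
        ≤ N * Fintype.card P := by exact_mod_cast hb
    have hM1 : (0 : ℝ) < (M : ℝ) + 1 := by positivity
    have hb'' : ((univ.filter (fun p : P => ∃ a, p.1 a = 0)).card : ℝ)
        ≤ ε / 5 * Fintype.card P := by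
      have : (((univ.filter (fun p : P => ∃ a, p.1 a = 0)).card : ℝ)) * (M + 1)
        ≤ (ε / 5 * Fintype.card P) * (M + 1) := by
        calc _ ≤ (N : ℝ) * Fintype.card P := hb'
          _ ≤ (ε / 5 * (M + 1)) * Fintype.card P := by gcongr
          _ = _ := by ring
      exact le_of_mul_le_mul_right this hM1
    calc ((univ.filter (fun q : Ω × P =>
        ¬ StrictMono (fun j => enc N M (toLex (Psi q.2.1 q.2.2 (δ q.1 j)))))).card : ℝ)
        ≤ ((((univ.filter (fun ω => ¬ StrictMono (δ ω))) ×ˢ (univ : Finset P)) ∪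
        ((univ : Finset Ω) ×ˢ (univ.filter (fun p : P => ∃ a, p.1 a = 0)))).card : ℝ) := by
          exact_mod_cast Finset.card_le_card hsub
      _ ≤ ((((univ.filter (fun ω => ¬ StrictMono (δ ω))) ×ˢ (univ : Finset P)).card +
        ((univ : Finset Ω) ×ˢ (univ.filter (fun p : P => ∃ a, p.1 a = 0))).card : ℕ) : ℝ) := by
          exact_mod_cast Finset.card_union_le _ _
      _ = ((univ.filter (fun ω => ¬ StrictMono (δ ω))).card : ℝ) * Fintype.card P +
          Fintype.card Ω * ((univ.filter (fun p : P => ∃ a, p.1 a = 0)).card : ℝ) := by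
          rw [Finset.card_product, Finset.card_product, Finset.card_univ, Finset.card_univ]
          push_cast
          ring
      _ ≤ (ε / 5 * Fintype.card Ω) * Fintype.card P +
          Fintype.card Ω * (ε / 5 * Fintype.card P) := by gcongr
      _ ≤ ε * Fintype.card (Ω × P) := by
          rw [hcard]
          have : 0 < ε * (Fintype.card Ω * Fintype.card P) := by positivity
          nlinarith
  · intro i i' hi hi' F hF
    -- the function G
    let G : (Fin k → Fin N) → ℝ := fun D =>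
      (∑ p : P, F (Fin.snoc (fun j => enc N M (toLex (Psi p.1 p.2 (D j))))
        (enc N M (toLex p.1)))) / Fintype.card P
    have hG : ∀ v, |G v| ≤ 1 := by
      intro v
      simp only [G]
      rw [abs_div, abs_of_pos hPpos, div_le_one hPpos]
      calc _ ≤ ∑ p : P, |F (Fin.snoc (fun j => enc N M (toLex (Psi p.1 p.2 (v j))))
        (enc N M (toLex p.1)))| := Finset.abs_sum_le_sum_abs _ _
        _ ≤ ∑ p : P, (1 : ℝ) := Finset.sum_le_sum (fun p _ => hF _)
        _ = _ := by simp
    have key : ∀ (i : Fin (k + 1) → Fin n), StrictMono i →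
        |∑ q : Ω × P, F ((fun j => enc N M (toLex (Psi q.2.1 q.2.2 (δ q.1 j)))) ∘ i) -
          Fintype.card P * ∑ ω, G (δ ω ∘ (fun j : Fin k => i j.castSucc))|
          ≤ 2 * (ε / 5) * (Fintype.card Ω * Fintype.card P) := by
      intro i hi
      rw [Fintype.sum_prod_type, Finset.mul_sum, ← Finset.sum_sub_distrib]
      have hgood : ∀ ω, StrictMono (δ ω) →
          ∑ p : P, F ((fun j => enc N M (toLex (Psi p.1 p.2 (δ ω j)))) ∘ i) -
          Fintype.card P * G (δ ω ∘ (fun j : Fin k => i j.castSucc)) = 0 := by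
        intro ω hω
        have h1 := sum_Psi_eq (M := M) (fun j : Fin k => δ ω (i j.castSucc))
          (δ ω (i (Fin.last k))) (fun j => hω (hi (Fin.castSucc_lt_last j)))
          (fun D y => F (Fin.snoc (fun j => enc N M (toLex (D j))) (enc N M (toLex y))))
        have h2 : Fintype.card P * G (δ ω ∘ (fun j : Fin k => i j.castSucc)) =
            ∑ p : P, F (Fin.snoc (fun j => enc N M (toLex (Psi p.1 p.2
              (δ ω (i j.castSucc))))) (enc N M (toLex p.1))) := by
          simp only [G]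
          rw [mul_div_cancel₀ _ hPpos.ne']
          rfl
        rw [h2, ← h1, sub_eq_zero]
        refine Finset.sum_congr rfl (fun p _ => ?_)
        congr 1
        funext j
        refine Fin.lastCases ?_ (fun j => ?_) j
        · rw [Fin.snoc_last]; rfl
        · rw [Fin.snoc_castSucc]; rfl
      calc _ ≤ ∑ ω, |∑ p : P, F ((fun j => enc N M (toLex (Psi p.1 p.2 (δ ω j)))) ∘ i) -
          Fintype.card P * G (δ ω ∘ (fun j : Fin k => i j.castSucc))| :=
            Finset.abs_sum_le_sum_abs _ _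
        _ ≤ ∑ ω, (if ¬ StrictMono (δ ω) then 2 * (Fintype.card P : ℝ) else 0) := by
            refine Finset.sum_le_sum (fun ω _ => ?_)
            split_ifs with h
            · rw [hgood ω h, abs_zero]
            · calc _ ≤ |∑ p : P, F ((fun j => enc N M (toLex (Psi p.1 p.2 (δ ω j)))) ∘ i)| +
                  |Fintype.card P * G (δ ω ∘ (fun j : Fin k => i j.castSucc))| := abs_sub _ _
                _ ≤ Fintype.card P + Fintype.card P := by
                  refine add_le_add ?_ ?_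
                  · calc _ ≤ ∑ p : P, |F ((fun j => enc N M (toLex (Psi p.1 p.2 (δ ω j)))) ∘ i)| :=
                        Finset.abs_sum_le_sum_abs _ _
                      _ ≤ ∑ p : P, (1 : ℝ) := Finset.sum_le_sum (fun p _ => hF _)
                      _ = _ := by simp
                  · rw [abs_mul, abs_of_pos hPpos]
                    have := hG (δ ω ∘ (fun j : Fin k => i j.castSucc))
                    nlinarith
                _ = _ := by ring
        _ = ((univ.filter (fun ω => ¬ StrictMono (δ ω))).card : ℝ) * (2 * Fintype.card P) := by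
            rw [← Finset.sum_filter, Finset.sum_const, nsmul_eq_mul]
        _ ≤ (ε / 5 * Fintype.card Ω) * (2 * Fintype.card P) := by gcongr
        _ = _ := by ring
    have h1 := key i hi
    have h2 := key i' hi'
    have h3 := hclose (fun j => i j.castSucc) (fun j => i' j.castSucc)
      (fun a b hab => hi (Fin.castSucc_lt_castSucc_iff.mpr hab))
      (fun a b hab => hi' (Fin.castSucc_lt_castSucc_iff.mpr hab)) G hG
    have h4 : |Fintype.card P * ∑ ω, G (δ ω ∘ (fun j : Fin k => i j.castSucc)) -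
        Fintype.card P * ∑ ω, G (δ ω ∘ (fun j : Fin k => i' j.castSucc))| ≤
        ε / 5 * (Fintype.card Ω * Fintype.card P) := by
      rw [← mul_sub, abs_mul, abs_of_pos hPpos]
      calc _ ≤ (Fintype.card P : ℝ) * (ε / 5 * Fintype.card Ω) := by gcongr
        _ = _ := by ring
    rw [hcard]
    rw [abs_le] at h1 h2 h4 ⊢
    constructor <;> nlinarith [h1.1, h1.2, h2.1, h2.2, h4.1, h4.2]

/-- Spreadable tuples, uniform version. -/
theorem exists_good (k : ℕ) : ∀ (n : ℕ) (ε : ℝ), 0 < ε →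
    ∃ (N : ℕ) (Ω : Type) (_ : Fintype Ω) (_ : Nonempty Ω) (ζ : Ω → Fin n → Fin N),
      Good k n N ε Ω ζ := by
  induction k with
  | zero =>
    intro n ε hε
    refine ⟨n, Unit, inferInstance, inferInstance, fun _ => id, ?_, ?_⟩
    · have : (univ.filter (fun ω : Unit => ¬ StrictMono ((fun _ => id : Unit → Fin n → Fin n) ω)))
          = ∅ := by
        ext ω
        simp [strictMono_id]
      rw [this]
      simp
      exact hε.le
    · intro i i' _ _ F _
      have : i = i' := Subsingleton.elim _ _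
      subst this
      simp
      exact hε.le
  | succ k ih =>
    intro n ε hε
    obtain ⟨N, Ω, hF, hN, δ, hδ⟩ := ih n (ε / 5) (by positivity)
    obtain ⟨M, hM⟩ := exists_nat_ge ((N : ℝ) / (ε / 5))
    refine ⟨_, _, _, inferInstance, _, good_step k n ε hε N Ω δ hδ M ?_⟩
    rw [div_le_iff₀ (by positivity)] at hM
    nlinarith

/-- Restriction and conditioning: all tuples strictly increasing, all `k` at once. -/
theorem spreadable (n : ℕ) (ε : ℝ) (hε : 0 < ε) :
    ∃ (N : ℕ) (Ω : Type) (_ : Fintype Ω) (_ : Nonempty Ω) (ζ : Ω → Fin n → Fin N),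
      (∀ ω, StrictMono (ζ ω)) ∧
      ∀ (k : ℕ) (i i' : Fin k → Fin n), StrictMono i → StrictMono i' →
        ∀ F : (Fin k → Fin N) → ℝ, (∀ v, |F v| ≤ 1) →
          |∑ ω, F (ζ ω ∘ i) - ∑ ω, F (ζ ω ∘ i')| ≤ ε * Fintype.card Ω := by
  classical
  -- it is enough to treat small ε
  set e : ℝ := min (ε / 6) (1 / 2) with he
  have he0 : 0 < e := lt_min (by positivity) (by norm_num)
  have he1 : e ≤ ε / 6 := min_le_left _ _
  have he2 : e ≤ 1 / 2 := min_le_right _ _
  obtain ⟨N, Ω, hΩ, hne, ζ, hbad, hclose⟩ := exists_good n (n + n) e he0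
  have hΩpos : (0 : ℝ) < Fintype.card Ω := by
    have : 0 < Fintype.card Ω := Fintype.card_pos
    exact_mod_cast this
  set bad := univ.filter (fun ω => ¬ StrictMono (ζ ω)) with hbaddef
  set good := univ.filter (fun ω => StrictMono (ζ ω)) with hgooddef
  have hsum : good.card + bad.card = Fintype.card Ω := by
    rw [hbaddef, hgooddef, Finset.card_filter_add_card_filter_not, Finset.card_univ]
  have hsum' : (good.card : ℝ) + bad.card = Fintype.card Ω := by exact_mod_cast hsum
  have hgoodcard : (Fintype.card Ω : ℝ) / 2 ≤ good.card := by nlinarith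
  have hcardsub : Fintype.card {ω // StrictMono (ζ ω)} = good.card := by
    rw [Fintype.card_subtype]
  have hgpos : 0 < good.card := by
    have : (0 : ℝ) < good.card := by linarith
    exact_mod_cast this
  refine ⟨N, {ω // StrictMono (ζ ω)}, inferInstance, ?_, fun ω j => ζ ω.1 (Fin.natAdd n j),
    ?_, ?_⟩
  · rw [← Fintype.card_pos_iff, hcardsub]; exact hgpos
  · intro ω a b hab
    exact ω.2 (by simpa using hab)
  · intro k i i' hi hi' F hF
    -- extend by an initial segment
    have hkn : k ≤ n := by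
      simpa using Fintype.card_le_of_injective i hi.injective
    have hn : (n - k) + k = n := by omega
    let ext : (Fin k → Fin n) → Fin n → Fin (n + n) := fun i j =>
      if h : (j : ℕ) < n - k then ⟨j, by omega⟩
      else Fin.natAdd n (i ⟨(j : ℕ) - (n - k), by omega⟩)
    have hext : ∀ i : Fin k → Fin n, StrictMono i → StrictMono (ext i) := by
      intro i hi a b hab
      simp only [ext]
      have hab' : (a : ℕ) < b := hab
      by_cases ha : (a : ℕ) < n - k
      · by_cases hb : (b : ℕ) < n - k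
        · rw [dif_pos ha, dif_pos hb]
          exact hab'
        · rw [dif_pos ha, dif_neg hb, Fin.lt_def]
          simp only [Fin.val_natAdd]
          omega
      · have hb : ¬ (b : ℕ) < n - k := by omega
        rw [dif_neg ha, dif_neg hb]
        have : i ⟨(a : ℕ) - (n - k), by omega⟩ < i ⟨(b : ℕ) - (n - k), by omega⟩ := by
          apply hi
          rw [Fin.lt_def]
          simp only
          omega
        simpa using this
    let pos : Fin k → Fin n := fun j => ⟨(n - k) + j, by omega⟩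
    have hpos : ∀ (i : Fin k → Fin n) (ω : Ω), (ζ ω ∘ ext i) ∘ pos =
        (fun j => ζ ω (Fin.natAdd n j)) ∘ i := by
      intro i ω
      funext j
      simp only [Function.comp, ext, pos]
      have h : ¬ ((n - k) + (j : ℕ)) < n - k := by omega
      rw [dif_neg h]
      congr 3
      apply Fin.ext
      simp
    have hc := hclose (ext i) (ext i') (hext i hi) (hext i' hi') (fun v => F (v ∘ pos))
      (fun v => hF _)
    simp only [hpos] at hc
    -- from the subtype to the full type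
    have hsub : ∀ G : Ω → ℝ, (∀ ω, |G ω| ≤ 1) →
        |∑ ω, G ω - ∑ ω : {ω // StrictMono (ζ ω)}, G ω.1| ≤ e * Fintype.card Ω := by
      intro G hG
      have h1 : ∑ ω : {ω // StrictMono (ζ ω)}, G ω.1 = ∑ ω ∈ good, G ω := by
        rw [hgooddef]
        exact (Finset.sum_subtype (univ.filter (fun ω => StrictMono (ζ ω)))
          (fun x => by simp) G).symm
      have h2 : ∑ ω, G ω = ∑ ω ∈ good, G ω + ∑ ω ∈ bad, G ω := by
        rw [hgooddef, hbaddef, Finset.sum_filter_add_sum_filter_not]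
      rw [h1, h2, add_sub_cancel_left]
      calc _ ≤ ∑ ω ∈ bad, |G ω| := Finset.abs_sum_le_sum_abs _ _
        _ ≤ ∑ ω ∈ bad, (1 : ℝ) := Finset.sum_le_sum (fun ω _ => hG ω)
        _ = bad.card := by simp
        _ ≤ _ := hbad
    have h1 := hsub (fun ω => F ((fun j => ζ ω (Fin.natAdd n j)) ∘ i)) (fun ω => hF _)
    have h2 := hsub (fun ω => F ((fun j => ζ ω (Fin.natAdd n j)) ∘ i')) (fun ω => hF _)
    have hfin : (3 * e) * Fintype.card Ω ≤ ε * Fintype.card {ω // StrictMono (ζ ω)} := by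
      rw [hcardsub]
      nlinarith
    refine le_trans ?_ hfin
    rw [abs_le] at h1 h2 hc ⊢
    constructor <;> linarith [h1.1, h1.2, h2.1, h2.2, hc.1, hc.2]


end Crest.Agent.R140
end

-- ▼ part R140/SpreadNat
section

/-!
Row 140, part C1: spreadable tuples, ℕ-indexed form (`C1` interface for C2 and C3).
-/

set_option autoImplicit false

namespace Crest.Agent.R140

/-- Spreadable tuples indexed by naturals. -/
theorem spreadable_nat (n : ℕ) (ε : ℝ) (hε : 0 < ε) :
    ∃ (N : ℕ) (Ω : Type) (_ : Fintype Ω) (μ : Ω → ℝ) (ζ : Ω → ℕ → ℕ),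
      (∀ ω, 0 ≤ μ ω) ∧ ∑ ω, μ ω = 1 ∧ (∀ ω i, ζ ω i < N) ∧
      (∀ ω i j, i < j → j < n → ζ ω i < ζ ω j) ∧
      ∀ (k : ℕ) (i i' : Fin k → ℕ), StrictMono i → StrictMono i' →
        (∀ j, i j < n) → (∀ j, i' j < n) → ∀ F : (Fin k → ℕ) → ℝ, (∀ v, |F v| ≤ 1) →
        |∑ ω, μ ω * F (fun j => ζ ω (i j)) - ∑ ω, μ ω * F (fun j => ζ ω (i' j))| ≤ ε := by
  classical
  obtain ⟨N, Ω, hΩ, hne, ζ, hmono, hspr⟩ := spreadable n ε hε
  have hpos : (0 : ℝ) < Fintype.card Ω := by
    have : 0 < Fintype.card Ω := Fintype.card_pos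
    exact_mod_cast this
  refine ⟨N + 1, Ω, hΩ, fun _ => (Fintype.card Ω : ℝ)⁻¹,
    fun ω i => if h : i < n then (ζ ω ⟨i, h⟩ : ℕ) else 0, ?_, ?_, ?_, ?_, ?_⟩
  · intro ω; positivity
  · simp [hpos.ne']
  · intro ω i
    by_cases h : i < n
    · simp only [dif_pos h]
      exact lt_trans (ζ ω ⟨i, h⟩).isLt (Nat.lt_succ_self _)
    · simp only [dif_neg h]
      exact Nat.succ_pos _
  · intro ω i j hij hj
    have hi : i < n := lt_trans hij hj
    simp only [dif_pos hi, dif_pos hj]
    exact hmono ω (show (⟨i, hi⟩ : Fin n) < ⟨j, hj⟩ from hij)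
  · intro k i i' hi hi' hin hin' F hF
    have h := hspr k (fun j => ⟨i j, hin j⟩) (fun j => ⟨i' j, hin' j⟩)
      (fun a b hab => hi hab) (fun a b hab => hi' hab) (fun v => F (fun j => (v j : ℕ)))
      (fun v => hF _)
    have e1 : ∀ ω, (fun j => if h : i j < n then ((ζ ω ⟨i j, h⟩ : Fin N) : ℕ) else 0)
        = fun j => (((ζ ω ∘ fun j => (⟨i j, hin j⟩ : Fin n)) j : Fin N) : ℕ) := by
      intro ω; funext j; simp [hin j]
    have e2 : ∀ ω, (fun j => if h : i' j < n then ((ζ ω ⟨i' j, h⟩ : Fin N) : ℕ) else 0)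
        = fun j => (((ζ ω ∘ fun j => (⟨i' j, hin' j⟩ : Fin n)) j : Fin N) : ℕ) := by
      intro ω; funext j; simp [hin' j]
    simp only [e1, e2]
    rw [← Finset.mul_sum, ← Finset.mul_sum, ← mul_sub, abs_mul,
      abs_of_pos (inv_pos.mpr hpos), inv_mul_le_iff₀ hpos]
    simpa [mul_comm] using h

end Crest.Agent.R140
end

-- ▼ part R140/SprExists
section

/-!
Row 140, part C1 in the form of `C3Defs.Spr`.
-/

set_option autoImplicit false

namespace Crest.Agent.R140

/-- Existence of approximately spreadable tuples. -/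
theorem Spr.exists (n : ℕ) (ε : ℝ) (hε : 0 < ε) : Nonempty (Spr n ε) := by
  obtain ⟨N, Ω, hΩ, μ, ζ, h0, h1, hlt, hmono, hspr⟩ := spreadable_nat n ε hε
  exact ⟨{ N := N, Ω := Ω, fin := hΩ, μ := μ, ζ := ζ, μ_nonneg := h0, μ_sum := h1,
           lt := fun ω i _ => hlt ω i, mono := hmono, spr := hspr }⟩


end Crest.Agent.R140
end

-- ▼ part R140/LimNorm

/-!
# Row 140, module LimitNorm (parts C2 and C3c)
The ultrafilter limit of the `p`-th moment functionals is a spreading invariant seminorm on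
lists which satisfies the group inequality.
-/

set_option autoImplicit false

namespace Crest.Agent.R140.LimNorm

open Crest.AnalysisR Crest.Agent.R140 Filter

/-! ### weighted Minkowski and power mean for finite sums -/

theorem wMink {ι : Type*} [Fintype ι] {E : Type*} [NormedAddCommGroup E] (c : ι → ℝ)
    (hc : ∀ i, 0 ≤ c i) (f g : ι → E) {p : ℝ} (hp : 1 ≤ p) :
    (∑ i, c i * ‖f i + g i‖ ^ p) ^ (1 / p) ≤
      (∑ i, c i * ‖f i‖ ^ p) ^ (1 / p) + (∑ i, c i * ‖g i‖ ^ p) ^ (1 / p) := by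
  have hp0 : 0 < p := by linarith
  have key : ∀ (i : ι) (x : ℝ), 0 ≤ x → c i * x ^ p = |c i ^ (1 / p) * x| ^ p := by
    intro i x hx
    rw [abs_of_nonneg (mul_nonneg (Real.rpow_nonneg (hc i) _) hx),
      Real.mul_rpow (Real.rpow_nonneg (hc i) _) hx, ← Real.rpow_mul (hc i), one_div_mul_cancel hp0.ne',
      Real.rpow_one]
  have h1 : ∑ i, c i * ‖f i + g i‖ ^ p ≤
      ∑ i, |c i ^ (1 / p) * ‖f i‖ + c i ^ (1 / p) * ‖g i‖| ^ p := by
    refine Finset.sum_le_sum fun i _ => ?_
    rw [key i _ (norm_nonneg _)]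
    refine Real.rpow_le_rpow (abs_nonneg _) ?_ hp0.le
    rw [← mul_add, abs_of_nonneg (mul_nonneg (Real.rpow_nonneg (hc i) _) (norm_nonneg _)),
      abs_of_nonneg (mul_nonneg (Real.rpow_nonneg (hc i) _)
        (add_nonneg (norm_nonneg _) (norm_nonneg _)))]
    exact mul_le_mul_of_nonneg_left (norm_add_le _ _) (Real.rpow_nonneg (hc i) _)
  have h2 := Real.Lp_add_le (Finset.univ : Finset ι) (fun i => c i ^ (1 / p) * ‖f i‖)
    (fun i => c i ^ (1 / p) * ‖g i‖) hp
  have h3 : ∀ f' : ι → E, ∑ i, |c i ^ (1 / p) * ‖f' i‖| ^ p = ∑ i, c i * ‖f' i‖ ^ p := fun f' =>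
    Finset.sum_congr rfl fun i _ => (key i _ (norm_nonneg _)).symm
  rw [h3 f, h3 g] at h2
  refine le_trans (Real.rpow_le_rpow ?_ h1 (by positivity)) h2
  exact Finset.sum_nonneg fun i _ => mul_nonneg (hc i) (Real.rpow_nonneg (norm_nonneg _) _)


variable {X : Type*} [NormedAddCommGroup X] [NormedSpace ℝ X] {p : ℝ}

/-- the vector of a list along an index sequence -/
noncomputable def lin (y : ℕ → X) (l : List ℝ) : X :=
  ∑ i ∈ Finset.range l.length, l.getD i 0 • y i

theorem lin_cons (y : ℕ → X) (c : ℝ) (l : List ℝ) :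
    lin y (c :: l) = c • y 0 + lin (fun i => y (i + 1)) l := by
  unfold lin
  rw [List.length_cons, Finset.sum_range_succ']
  simp [add_comm]

theorem lin_nil (y : ℕ → X) : lin y [] = 0 := by simp [lin]

theorem lin_map (y : ℕ → X) (c : ℝ) (l : List ℝ) :
    lin y (l.map (fun x => c * x)) = c • lin y l := by
  induction l generalizing y with
  | nil => simp [lin_nil]
  | cons a l ih => rw [List.map_cons, lin_cons, lin_cons, ih, smul_add, mul_smul]

theorem lin_zipWith (y : ℕ → X) (l l' : List ℝ) (h : l.length = l'.length) :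
    lin y (List.zipWith (fun x y => x + y) l l') = lin y l + lin y l' := by
  induction l generalizing y l' with
  | nil =>
    have : l' = [] := by
      cases l' with
      | nil => rfl
      | cons _ _ => simp at h
    subst this
    simp [lin_nil]
  | cons a l ih =>
    cases l' with
    | nil => simp at h
    | cons b l' =>
      rw [List.zipWith_cons_cons, lin_cons, lin_cons, lin_cons,
        ih (fun i => y (i + 1)) l' (by simpa using h), add_smul]
      abel

theorem lin_append (y : ℕ → X) (l l' : List ℝ) :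
    lin y (l ++ l') = lin y l + lin (fun i => y (l.length + i)) l' := by
  induction l generalizing y with
  | nil => simp [lin_nil]
  | cons a l ih =>
    rw [List.cons_append, lin_cons, lin_cons, ih, add_assoc]
    congr 2
    simp only [List.length_cons]
    congr 1
    funext i
    congr 1
    omega

theorem lin_congr (y y' : ℕ → X)
    (l : List ℝ) (h : ∀ i, i < l.length → y i = y' i) : lin y l = lin y' l := by
  unfold lin
  refine Finset.sum_congr rfl fun i hi => ?_
  rw [h i (Finset.mem_range.1 hi)]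

theorem lin_skip (y : ℕ → X) (l₁ l₂ : List ℝ) :
    lin y (l₁ ++ 0 :: l₂) =
      lin (fun j => y (if j < l₁.length then j else j + 1)) (l₁ ++ l₂) := by
  rw [lin_append, lin_append, lin_cons, zero_smul, zero_add]
  congr 1
  · refine lin_congr _ _ _ fun i hi => ?_
    simp [hi]
  · refine lin_congr _ _ _ fun i _ => ?_
    have : ¬ (l₁.length + i < l₁.length) := by omega
    simp only [this, if_false]
    rfl

theorem lin_get (y : ℕ → X) (l : List ℝ) :
    lin y l = ∑ j : Fin l.length, l.get j • y (j : ℕ) := by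
  unfold lin
  rw [Finset.sum_range]
  refine Finset.sum_congr rfl fun j _ => ?_
  simp

theorem lin_replicate (y : ℕ → X) (k : ℕ) (c : ℝ) :
    lin y (List.replicate k c) = c • ∑ i ∈ Finset.range k, y i := by
  unfold lin
  rw [List.length_replicate, Finset.smul_sum]
  refine Finset.sum_congr rfl fun i hi => ?_
  have hi' := Finset.mem_range.1 hi
  congr 1
  rw [List.getD_eq_getElem _ _ (by simpa using hi'), List.getElem_replicate]

/-- the `ℓ₁` norm of a list -/
def l1 (l : List ℝ) : ℝ := (l.map (fun c => |c|)).sum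

theorem l1_nonneg (l : List ℝ) : 0 ≤ l1 l := by
  unfold l1
  refine List.sum_nonneg ?_
  intro x hx
  obtain ⟨a, _, rfl⟩ := List.mem_map.1 hx
  exact abs_nonneg a

theorem norm_lin_le (y : ℕ → X) (hy : ∀ i, ‖y i‖ ≤ 1) (l : List ℝ) : ‖lin y l‖ ≤ l1 l := by
  induction l generalizing y with
  | nil => simp [lin_nil, l1]
  | cons a l ih =>
    rw [lin_cons]
    refine (norm_add_le _ _).trans ?_
    have h1 : ‖a • y 0‖ ≤ |a| := by
      rw [norm_smul, Real.norm_eq_abs]
      have := hy 0
      nlinarith [abs_nonneg a, norm_nonneg (y 0)]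
    have h2 := ih (fun i => y (i + 1)) (fun i => hy _)
    have h3 : l1 (a :: l) = |a| + l1 l := by simp [l1]
    linarith

section level

variable {n : ℕ} {ε : ℝ} (Z : Spr n ε) (F : Fam X)

/-- the `p`-th moment functional written with one weighted sum -/
noncomputable def Q (p : ℝ) (l : List ℝ) : ℝ :=
  ∑ b : Z.Ω × F.A, (Z.μ b.1 * F.w b.2) * ‖lin (fun i => F.x b.2 (Z.ζ b.1 i)) l‖ ^ p

theorem QF_eq (l : List ℝ) : QF p Z F l.get = Q Z F p l := by
  unfold QF Q
  rw [Fintype.sum_prod_type]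
  refine Finset.sum_congr rfl fun ω _ => ?_
  rw [Finset.mul_sum]
  refine Finset.sum_congr rfl fun a _ => ?_
  rw [mul_assoc, lin_get]

theorem wt_nonneg (b : Z.Ω × F.A) : 0 ≤ Z.μ b.1 * F.w b.2 :=
  mul_nonneg (Z.μ_nonneg _) (F.w_nonneg _)

theorem wt_sum : ∑ b : Z.Ω × F.A, (Z.μ b.1 * F.w b.2) = 1 := by
  rw [Fintype.sum_prod_type]
  simp only [← Finset.mul_sum, F.w_sum, mul_one, Z.μ_sum]

theorem Q_nonneg (l : List ℝ) : 0 ≤ Q Z F p l :=
  Finset.sum_nonneg fun b _ => mul_nonneg (wt_nonneg Z F b) (Real.rpow_nonneg (norm_nonneg _) _)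

theorem Q_le (hp : 1 ≤ p) (l : List ℝ) : Q Z F p l ≤ l1 l ^ p := by
  calc Q Z F p l ≤ ∑ b : Z.Ω × F.A, (Z.μ b.1 * F.w b.2) * l1 l ^ p := by
        refine Finset.sum_le_sum fun b _ => mul_le_mul_of_nonneg_left ?_ (wt_nonneg Z F b)
        exact Real.rpow_le_rpow (norm_nonneg _) (norm_lin_le _ (fun i => F.norm_le _ _) l)
          (by linarith)
    _ = l1 l ^ p := by rw [← Finset.sum_mul, wt_sum, one_mul]

theorem Q_smul (c : ℝ) (l : List ℝ) :
    Q Z F p (l.map (fun x => c * x)) = |c| ^ p * Q Z F p l := by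
  unfold Q
  rw [Finset.mul_sum]
  refine Finset.sum_congr rfl fun b _ => ?_
  rw [lin_map, norm_smul, Real.norm_eq_abs, Real.mul_rpow (abs_nonneg _) (norm_nonneg _)]
  ring

theorem Q_tri (hp : 1 ≤ p) (l l' : List ℝ) (h : l.length = l'.length) :
    Q Z F p (List.zipWith (fun x y => x + y) l l') ^ (1 / p) ≤
      Q Z F p l ^ (1 / p) + Q Z F p l' ^ (1 / p) := by
  unfold Q
  simp only [lin_zipWith _ l l' h]
  exact wMink _ (fun b => wt_nonneg Z F b) _ _ hp

theorem Q_mean (hp : 1 ≤ p) (l : List ℝ) :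
    ∑ b : Z.Ω × F.A, (Z.μ b.1 * F.w b.2) * ‖lin (fun i => F.x b.2 (Z.ζ b.1 i)) l‖ ≤
      Q Z F p l ^ (1 / p) :=
  Real.arith_mean_le_rpow_mean Finset.univ _ _ (fun b _ => wt_nonneg Z F b) (wt_sum Z F)
    (fun _ _ => norm_nonneg _) hp

/-- spreadability of the moment functional of a coefficient vector -/
theorem Q_spread (hp : 1 ≤ p) (l : List ℝ)
    (i i' : Fin l.length → ℕ) (hi : StrictMono i) (hi' : StrictMono i') (hin : ∀ a, i a < n)
    (hin' : ∀ a, i' a < n) :
    |∑ ω, Z.μ ω * (∑ a, F.w a * ‖∑ j : Fin l.length, l.getD j 0 • F.x a (Z.ζ ω (i j))‖ ^ p) -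
      ∑ ω, Z.μ ω * (∑ a, F.w a * ‖∑ j : Fin l.length, l.getD j 0 • F.x a (Z.ζ ω (i' j))‖ ^ p)| ≤
      ε * l1 l ^ p := by
  set C := l1 l ^ p with hC
  have hC0 : 0 ≤ C := Real.rpow_nonneg (l1_nonneg l) _
  have hbd : ∀ v : Fin l.length → ℕ,
      0 ≤ ∑ a, F.w a * ‖∑ j : Fin l.length, l.getD j 0 • F.x a (v j)‖ ^ p ∧
      ∑ a, F.w a * ‖∑ j : Fin l.length, l.getD j 0 • F.x a (v j)‖ ^ p ≤ C := by
    intro v
    refine ⟨Finset.sum_nonneg fun a _ =>
      mul_nonneg (F.w_nonneg a) (Real.rpow_nonneg (norm_nonneg _) _), ?_⟩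
    calc _ ≤ ∑ a, F.w a * C := by
          refine Finset.sum_le_sum fun a _ => mul_le_mul_of_nonneg_left ?_ (F.w_nonneg a)
          refine Real.rpow_le_rpow (norm_nonneg _) ?_ (by linarith)
          have := norm_lin_le (fun i : ℕ => if h : i < l.length then F.x a (v ⟨i, h⟩) else 0)
            (fun i => by by_cases h : i < l.length <;> simp [h, F.norm_le]) l
          refine le_trans (le_of_eq ?_) this
          congr 1
          unfold lin
          rw [Finset.sum_range]
          refine Finset.sum_congr rfl fun j _ => ?_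
          simp
      _ = C := by rw [← Finset.sum_mul, F.w_sum, one_mul]
  rcases hC0.eq_or_lt with h0 | hpos
  · have hz : ∀ v : Fin l.length → ℕ,
        ∑ a, F.w a * ‖∑ j : Fin l.length, l.getD j 0 • F.x a (v j)‖ ^ p = 0 :=
      fun v => le_antisymm ((hbd v).2.trans h0.ge) (hbd v).1
    simp only [hz (fun j => Z.ζ _ (i j)), hz (fun j => Z.ζ _ (i' j))]
    simp [← h0]
  · have := Z.spr l.length i i' hi hi' hin hin'
      (fun v => (∑ a, F.w a * ‖∑ j : Fin l.length, l.getD j 0 • F.x a (v j)‖ ^ p) / C)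
      (fun v => by
        rw [abs_of_nonneg (div_nonneg (hbd v).1 hC0), div_le_one hpos]
        exact (hbd v).2)
    simp only [← mul_div_assoc, ← Finset.sum_div] at this
    rw [← sub_div, abs_div, abs_of_pos hpos, div_le_iff₀ hpos] at this
    exact this

/-! ### zero insertion and lower bound at one level -/

theorem Q_getD (l : List ℝ) : Q Z F p l =
    ∑ ω, Z.μ ω * (∑ a, F.w a * ‖∑ j : Fin l.length, l.getD j 0 • F.x a (Z.ζ ω (j : ℕ))‖ ^ p) := by
  unfold Q
  rw [Fintype.sum_prod_type]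
  refine Finset.sum_congr rfl fun ω _ => ?_
  rw [Finset.mul_sum]
  refine Finset.sum_congr rfl fun a _ => ?_
  unfold lin
  rw [mul_assoc, Finset.sum_range]

theorem Q_zero_ins (hp : 1 ≤ p) (l₁ l₂ : List ℝ) (hn : (l₁ ++ l₂).length < n) :
    |Q Z F p (l₁ ++ 0 :: l₂) - Q Z F p (l₁ ++ l₂)| ≤ ε * l1 (l₁ ++ l₂) ^ p := by
  have h := Q_spread (p := p) Z F hp (l₁ ++ l₂)
    (fun j => if (j : ℕ) < l₁.length then (j : ℕ) else j + 1) (fun j => (j : ℕ))
    (fun a b hab => by
      have hab' : (a : ℕ) < b := hab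
      dsimp only
      split_ifs <;> omega)
    (fun a b hab => hab)
    (fun a => by
      have := a.2
      split_ifs <;> omega)
    (fun a => by have := a.2; omega)
  have e1 : Q Z F p (l₁ ++ 0 :: l₂) =
      ∑ ω, Z.μ ω * (∑ a, F.w a * ‖∑ j : Fin (l₁ ++ l₂).length, (l₁ ++ l₂).getD j 0 •
        F.x a (Z.ζ ω (if (j : ℕ) < l₁.length then (j : ℕ) else j + 1))‖ ^ p) := by
    unfold Q
    rw [Fintype.sum_prod_type]
    refine Finset.sum_congr rfl fun ω _ => ?_
    rw [Finset.mul_sum]
    refine Finset.sum_congr rfl fun a _ => ?_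
    dsimp only
    rw [mul_assoc, lin_skip (fun i => F.x a (Z.ζ ω i)) l₁ l₂]
    unfold lin
    rw [Finset.sum_range]
  rw [e1, Q_getD]
  exact h

theorem Q_lower (hp : 1 ≤ p) {θ : ℝ}
    (hsep : ∀ (m : ℕ) (z : Fin (2 * m) → ℕ), StrictMono z → (∀ j, z j < Z.N) →
      θ * m ≤ ∑ a, F.w a *
        ‖∑ j : Fin (2 * m), (if (j : ℕ) < m then (1 : ℝ) else -1) • F.x a (z j)‖)
    (k : ℕ) (hk : 2 * k ≤ n) :
    θ * k ≤ Q Z F p (List.replicate k 1 ++ List.replicate k (-1)) ^ (1 / p) := by
  refine le_trans ?_ (Q_mean Z F hp _)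
  have e : ∀ (ω : Z.Ω) (a : F.A), lin (fun i => F.x a (Z.ζ ω i))
      (List.replicate k 1 ++ List.replicate k (-1)) =
      ∑ j : Fin (2 * k), (if (j : ℕ) < k then (1 : ℝ) else -1) • F.x a (Z.ζ ω (j : ℕ)) := by
    intro ω a
    rw [lin_append, lin_replicate, lin_replicate, List.length_replicate,
      ← Finset.sum_range (fun j => (if j < k then (1 : ℝ) else -1) • F.x a (Z.ζ ω j)),
      two_mul, Finset.sum_range_add]
    congr 1
    · rw [one_smul]
      refine Finset.sum_congr rfl fun j hj => ?_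
      rw [if_pos (Finset.mem_range.1 hj), one_smul]
    · rw [Finset.smul_sum]
      refine Finset.sum_congr rfl fun j hj => ?_
      rw [if_neg (by omega)]
  rw [Fintype.sum_prod_type]
  simp only [e]
  have h1 : ∀ ω : Z.Ω, θ * k ≤ ∑ a, F.w a *
      ‖∑ j : Fin (2 * k), (if (j : ℕ) < k then (1 : ℝ) else -1) • F.x a (Z.ζ ω (j : ℕ))‖ := by
    intro ω
    exact hsep k (fun j => Z.ζ ω (j : ℕ))
      (fun a b hab => Z.mono ω _ _ hab (by have := b.2; omega))
      (fun j => Z.lt ω _ (by have := j.2; omega))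
  calc θ * k = ∑ ω, Z.μ ω * (θ * k) := by rw [← Finset.sum_mul, Z.μ_sum, one_mul]
    _ ≤ ∑ ω, Z.μ ω * ∑ a, F.w a *
        ‖∑ j : Fin (2 * k), (if (j : ℕ) < k then (1 : ℝ) else -1) • F.x a (Z.ζ ω (j : ℕ))‖ :=
        Finset.sum_le_sum fun ω _ => mul_le_mul_of_nonneg_left (h1 ω) (Z.μ_nonneg ω)
    _ = _ := by
        refine Finset.sum_congr rfl fun ω _ => ?_
        rw [Finset.mul_sum]
        exact Finset.sum_congr rfl fun a _ => by rw [mul_assoc]

end level

/-! ### limits along an ultrafilter -/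

theorem exists_ulim (U : Ultrafilter ℕ) (f : ℕ → ℝ) (C : ℝ) (h0 : ∀ r, 0 ≤ f r)
    (hC : ∀ r, f r ≤ C) : ∃ a, Tendsto f U (nhds a) := by
  have h : ((U.map f : Ultrafilter ℝ) : Filter ℝ) ≤ 𝓟 (Set.Icc 0 C) := by
    rw [le_principal_iff]
    exact Filter.mem_map.2 (Filter.univ_mem' fun r => ⟨h0 r, hC r⟩)
  obtain ⟨a, _, ha⟩ := isCompact_Icc.ultrafilter_le_nhds (U.map f) h
  exact ⟨a, ha⟩

/-- **C2.** The limit norm: for given levels `Z r`, `F r` with `n → ∞`, `ε → 0` along an
ultrafilter, the `p`-th moments converge to the `p`-th power of a spreading invariant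
seminorm on lists. -/
theorem exists_limit (hp : 1 ≤ p) (U : Ultrafilter ℕ) (nn : ℕ → ℕ) (ee : ℕ → ℝ)
    (Z : ∀ r, Spr (nn r) (ee r)) (F : ℕ → Fam X)
    (hn : Tendsto nn U atTop) (hε : Tendsto ee U (nhds 0)) :
    ∃ M : SprNorm, (∀ l : List ℝ, Tendsto (fun r => QF p (Z r) (F r) l.get) U
        (nhds (M.N l ^ p))) ∧
      (∀ l : List ℝ, Tendsto (fun r => QF p (Z r) (F r) l.get ^ (1 / p)) U (nhds (M.N l))) ∧
      (∀ l : List ℝ, M.N l ≤ (l.map (fun c => |c|)).sum) := by
  have hp0 : 0 < p := by linarith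
  have hbase : ∀ (r : ℕ) (l : List ℝ), 0 ≤ Q (Z r) (F r) p l := fun r l => Q_nonneg _ _ l
  have hle : ∀ (r : ℕ) (l : List ℝ), Q (Z r) (F r) p l ^ (1 / p) ≤ l1 l := by
    intro r l
    have := Real.rpow_le_rpow (hbase r l) (Q_le (Z r) (F r) hp l) (by positivity : 0 ≤ 1 / p)
    rwa [← Real.rpow_mul (l1_nonneg l), mul_one_div_cancel hp0.ne', Real.rpow_one] at this
  have hex : ∀ l : List ℝ, ∃ a, Tendsto (fun r => Q (Z r) (F r) p l ^ (1 / p)) U (nhds a) :=
    fun l => exists_ulim U _ (l1 l) (fun r => Real.rpow_nonneg (hbase r l) _) (fun r => hle r l)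
  choose N hN using hex
  have hN0 : ∀ l, 0 ≤ N l := fun l =>
    ge_of_tendsto' (hN l) fun r => Real.rpow_nonneg (hbase r l) _
  have hQ : ∀ l, Tendsto (fun r => Q (Z r) (F r) p l) U (nhds (N l ^ p)) := by
    intro l
    have := (hN l).rpow_const (Or.inr hp0.le : N l ≠ 0 ∨ 0 ≤ p)
    refine this.congr fun r => ?_
    rw [← Real.rpow_mul (hbase r l), one_div_mul_cancel hp0.ne', Real.rpow_one]
  have hl1 : ∀ l, N l ≤ l1 l := fun l => le_of_tendsto' (hN l) fun r => hle r l
  refine ⟨⟨N, hN0, ?_, ?_, ?_, ?_⟩, ?_, ?_, hl1⟩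
  · intro c l
    refine tendsto_nhds_unique (hN _) (((hN l).const_mul |c|).congr fun r => ?_)
    rw [Q_smul, Real.mul_rpow (Real.rpow_nonneg (abs_nonneg _) _) (hbase r l),
      ← Real.rpow_mul (abs_nonneg c), mul_one_div_cancel hp0.ne', Real.rpow_one]
  · intro l l' hll
    exact le_of_tendsto_of_tendsto' (hN _) ((hN l).add (hN l')) fun r => Q_tri _ _ hp l l' hll
  · intro l₁ l₂
    have h1 : Tendsto (fun r => Q (Z r) (F r) p (l₁ ++ 0 :: l₂) -
        Q (Z r) (F r) p (l₁ ++ l₂)) U (nhds 0) := by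
      have hb : Tendsto (fun r : ℕ => ee r * l1 (l₁ ++ l₂) ^ p) U (nhds 0) := by
        simpa using hε.mul_const (l1 (l₁ ++ l₂) ^ p)
      refine squeeze_zero_norm' ?_ hb
      filter_upwards [hn.eventually_gt_atTop (l₁ ++ l₂).length] with r hr
      rw [Real.norm_eq_abs]
      exact Q_zero_ins _ _ hp l₁ l₂ hr
    have h2 := (hQ (l₁ ++ 0 :: l₂)).sub (hQ (l₁ ++ l₂))
    have h3 : N (l₁ ++ 0 :: l₂) ^ p - N (l₁ ++ l₂) ^ p = 0 := tendsto_nhds_unique h2 h1
    exact (Real.rpow_left_inj (hN0 _) (hN0 _) hp0.ne').1 (sub_eq_zero.1 h3)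
  · have := hl1 [1]
    simpa [l1] using this
  · intro l
    simpa only [QF_eq] using hQ l
  · intro l
    simpa only [QF_eq] using hN l

/-- **C2, final form.** From separated families of all lengths: levels, an ultrafilter and a
spreading invariant seminorm on lists which is the limit of the moment functionals and is bounded
below on `(1,…,1,-1,…,-1)`. -/
theorem limNorm (hp : 1 ≤ p) {θ : ℝ} (hS : ∀ n, SepFam X θ n) :
    ∃ (U : Ultrafilter ℕ) (nn : ℕ → ℕ) (ee : ℕ → ℝ) (Z : ∀ r, Spr (nn r) (ee r))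
      (F : ℕ → Fam X) (M : SprNorm),
      Tendsto nn U atTop ∧ Tendsto ee U (nhds 0) ∧
      (∀ l : List ℝ, Tendsto (fun r => QF p (Z r) (F r) l.get) U (nhds (M.N l ^ p))) ∧
      (∀ l : List ℝ, M.N l ≤ (l.map (fun c => |c|)).sum) ∧
      (∀ m : ℕ, θ * m ≤ M.N (List.replicate m 1 ++ List.replicate m (-1))) := by
  have hZ : ∀ r : ℕ, Nonempty (Spr r (1 / ((r : ℝ) + 1))) := fun r =>
    Spr.exists r _ (by positivity)
  let Z : ∀ r : ℕ, Spr r (1 / ((r : ℝ) + 1)) := fun r => (hZ r).some
  have hF : ∀ r : ℕ, ∃ F : Fam X, ∀ (m : ℕ) (z : Fin (2 * m) → ℕ), StrictMono z →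
      (∀ j, z j < (Z r).N) → θ * m ≤ ∑ a, F.w a *
        ‖∑ j : Fin (2 * m), (if (j : ℕ) < m then (1 : ℝ) else -1) • F.x a (z j)‖ := by
    intro r
    obtain ⟨A, fA, w, x, h0, h1, hx, hs⟩ := hS (Z r).N
    exact ⟨⟨A, fA, w, x, h0, h1, hx⟩, hs⟩
  choose F hF using hF
  let U : Ultrafilter ℕ := hyperfilter ℕ
  have hU : (U : Filter ℕ) ≤ atTop := Nat.hyperfilter_le_atTop
  have hn : Tendsto (fun r : ℕ => r) U atTop := hU
  have hε : Tendsto (fun r : ℕ => 1 / ((r : ℝ) + 1)) U (nhds 0) :=
    (tendsto_one_div_add_atTop_nhds_zero_nat).mono_left hU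
  obtain ⟨M, hM1, hM2, hM3⟩ := exists_limit (X := X) hp U _ _ Z F hn hε
  refine ⟨U, _, _, Z, F, M, hn, hε, hM1, hM3, fun k => ?_⟩
  refine ge_of_tendsto (hM2 _) ?_
  filter_upwards [hn.eventually_ge_atTop (2 * k)] with r hr
  rw [QF_eq]
  exact Q_lower (Z r) (F r) hp (hF r) k hr

end Crest.Agent.R140.LimNorm
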