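import Mathlib
import Crest.Agent.R140.Defs

-- ▼ part R140/Merge
section

/-!
Row 140 (S0191), part C4: the refined norm `Ninf` of an abstract list norm and the
merging inequality (monotone push-forward).
-/

set_option autoImplicit false

namespace Crest.Agent.R140

/-- Abstract norm on finite real lists which is invariant under insertion of zeros. -/
structure ListNorm (N0 : List ℝ → ℝ) : Prop where
  nonneg : ∀ l, 0 ≤ N0 l
  add_le : ∀ l l' : List ℝ, l.length = l'.length →
    N0 (List.zipWith (· + ·) l l') ≤ N0 l + N0 l'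
  smul : ∀ (c : ℝ) (l : List ℝ), N0 (l.map (c * ·)) = |c| * N0 l
  zero_ins : ∀ l l' : List ℝ, N0 (l ++ 0 :: l') = N0 (l ++ l')
  le_l1 : ∀ l : List ℝ, N0 l ≤ (l.map (fun x => |x|)).sum

namespace ListNorm

variable {N0 : List ℝ → ℝ}

theorem zeros_ins (h : ListNorm N0) (A B : List ℝ) (k : ℕ) :
    N0 (A ++ (List.replicate k 0 ++ B)) = N0 (A ++ B) := by
  induction k with
  | zero => simp
  | succ k ih =>
    rw [List.replicate_succ, List.cons_append, h.zero_ins, ih]

/-- `Le N0 l l'` : replacing the block `l'` by the block `l` does not increase `N0`. -/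
def Le (N0 : List ℝ → ℝ) (l l' : List ℝ) : Prop :=
  ∀ A B : List ℝ, N0 (A ++ (l ++ B)) ≤ N0 (A ++ (l' ++ B))

theorem Le.refl (l : List ℝ) : Le N0 l l := fun _ _ => le_rfl

theorem Le.trans {l1 l2 l3 : List ℝ} (h1 : Le N0 l1 l2) (h2 : Le N0 l2 l3) : Le N0 l1 l3 :=
  fun A B => (h1 A B).trans (h2 A B)

theorem Le.append {l1 l2 m1 m2 : List ℝ} (h1 : Le N0 l1 l2) (h2 : Le N0 m1 m2) :
    Le N0 (l1 ++ m1) (l2 ++ m2) := by
  intro A B
  have e1 := h1 A (m1 ++ B)
  have e2 := h2 (A ++ l2) B
  simp only [List.append_assoc] at *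
  exact e1.trans e2

theorem Le.flatMap {α : Type*} (l : List α) (f g : α → List ℝ)
    (H : ∀ c ∈ l, Le N0 (f c) (g c)) : Le N0 (l.flatMap f) (l.flatMap g) := by
  induction l with
  | nil => exact Le.refl _
  | cons c l ih =>
    simp only [List.flatMap_cons]
    exact (H c (by simp)).append (ih (fun x hx => H x (by simp [hx])))

theorem Le.replicate {l l' : List ℝ} (H : Le N0 l l') (n : ℕ) :
    Le N0 ((List.replicate n l).flatten) ((List.replicate n l').flatten) := by
  induction n with
  | zero => exact Le.refl _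
  | succ n ih =>
    simp only [List.replicate_succ, List.flatten_cons]
    exact H.append ih

theorem Le.whole {l l' : List ℝ} (H : Le N0 l l') : N0 l ≤ N0 l' := by
  simpa using H [] []

theorem le_zeros (h : ListNorm N0) (k : ℕ) : Le N0 (List.replicate k 0) [] := by
  intro A B
  rw [h.zeros_ins]
  simp


theorem zipWith_add_map (a b : ℝ) (l : List ℝ) :
    List.zipWith (· + ·) (l.map (a * ·)) (l.map (b * ·)) = l.map ((a + b) * ·) := by
  induction l with
  | nil => simp
  | cons c l ih => simp only [List.map_cons, List.zipWith_cons_cons, ih]; rw [← add_mul]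

theorem zipWith_add_one (a : ℝ) (l : List ℝ) :
    List.zipWith (· + ·) (l.map (a * ·)) l = l.map ((a + 1) * ·) := by
  have := zipWith_add_map a 1 l
  simpa using this


theorem zipWith_add_zeros (l : List ℝ) :
    List.zipWith (· + ·) l (List.replicate l.length 0) = l := by
  induction l with
  | nil => simp
  | cons c l ih => simp [List.replicate_succ, ih]

theorem zipWith_zeros_add (l : List ℝ) :
    List.zipWith (· + ·) (List.replicate l.length 0) l = l := by
  induction l with
  | nil => simp
  | cons c l ih => simp [List.replicate_succ, ih]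






theorem rep_comm {α : Type*} (j : ℕ) (x : α) (l : List α) :
    List.replicate j x ++ x :: l = x :: (List.replicate j x ++ l) := by
  induction j with
  | zero => simp
  | succ j ih => rw [List.replicate_succ, List.cons_append, ih]; rfl

/-- middle lists for the dropping lemma -/
theorem mid_drop (e : ℝ) (j r : ℕ) :
    List.zipWith (· + ·) (e :: (List.replicate j (0:ℝ) ++ (-e) :: List.replicate (r + 1) (0 : ℝ)))
      (List.replicate (j+1) 0 ++ e :: (-e) :: List.replicate r 0)
      = e :: (List.replicate (j + 1) 0 ++ (-e) :: List.replicate r 0) := by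
  rw [List.replicate_succ (n := j), List.cons_append, List.zipWith_cons_cons,
    List.zipWith_append (by simp)]
  have h1 : ∀ r : ℕ, List.zipWith (· + ·) (List.replicate r (0:ℝ)) (List.replicate r (0 : ℝ))
      = List.replicate r 0 := by
    intro r
    have := zipWith_add_zeros (List.replicate r (0:ℝ))
    simpa using this
  rw [h1, List.zipWith_cons_cons, List.replicate_succ (n := r), List.zipWith_cons_cons, h1]
  rw [add_zero, neg_add_cancel, zero_add]
  rw [rep_comm]
  rfl

/-- A pair `e, -e` may be dropped. -/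
theorem drop_le (h : ListNorm N0) (e : ℝ) : Le N0 [] [e, -e] := by
  intro A B
  set T := N0 (A ++ ([e, -e] ++ B)) with hT
  have key : ∀ j r : ℕ,
      N0 (A.map (((j + 1 : ℕ) : ℝ) * ·) ++ ((e :: (List.replicate j 0 ++ (-e) ::
        List.replicate r 0)) ++ B.map (((j + 1 : ℕ) : ℝ) * ·))) ≤ ((j + 1 : ℕ) : ℝ) * T := by
    intro j
    induction j with
    | zero =>
      intro r
      have := h.zeros_ins (A ++ [e, -e]) B r
      simp only [List.append_assoc, List.cons_append, List.nil_append] at this
      simp only [zero_add, Nat.cast_one, one_mul, List.map_id', List.replicate_zero,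
        List.nil_append, List.cons_append]
      rw [this, hT]
      simp
    | succ j ih =>
      intro r
      have ih' := ih (r + 1)
      have hU : N0 (A ++ ((List.replicate (j+1) 0 ++ e :: (-e) :: List.replicate r 0) ++ B))
          = T := by
        rw [hT]
        simp only [List.append_assoc]
        rw [h.zeros_ins]
        have := h.zeros_ins (A ++ [e, -e]) B r
        simpa using this
      have hadd := h.add_le
        (A.map (((j + 1 : ℕ) : ℝ) * ·) ++ ((e :: (List.replicate j 0 ++ (-e) ::
          List.replicate (r + 1) 0)) ++ B.map (((j + 1 : ℕ) : ℝ) * ·)))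
        (A ++ ((List.replicate (j+1) 0 ++ e :: (-e) :: List.replicate r 0) ++ B))
        (by simp; omega)
      rw [List.zipWith_append (by simp), List.zipWith_append (by simp; omega),
        mid_drop, zipWith_add_one, zipWith_add_one, hU] at hadd
      have hc : (((j + 1 + 1 : ℕ)) : ℝ) = ((j + 1 : ℕ) : ℝ) + 1 := by push_cast; ring
      rw [hc]
      linarith
  have main : ∀ j : ℕ, ((j + 1 : ℕ) : ℝ) * N0 (A ++ ([] ++ B)) ≤ ((j + 1 : ℕ) : ℝ) * T + 2 * |e| := by
    intro j
    have h1 := key j 0
    have hadd := h.add_le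
      (A.map (((j + 1 : ℕ) : ℝ) * ·) ++ ((e :: (List.replicate j 0 ++ (-e) ::
          List.replicate 0 0)) ++ B.map (((j + 1 : ℕ) : ℝ) * ·)))
      (List.replicate (A.map (((j + 1 : ℕ) : ℝ) * ·)).length 0 ++
        (((-e) :: (List.replicate j 0 ++ e :: List.replicate 0 0)) ++
          List.replicate (B.map (((j + 1 : ℕ) : ℝ) * ·)).length 0))
      (by simp)
    have hmid : List.zipWith (· + ·) (e :: (List.replicate j (0:ℝ) ++ (-e) ::
          List.replicate 0 0)) ((-e) :: (List.replicate j 0 ++ e :: List.replicate 0 0))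
        = List.replicate (j + 2) 0 := by
      rw [List.zipWith_cons_cons, List.zipWith_append (by simp)]
      have h1 : List.zipWith (· + ·) (List.replicate j (0:ℝ)) (List.replicate j (0 : ℝ))
          = List.replicate j 0 := by
        have := zipWith_add_zeros (List.replicate j (0:ℝ))
        simpa using this
      rw [h1]
      simp only [List.replicate_zero, List.zipWith_cons_cons, List.zipWith_nil_left,
        add_neg_cancel, neg_add_cancel]
      rw [show j + 2 = (j + 1) + 1 from rfl, List.replicate_succ, List.replicate_succ']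
    rw [List.zipWith_append (by simp), List.zipWith_append (by simp), hmid,
      zipWith_add_zeros, zipWith_add_zeros, h.zeros_ins] at hadd
    have hR := h.le_l1 (List.replicate (A.map (((j + 1 : ℕ) : ℝ) * ·)).length 0 ++
        (((-e) :: (List.replicate j 0 ++ e :: List.replicate 0 0)) ++
          List.replicate (B.map (((j + 1 : ℕ) : ℝ) * ·)).length 0))
    have hR2 : ((List.replicate (A.map (((j + 1 : ℕ) : ℝ) * ·)).length 0 ++
        (((-e) :: (List.replicate j 0 ++ e :: List.replicate 0 0)) ++
          List.replicate (B.map (((j + 1 : ℕ) : ℝ) * ·)).length 0)).map (fun x : ℝ => |x|)).sum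
        = 2 * |e| := by
      simp; ring
    rw [hR2] at hR
    rw [← List.map_append, h.smul, abs_of_pos (by positivity)] at hadd
    simp only [List.nil_append]
    linarith
  by_contra hcon
  push Not at hcon
  set d := N0 (A ++ ([] ++ B)) - T with hd
  have hdpos : 0 < d := by rw [hd]; linarith
  obtain ⟨j, hj⟩ := exists_nat_gt (2 * |e| / d)
  have h2 := main j
  rw [div_lt_iff₀ hdpos] at hj
  have h3 : ((j + 1 : ℕ) : ℝ) * d ≤ 2 * |e| := by
    rw [hd]; linarith
  have h4 : (j : ℝ) * d ≤ ((j + 1 : ℕ) : ℝ) * d := by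
    apply mul_le_mul_of_nonneg_right _ hdpos.le
    push_cast; linarith
  linarith

/-! ### Units and merging of integers -/

theorem unit_cancel (h : ListNorm N0) (e : ℝ) (a b : ℕ) :
    Le N0 (List.replicate a e) (List.replicate (a + b) e ++ List.replicate b (-e)) := by
  induction b with
  | zero => simpa using Le.refl (N0 := N0) (List.replicate a e)
  | succ b ih =>
    refine ih.trans ?_
    have e1 : List.replicate (a + (b + 1)) e ++ List.replicate (b + 1) (-e)
        = List.replicate (a + b) e ++ ([e, -e] ++ List.replicate b (-e)) := by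
      rw [← add_assoc, List.replicate_succ' (n := a + b), List.replicate_succ (n := b),
        List.append_assoc]
      rfl
    rw [e1]
    have := (Le.refl (N0 := N0) (List.replicate (a + b) e)).append
      ((h.drop_le e).append (Le.refl (N0 := N0) (List.replicate b (-e))))
    simpa using this

theorem unit_cancel' (h : ListNorm N0) (e : ℝ) (a b : ℕ) :
    Le N0 (List.replicate b (-e)) (List.replicate a e ++ List.replicate (a + b) (-e)) := by
  induction a with
  | zero => simpa using Le.refl (N0 := N0) (List.replicate b (-e))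
  | succ a ih =>
    refine ih.trans ?_
    have e1 : List.replicate (a + 1) e ++ List.replicate (a + 1 + b) (-e)
        = List.replicate a e ++ ([e, -e] ++ List.replicate (a + b) (-e)) := by
      rw [show a + 1 + b = (a + b) + 1 by ring, List.replicate_succ' (n := a),
        List.replicate_succ (n := a + b), List.append_assoc]
      rfl
    rw [e1]
    have := (Le.refl (N0 := N0) (List.replicate a e)).append
      ((h.drop_le e).append (Le.refl (N0 := N0) (List.replicate (a + b) (-e))))
    simpa using this

/-- the list of unit atoms of an integer -/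
def unitL (c : ℤ) : List ℝ := List.replicate c.natAbs (c.sign : ℝ)

theorem unitL_nat (k : ℕ) : unitL (k : ℤ) = List.replicate k 1 := by
  unfold unitL
  rcases Nat.eq_zero_or_pos k with hk | hk
  · subst hk; simp
  · rw [Int.sign_eq_one_of_pos (by positivity), Int.natAbs_natCast, Int.cast_one]

theorem unitL_neg_nat (k : ℕ) : unitL (-(k : ℤ)) = List.replicate k (-1) := by
  unfold unitL
  rcases Nat.eq_zero_or_pos k with hk | hk
  · subst hk; simp
  · rw [Int.sign_neg, Int.sign_eq_one_of_pos (by positivity), Int.natAbs_neg, Int.natAbs_natCast,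
      Int.cast_neg, Int.cast_one]

theorem unitL_add_le (h : ListNorm N0) (c d : ℤ) : Le N0 (unitL (c + d)) (unitL c ++ unitL d) := by
  obtain ⟨a, rfl | rfl⟩ := c.eq_nat_or_neg <;> obtain ⟨b, rfl | rfl⟩ := d.eq_nat_or_neg
  · have e1 : (a : ℤ) + b = ((a + b : ℕ) : ℤ) := by push_cast; ring
    rw [e1, unitL_nat, unitL_nat, unitL_nat, List.replicate_add]
    exact Le.refl _
  · rcases le_total b a with hab | hab
    · obtain ⟨k, rfl⟩ := Nat.exists_eq_add_of_le hab
      have e1 : ((b + k : ℕ) : ℤ) + -(b : ℤ) = (k : ℤ) := by push_cast; ring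
      rw [e1, unitL_nat, unitL_nat, unitL_neg_nat, add_comm b k]
      exact h.unit_cancel 1 k b
    · obtain ⟨k, rfl⟩ := Nat.exists_eq_add_of_le hab
      have e1 : (a : ℤ) + -((a + k : ℕ) : ℤ) = -(k : ℤ) := by push_cast; ring
      rw [e1, unitL_nat, unitL_neg_nat, unitL_neg_nat]
      exact h.unit_cancel' 1 a k
  · rcases le_total b a with hab | hab
    · obtain ⟨k, rfl⟩ := Nat.exists_eq_add_of_le hab
      have e1 : -((b + k : ℕ) : ℤ) + (b : ℤ) = -(k : ℤ) := by push_cast; ring
      rw [e1, unitL_nat, unitL_neg_nat, unitL_neg_nat, add_comm b k]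
      have := h.unit_cancel (-1) k b
      rwa [neg_neg] at this
    · obtain ⟨k, rfl⟩ := Nat.exists_eq_add_of_le hab
      have e1 : -(a : ℤ) + ((a + k : ℕ) : ℤ) = (k : ℤ) := by push_cast; ring
      rw [e1, unitL_nat, unitL_nat, unitL_neg_nat]
      have := h.unit_cancel' (-1) a k
      rwa [neg_neg] at this
  · have e1 : (-(a : ℤ) + -(b : ℤ)) = -((a + b : ℕ) : ℤ) := by push_cast; ring
    rw [e1, unitL_neg_nat, unitL_neg_nat, unitL_neg_nat, List.replicate_add]
    exact Le.refl _

end ListNorm

/-- A list norm for which splitting an atom into equal atoms is an equality. -/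
structure SubListNorm (N : List ℝ → ℝ) : Prop extends ListNorm N where
  sub : ∀ (A B : List ℝ) (c : ℝ) (k : ℕ), 0 < k →
    N (A ++ (List.replicate k (c / k) ++ B)) = N (A ++ c :: B)

namespace SubListNorm

open ListNorm

variable {N : List ℝ → ℝ}

theorem unit_eq (h : SubListNorm N) (A B : List ℝ) (c : ℤ) :
    N (A ++ (unitL c ++ B)) = N (A ++ (c : ℝ) :: B) := by
  rcases eq_or_ne c 0 with hc | hc
  · subst hc
    have := h.zero_ins A B
    simp [unitL, this]
  · have h1 := h.sub A B (c : ℝ) c.natAbs (Int.natAbs_pos.mpr hc)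
    rw [← h1]
    unfold unitL
    congr 4
    have h2 : ((c.natAbs : ℕ) : ℝ) = |(c : ℝ)| := by
      rw [← Int.cast_natCast, Int.natCast_natAbs, Int.cast_abs]
    have h3 : (c : ℝ) = (c.sign : ℝ) * (c.natAbs : ℝ) := by
      have := Int.sign_mul_natAbs c
      rw [← Int.cast_natCast, ← Int.cast_mul, this]
    have h4 : ((c.natAbs : ℕ) : ℝ) ≠ 0 := by
      rw [h2]; simpa using hc
    rw [eq_div_iff h4, ← h3]

/-- Merging of two neighbouring integer atoms. -/
theorem merge_le (h : SubListNorm N) (c d : ℤ) : Le N [((c + d : ℤ) : ℝ)] [(c : ℝ), (d : ℝ)] := by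
  intro A B
  have h1 := h.unit_eq A B (c + d)
  have h2 := h.unit_eq A (unitL d ++ B) c
  have h3 := h.unit_eq (A ++ [(c : ℝ)]) B d
  have h4 := h.toListNorm.unitL_add_le c d A B
  simp only [List.append_assoc, List.cons_append, List.nil_append] at *
  rw [← h1, ← h3, ← h2]
  exact h4

theorem merge_list_le (h : SubListNorm N) (l : List ℤ) :
    Le N [((l.sum : ℤ) : ℝ)] (l.map (fun x : ℤ => (x : ℝ))) := by
  induction l with
  | nil =>
    have := h.toListNorm.le_zeros 1
    simpa using this
  | cons c l ih =>
    rw [List.sum_cons, List.map_cons]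
    refine (h.merge_le c l.sum).trans ?_
    have := (Le.refl (N0 := N) [(c : ℝ)]).append ih
    simpa using this

end SubListNorm

end Crest.Agent.R140
end

-- ▼ part R140/MonoN

/-!
Row 140, part C4b: value of a list norm on finitely supported integer functions,
and monotone push-forward.
-/

set_option autoImplicit false

namespace Crest.Agent.R140

open ListNorm

namespace ListNorm

variable {N : List ℝ → ℝ}

theorem filter_eq (h : ListNorm N) (l : List ℝ) : ∀ A : List ℝ,
    N (A ++ l) = N (A ++ l.filter (fun x => x ≠ 0)) := by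
  induction l with
  | nil => intro A; simp
  | cons c l ih =>
    intro A
    by_cases hc : c = 0
    · subst hc
      rw [h.zero_ins, ih A]
      simp
    · rw [List.filter_cons_of_pos (by simpa using hc)]
      have := ih (A ++ [c])
      simpa using this

theorem sort_filter {Λ : Type*} [LinearOrder Λ] (s : Finset Λ) (P : Λ → Prop) [DecidablePred P] :
    (s.filter P).sort (· ≤ ·) = (s.sort (· ≤ ·)).filter (fun x => P x) := by
  have h1 : ((s.sort (· ≤ ·)).filter (fun x => P x)).Nodup := (s.sort_nodup _).filter _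
  have h2 := (List.toFinset_sort (· ≤ ·) h1).mpr ((s.pairwise_sort _).filter _)
  rw [← h2]
  congr 1
  ext x
  simp

/-- general coefficient function, evaluated on any finite set containing the support -/
theorem map_sort_eq (h : ListNorm N) {Λ : Type*} [LinearOrder Λ] (s t : Finset Λ) (f : Λ → ℝ)
    (hst : s ⊆ t) (hf : ∀ x ∈ t, x ∉ s → f x = 0) :
    N ((t.sort (· ≤ ·)).map f) = N ((s.sort (· ≤ ·)).map f) := by
  classical
  have h1 := h.filter_eq ((t.sort (· ≤ ·)).map f) []
  have h2 := h.filter_eq ((s.sort (· ≤ ·)).map f) []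
  simp only [List.nil_append] at h1 h2
  rw [h1, h2, List.filter_map, List.filter_map]
  congr 2
  have e1 := sort_filter t (fun x => f x ≠ 0)
  have e2 := sort_filter s (fun x => f x ≠ 0)
  have e3 : t.filter (fun x => f x ≠ 0) = s.filter (fun x => f x ≠ 0) := by
    ext x
    simp only [Finset.mem_filter]
    constructor
    · rintro ⟨hx, hfx⟩
      refine ⟨?_, hfx⟩
      by_contra hxs
      exact hfx (hf x hx hxs)
    · rintro ⟨hx, hfx⟩
      exact ⟨hst hx, hfx⟩
  rw [e3] at e1
  have e4 := e1.symm.trans e2
  convert e4 using 1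
  all_goals
    apply List.filter_congr
    intro x _
    simp

end ListNorm

/-- Value of a list functional on an integer function. -/
noncomputable def fnZ' (N : List ℝ → ℝ) {Λ : Type*} [LinearOrder Λ] (c : Λ →₀ ℤ) : ℝ :=
  N ((c.support.sort (· ≤ ·)).map (fun x => ((c x : ℤ) : ℝ)))

namespace ListNorm

variable {N : List ℝ → ℝ} {Λ : Type*} [LinearOrder Λ]

theorem fnZ'_eq (h : ListNorm N) (c : Λ →₀ ℤ) (t : Finset Λ) (ht : c.support ⊆ t) :
    fnZ' N c = N ((t.sort (· ≤ ·)).map (fun x => ((c x : ℤ) : ℝ))) := by
  unfold fnZ'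
  rw [h.map_sort_eq c.support t _ ht]
  intro x _ hx
  simpa using hx


theorem fnZ'_add_le (h : ListNorm N) (a b : Λ →₀ ℤ) : fnZ' N (a + b) ≤ fnZ' N a + fnZ' N b := by
  classical
  set t := a.support ∪ b.support with ht
  rw [h.fnZ'_eq (a + b) t Finsupp.support_add, h.fnZ'_eq a t Finset.subset_union_left,
    h.fnZ'_eq b t Finset.subset_union_right]
  refine le_trans (le_of_eq ?_) (h.add_le _ _ (by simp))
  congr 1
  induction (t.sort (· ≤ ·)) with
  | nil => simp
  | cons x l ih => simp [ih]

theorem fnZ'_smul (h : ListNorm N) (n : ℤ) (a : Λ →₀ ℤ) : fnZ' N (n • a) = |(n : ℝ)| * fnZ' N a := by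
  rw [h.fnZ'_eq (n • a) a.support Finsupp.support_smul]
  unfold fnZ'
  rw [← h.smul, List.map_map]
  congr 1
  apply List.map_congr_left
  intro x _
  simp


theorem fnZ'_zero (h : ListNorm N) : fnZ' N (0 : Λ →₀ ℤ) = 0 := by
  have := h.fnZ'_smul 0 (0 : Λ →₀ ℤ)
  simpa using this



end ListNorm

namespace SubListNorm

variable {N : List ℝ → ℝ} {Λ : Type*} [LinearOrder Λ]

theorem sort_fibers {Λ' : Type*} [LinearOrder Λ'] (f : Λ → Λ') (hf : Monotone f) (s : Finset Λ) :
    s.sort (· ≤ ·) = ((s.image f).sort (· ≤ ·)).flatMap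
      (fun y => (s.filter (fun x => f x = y)).sort (· ≤ ·)) := by
  classical
  set l := ((s.image f).sort (· ≤ ·)).flatMap
      (fun y => (s.filter (fun x => f x = y)).sort (· ≤ ·)) with hl
  have hlt : ((s.image f).sort (· ≤ ·)).Pairwise (· < ·) := by
    have := (s.image f).sortedLT_sort
    exact this.pairwise
  have hnd : l.Nodup := by
    rw [hl, List.nodup_flatMap]
    refine ⟨fun y _ => Finset.sort_nodup _ _, ?_⟩
    refine hlt.imp ?_
    intro y y' hy
    rw [Function.onFun, List.disjoint_left]
    intro x hx hx'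
    simp only [Finset.mem_sort, Finset.mem_filter] at hx hx'
    rw [← hx.2, ← hx'.2] at hy
    exact lt_irrefl _ hy
  have hpw : l.Pairwise (· ≤ ·) := by
    rw [hl, List.pairwise_flatMap]
    refine ⟨fun y _ => Finset.pairwise_sort _ _, ?_⟩
    refine hlt.imp ?_
    intro y y' hy x hx x' hx'
    simp only [Finset.mem_sort, Finset.mem_filter] at hx hx'
    rw [← hx.2, ← hx'.2] at hy
    by_contra hcon
    push Not at hcon
    exact absurd (hf hcon.le) (not_le.mpr hy)
  rw [← (List.toFinset_sort (· ≤ ·) hnd).mpr hpw]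
  congr 1
  ext x
  simp only [hl, List.mem_toFinset, List.mem_flatMap, Finset.mem_sort, Finset.mem_image,
    Finset.mem_filter]
  constructor
  · intro hx
    exact ⟨f x, ⟨x, hx, rfl⟩, hx, rfl⟩
  · rintro ⟨y, _, hx, _⟩
    exact hx

/-- Monotone push-forward does not increase the norm. -/
theorem fnZ'_mapDomain_le (h : SubListNorm N) {Λ' : Type*} [LinearOrder Λ'] (f : Λ → Λ')
    (hf : Monotone f) (a : Λ →₀ ℤ) : fnZ' N (a.mapDomain f) ≤ fnZ' N a := by
  classical
  set s := a.support with hs
  rw [h.toListNorm.fnZ'_eq (a.mapDomain f) (s.image f) Finsupp.mapDomain_support]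
  unfold fnZ'
  rw [← hs, sort_fibers f hf s, List.map_flatMap]
  have e1 : ((s.image f).sort (· ≤ ·)).map (fun y => (((a.mapDomain f) y : ℤ) : ℝ))
      = ((s.image f).sort (· ≤ ·)).flatMap (fun y => [(((a.mapDomain f) y : ℤ) : ℝ)]) := by
    induction ((s.image f).sort (· ≤ ·)) with
    | nil => simp
    | cons x l ih => simp [ih]
  rw [e1]
  apply Le.whole
  apply Le.flatMap
  intro y _
  have e2 : (a.mapDomain f) y = (((s.filter (fun x => f x = y)).sort (· ≤ ·)).map a).sum := by
    rw [Finsupp.mapDomain, Finsupp.sum_apply, Finsupp.sum]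
    have : ((s.filter (fun x => f x = y)).sort (· ≤ ·)).map a
        = ((s.filter (fun x => f x = y)).sort (· ≤ ·)).map (fun x => a x) := rfl
    rw [← List.sum_toFinset _ (Finset.sort_nodup _ _), Finset.sort_toFinset, Finset.sum_filter]
    apply Finset.sum_congr rfl
    intro x _
    rw [Finsupp.single_apply]
  rw [e2]
  have := h.merge_list_le (((s.filter (fun x => f x = y)).sort (· ≤ ·)).map a)
  rw [List.map_map] at this
  exact this

end SubListNorm

/-! ### Link with the structures of `Defs.lean` -/

theorem SprNorm.listNorm (M : SprNorm) : ListNorm M.N where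
  nonneg := M.nonneg
  add_le := M.add
  smul := M.smul
  zero_ins := M.zero
  le_l1 := by
    intro l
    have hz : ∀ (k : ℕ) (A B : List ℝ), M.N (A ++ (List.replicate k 0 ++ B)) = M.N (A ++ B) := by
      intro k
      induction k with
      | zero => intro A B; simp
      | succ k ih => intro A B; rw [List.replicate_succ, List.cons_append, M.zero, ih]
    have h0 : M.N [] = 0 := by
      have := M.smul 0 []
      simpa using this
    induction l with
    | nil => simp [h0]
    | cons c l ih =>
      have h1 := M.add (c :: List.replicate l.length 0) (0 :: l) (by simp)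
      have e1 : List.zipWith (fun x y => x + y) (c :: List.replicate l.length 0) (0 :: l)
          = c :: l := by
        rw [List.zipWith_cons_cons, add_zero, ListNorm.zipWith_zeros_add]
      have e2 : M.N (0 :: l) = M.N l := by simpa using M.zero [] l
      have e3 : M.N (c :: List.replicate l.length 0) = M.N [c] := by
        have := hz l.length [c] []
        simpa using this
      have e4 : M.N [c] ≤ |c| := by
        have := M.smul c [1]
        simp only [List.map_cons, mul_one, List.map_nil] at this
        rw [this]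
        exact mul_le_of_le_one_right (abs_nonneg c) M.single
      rw [e1, e2, e3] at h1
      simp only [List.map_cons, List.sum_cons]
      linarith

theorem SubNorm.subListNorm (M : SubNorm) : SubListNorm M.N where
  toListNorm := M.toSprNorm.listNorm
  sub := by
    intro A B c k hk
    have := M.sub A B c k hk
    simpa using this

theorem SprNorm.fnZ_eq_fnZ' (M : SprNorm) {Λ : Type*} [LinearOrder Λ] (c : Λ →₀ ℤ) :
    M.fnZ c = fnZ' M.N c := rfl

theorem SprNorm.fnZ_nonneg (M : SprNorm) {Λ : Type*} [LinearOrder Λ] (c : Λ →₀ ℤ) :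
    0 ≤ M.fnZ c := M.nonneg _

theorem SprNorm.fnZ_add_le (M : SprNorm) {Λ : Type*} [LinearOrder Λ] (a b : Λ →₀ ℤ) :
    M.fnZ (a + b) ≤ M.fnZ a + M.fnZ b := M.listNorm.fnZ'_add_le a b

theorem SprNorm.fnZ_smul (M : SprNorm) {Λ : Type*} [LinearOrder Λ] (n : ℤ) (a : Λ →₀ ℤ) :
    M.fnZ (n • a) = |(n : ℝ)| * M.fnZ a := M.listNorm.fnZ'_smul n a


/-- Monotone push-forward does not increase the norm. -/
theorem SubNorm.fnZ_mapDomain_le (M : SubNorm) {Λ Λ' : Type*} [LinearOrder Λ] [LinearOrder Λ']
    (f : Λ → Λ') (hf : Monotone f) (a : Λ →₀ ℤ) :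
    M.toSprNorm.fnZ (a.mapDomain f) ≤ M.toSprNorm.fnZ a :=
  M.subListNorm.fnZ'_mapDomain_le f hf a

end Crest.Agent.R140
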