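import Crest.Agent.R140.C3Core
import Crest.Agent.R140.LimNorm
import Crest.Agent.R140.MonoN
import Crest.Agent.R140.Defs
import Crest.Agent.R140.C3Defs
import Mathlib
import Crest.Prelude.Def_MarkovType

-- ▼ part R140/C3Main
section

/-! Row 140, part C3: finite level group inequality, assembly -/

set_option autoImplicit false

namespace Crest.Agent.R140.C3

open Crest.Agent.R140 Crest.AnalysisR

section core
variable {X : Type*} [NormedAddCommGroup X] [NormedSpace ℝ X] {p K : ℝ}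
  {Λ : Type} [LinearOrder Λ] {S : Type} [Fintype S] [Nonempty S]
  {Ω : Type} [Fintype Ω]

theorem one_seq_R (hX : HasMarkovType X p K) (hp : 1 < p) (hK : 0 < K) (inv : S → S)
    (hinv : ∀ s, inv (inv s) = s) (h : S → Λ ≃o Λ) (h_inv : ∀ s, h (inv s) = (h s).symm)
    (m : S → Λ →₀ ℤ) (m_inv : ∀ s, m (inv s) = -(Finsupp.mapDomain (h s).symm (m s)))
    (t : ℕ) (ht : 1 ≤ t) (Q : Finset Λ) (hQm : ∀ s, (m s).support ⊆ Q)
    (hQb : ∀ w : List S, w.length ≤ t → (bw h m w).support ⊆ Q)
    (hQh : ∀ w : List S, w.length < t → ∀ s,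
      (Finsupp.mapDomain (h s) (bw h m w)).support ⊆ Q)
    (B : ℝ) (hB : ∀ w : List S, w.length = t → l1 (bw h m w) ^ p ≤ B)
    {μ : Ω → ℝ} (hμ : ∀ ω, 0 ≤ μ ω) (hμ1 : ∑ ω, μ ω = 1) {ζ : Ω → ℕ → ℕ} {ε : ℝ}
    (H : SprH μ ζ Q.card (2 * Q.card) ε) (N : ℕ) (x : Fin (N + 1) → X) (hx : ∀ i, ‖x i‖ ≤ 1)
    (R : ℕ) (hR : 1 ≤ R) :
    wordAvg t (fun w => av μ (fun ω => ‖Dv Q x (bw h m w) (zr Q Q ζ N ω)‖ ^ p)) ≤
      K ^ p * t * ((Fintype.card S : ℝ)⁻¹ *
        ∑ s, av μ (fun ω => ‖Dv Q x (m s) (zr Q (Qs (h s) Q) ζ N ω)‖ ^ p)) +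
      B * t * ∑ s, (Fintype.card S * ε + l1 (m s) / R) := by
  classical
  have hp0 : 0 ≤ p := by linarith
  have hR0 : (0 : ℝ) < R := by exact_mod_cast hR
  set c : ℝ := ((R : ℝ) ^ (N + 1))⁻¹ with hc
  have hc0 : 0 ≤ c := by positivity
  set ρ₁ : (Fin Q.card → Fin (N + 1)) → ℝ := fun z => Pr μ Q Q ζ N z +
    ∑ s, |Pr μ Q (Qs (h s) Q) ζ N z - Pr μ Q Q ζ N z| with hρ₁
  set ρ : V Q.card N R → ℝ := fun v => c * ρ₁ v.1 with hρ
  have hQQ : ∀ s, Q ⊆ Qs (h s) Q := fun s => Finset.subset_union_left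
  have hPle : ∀ s z, Pr μ Q (Qs (h s) Q) ζ N z ≤ ρ₁ z := by
    intro s z
    have h1 := Finset.single_le_sum (f := fun s => |Pr μ Q (Qs (h s) Q) ζ N z - Pr μ Q Q ζ N z|)
      (fun _ _ => abs_nonneg _) (Finset.mem_univ s)
    have h2 := le_abs_self (Pr μ Q (Qs (h s) Q) ζ N z - Pr μ Q Q ζ N z)
    rw [hρ₁]
    simp only at h1 ⊢
    linarith
  have hP0le : ∀ z, Pr μ Q Q ζ N z ≤ ρ₁ z := by
    intro z
    have : 0 ≤ ∑ s, |Pr μ Q (Qs (h s) Q) ζ N z - Pr μ Q Q ζ N z| :=
      Finset.sum_nonneg fun _ _ => abs_nonneg _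
    rw [hρ₁]
    simp only
    linarith
  have hρ_le : ∀ s v, ∑ v', J h m Q μ ζ N R s v v' ≤ ρ v := by
    intro s v
    refine (sum_J_le h m Q μ ζ N R hμ s v).trans ?_
    exact mul_le_mul_of_nonneg_left (hPle s v.1) hc0
  have hsum : ∀ g : (Fin Q.card → Fin (N + 1)) → ℝ,
      ∑ v : V Q.card N R, ρ v * g v.1 = ∑ z, ρ₁ z * g z := by
    intro g
    rw [Fintype.sum_prod_type]
    refine Finset.sum_congr rfl fun z _ => ?_
    simp only [hρ, Finset.sum_const, Finset.card_univ, Fintype.card_fun, Fintype.card_fin,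
      nsmul_eq_mul, Nat.cast_pow]
    have : (R : ℝ) ^ (N + 1) * c = 1 := by
      rw [hc, mul_inv_cancel₀]; positivity
    calc (R : ℝ) ^ (N + 1) * (c * ρ₁ z * g z) = ((R : ℝ) ^ (N + 1) * c) * (ρ₁ z * g z) := by ring
      _ = _ := by rw [this, one_mul]
  have hmass : ∑ v : V Q.card N R, ρ v ≤ 1 + Fintype.card S * ε := by
    have h1 := hsum (fun _ => 1)
    simp only [mul_one] at h1
    rw [h1, hρ₁, Finset.sum_add_distrib, Finset.sum_comm]
    have h2 := sum_Pr (μ := μ) (ζ := ζ) Q Q N (fun _ => 1)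
    simp only [mul_one] at h2
    rw [h2, av_const hμ1]
    have h3 : ∑ s, ∑ z, |Pr μ Q (Qs (h s) Q) ζ N z - Pr μ Q Q ζ N z| ≤ ∑ _s : S, ε :=
      Finset.sum_le_sum fun s _ => sum_abs_Pr H N (hQQ s) subset_rfl (Qs_card (h s) Q)
        (by omega) le_rfl
    rw [Finset.sum_const, Finset.card_univ, nsmul_eq_mul] at h3
    linarith
  have key := chain_ineq_disp hX hp hK inv (J h m Q μ ζ N R)
    (fun s v v' => J_nonneg h m Q μ ζ N R hμ s v v')
    (fun s v v' => (J_symm h m Q μ ζ N R inv h_inv m_inv s v v').symm) hinv ρ hρ_le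
    (fst Q N R x) t ht (fun w v => Dv Q x (bw h m w) v.1) (fun v => Dv_zero Q x v.1)
    (fun s w v v' hw hJ => path_step h m Q μ ζ N R x s (hQm s) (bw h m w) (hQb w hw.le)
      (hQh w hw s) v v' hJ.ne') B
    (fun w v hw => (Real.rpow_le_rpow (norm_nonneg _)
      (norm_Dv_le Q x hx (bw h m w) (hQb w hw.le) v.1) hp0).trans (hB w hw))
  have hlo : wordAvg t (fun w => av μ (fun ω => ‖Dv Q x (bw h m w) (zr Q Q ζ N ω)‖ ^ p)) ≤
      wordAvg t (fun w => ∑ v, ρ v * ‖Dv Q x (bw h m w) v.1‖ ^ p) := by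
    refine wordAvg_mono t _ _ fun w _ => ?_
    rw [hsum (fun z => ‖Dv Q x (bw h m w) z‖ ^ p),
      ← sum_Pr Q Q N (fun z => ‖Dv Q x (bw h m w) z‖ ^ p)]
    exact Finset.sum_le_sum fun z _ => mul_le_mul_of_nonneg_right (hP0le z) (by positivity)
  refine hlo.trans (key.trans ?_)
  have hB0 : 0 ≤ B := by
    obtain ⟨s⟩ := (inferInstance : Nonempty S)
    exact (Real.rpow_nonneg (l1_nonneg _) p).trans (hB (List.replicate t s) (by simp))
  refine add_le_add ?_ ?_
  · refine mul_le_mul_of_nonneg_left ?_ (by positivity)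
    refine mul_le_mul_of_nonneg_left ?_ (by positivity)
    exact Finset.sum_le_sum fun s _ => energy_le h m Q μ ζ N R hμ x s (hQm s) p
  · refine mul_le_mul_of_nonneg_left ?_ (by positivity)
    rw [Finset.sum_comm]
    refine Finset.sum_le_sum fun s _ => ?_
    rw [Finset.sum_sub_distrib]
    have := le_sum_J h m Q μ ζ N R hμ hμ1 hR s
    linarith

theorem one_seq (hX : HasMarkovType X p K) (hp : 1 < p) (hK : 0 < K) (inv : S → S)
    (hinv : ∀ s, inv (inv s) = s) (h : S → Λ ≃o Λ) (h_inv : ∀ s, h (inv s) = (h s).symm)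
    (m : S → Λ →₀ ℤ) (m_inv : ∀ s, m (inv s) = -(Finsupp.mapDomain (h s).symm (m s)))
    (t : ℕ) (ht : 1 ≤ t) (Q : Finset Λ) (hQm : ∀ s, (m s).support ⊆ Q)
    (hQb : ∀ w : List S, w.length ≤ t → (bw h m w).support ⊆ Q)
    (hQh : ∀ w : List S, w.length < t → ∀ s,
      (Finsupp.mapDomain (h s) (bw h m w)).support ⊆ Q)
    (B : ℝ) (hB : ∀ w : List S, w.length = t → l1 (bw h m w) ^ p ≤ B)
    {μ : Ω → ℝ} (hμ : ∀ ω, 0 ≤ μ ω) (hμ1 : ∑ ω, μ ω = 1) {ζ : Ω → ℕ → ℕ} {ε : ℝ}
    (H : SprH μ ζ Q.card (2 * Q.card) ε) (N : ℕ) (x : Fin (N + 1) → X) (hx : ∀ i, ‖x i‖ ≤ 1) :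
    wordAvg t (fun w => av μ (fun ω => ‖Dv Q x (bw h m w) (zr Q Q ζ N ω)‖ ^ p)) ≤
      K ^ p * t * ((Fintype.card S : ℝ)⁻¹ *
        ∑ s, av μ (fun ω => ‖Dv Q x (m s) (zr Q (Qs (h s) Q) ζ N ω)‖ ^ p)) +
      B * t * ((Fintype.card S : ℝ) ^ 2 * ε) := by
  have h1 : ∀ R : ℕ, 1 ≤ R → _ := fun R hR => one_seq_R hX hp hK inv hinv h h_inv m m_inv t ht Q hQm
    hQb hQh B hB hμ hμ1 H N x hx R hR
  have h2 : Filter.Tendsto (fun R : ℕ => K ^ p * t * ((Fintype.card S : ℝ)⁻¹ *
        ∑ s, av μ (fun ω => ‖Dv Q x (m s) (zr Q (Qs (h s) Q) ζ N ω)‖ ^ p)) +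
      B * t * ∑ s, (Fintype.card S * ε + l1 (m s) / R)) Filter.atTop
      (nhds (K ^ p * t * ((Fintype.card S : ℝ)⁻¹ *
        ∑ s, av μ (fun ω => ‖Dv Q x (m s) (zr Q (Qs (h s) Q) ζ N ω)‖ ^ p)) +
      B * t * ∑ _s : S, (Fintype.card S * ε + 0))) := by
    refine Filter.Tendsto.const_add _ (Filter.Tendsto.const_mul _ ?_)
    refine tendsto_finset_sum _ fun s _ => ?_
    exact Filter.Tendsto.const_add _ (tendsto_const_div_atTop_nhds_zero_nat (l1 (m s)))
  have h3 := ge_of_tendsto h2 ((Filter.eventually_ge_atTop 1).mono fun R hR => h1 R hR)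
  refine h3.trans (le_of_eq ?_)
  rw [Finset.sum_const, Finset.card_univ, nsmul_eq_mul]
  ring

/-- replacing the configuration by the list of coefficients -/
theorem av_close {μ : Ω → ℝ} {ζ : Ω → ℕ → ℕ} {ε : ℝ} (hp : 0 ≤ p) (Q Q' : Finset Λ)
    (hQ : Q ⊆ Q') (hc : Q'.card ≤ 2 * Q.card)
    (H : SprH μ ζ Q.card (2 * Q.card) ε) (N : ℕ) (hN : ∀ ω i, i < 2 * Q.card → ζ ω i ≤ N)
    (x : ℕ → X) (hx : ∀ i, ‖x i‖ ≤ 1) (b : Λ →₀ ℤ) (hb : b.support ⊆ Q) :
    |av μ (fun ω => ‖Dv Q (fun ν : Fin (N + 1) => x ν) b (zr Q Q' ζ N ω)‖ ^ p) -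
      av μ (fun ω => ‖∑ j : Fin (listOf b).length, (listOf b).get j • x (ζ ω j)‖ ^ p)| ≤
      l1 b ^ p * ε := by
  have e : ∀ ω, Dv Q (fun ν : Fin (N + 1) => x ν) b (zr Q Q' ζ N ω) =
      b.sum (fun q c => (c : ℝ) • x (ζ ω (rkF Q' q))) := by
    intro ω
    have h1 := Dv_rank Q (fun ν : Fin (N + 1) => x ν) b hb (fun q => zf ζ N ω (rkF Q' q))
    have h2 : (fun j => zf ζ N ω (rkF Q' (Q.orderEmbOfFin rfl j))) = zr Q Q' ζ N ω := rfl
    rw [h2] at h1
    rw [h1]
    refine Finset.sum_congr rfl fun q hq => ?_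
    have h3 : rkF Q' q < 2 * Q.card := (rkF_lt (hQ (hb hq))).trans_le hc
    have h4 : ((zf ζ N ω (rkF Q' q) : Fin (N + 1)) : ℕ) = ζ ω (rkF Q' q) := by
      unfold zf
      rw [Fin.val_ofNat]
      exact Nat.mod_eq_of_lt (Nat.lt_succ_of_le (hN ω _ h3))
    simp only [h4]
  simp only [e]
  exact list_close H hp x hx b Q' (hb.trans hQ) hc (Finset.card_le_card hb)

end core

end Crest.Agent.R140.C3

namespace Crest.Agent.R140

open C3 Crest.AnalysisR

/-- **C3, finite level.** -/
theorem core {X : Type*} [NormedAddCommGroup X] [NormedSpace ℝ X] {p K : ℝ}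
    (hX : HasMarkovType X p K) (hp : 1 < p) (hK : 0 < K)
    {Λ : Type} [LinearOrder Λ] {S : Type} [Fintype S] [Nonempty S] (inv : S → S)
    (hinv : ∀ s, inv (inv s) = s) (h : S → Λ ≃o Λ) (h_inv : ∀ s, h (inv s) = (h s).symm)
    (m : S → Λ →₀ ℤ) (m_inv : ∀ s, m (inv s) = -(Finsupp.mapDomain (h s).symm (m s)))
    (t : ℕ) (ht : 1 ≤ t) :
    ∃ (k : ℕ) (C : ℝ), 0 ≤ C ∧ ∀ (Ω A : Type) [Fintype Ω] [Fintype A] (μ : Ω → ℝ),
      (∀ ω, 0 ≤ μ ω) → ∑ ω, μ ω = 1 → ∀ (ζ : Ω → ℕ → ℕ) (ε : ℝ), SprH μ ζ k (2 * k) ε →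
      ∀ (w : A → ℝ), (∀ a, 0 ≤ w a) → ∑ a, w a = 1 → ∀ (x : A → ℕ → X), (∀ a i, ‖x a i‖ ≤ 1) →
      (∑ wd : Fin t → S, QQ p μ ζ w x (listOf (bw h m (List.ofFn wd)))) /
          (Fintype.card S : ℝ) ^ t ≤
        K ^ p * t * ((∑ s, QQ p μ ζ w x (listOf (m s))) / Fintype.card S) + C * ε := by
  classical
  have hp0 : 0 ≤ p := by linarith
  have hfin : {w : List S | w.length ≤ t}.Finite := List.finite_length_le S t
  set W : Finset (List S) := hfin.toFinset with hW
  have hWm : ∀ w : List S, w.length ≤ t → w ∈ W := fun w hw => by rw [hW]; simpa using hw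
  set Q : Finset Λ := (Finset.univ.biUnion fun s => (m s).support) ∪
    (W.biUnion fun w => (bw h m w).support) ∪
    (W.biUnion fun w => Finset.univ.biUnion fun s =>
      (Finsupp.mapDomain (h s) (bw h m w)).support) with hQ
  have hQm : ∀ s, (m s).support ⊆ Q := by
    intro s
    refine Finset.Subset.trans ?_ (Finset.subset_union_left.trans Finset.subset_union_left)
    exact Finset.subset_biUnion_of_mem (fun s => (m s).support) (Finset.mem_univ s)
  have hQb : ∀ w : List S, w.length ≤ t → (bw h m w).support ⊆ Q := by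
    intro w hw
    refine Finset.Subset.trans ?_ (Finset.subset_union_right.trans Finset.subset_union_left)
    exact Finset.subset_biUnion_of_mem (fun w => (bw h m w).support) (hWm w hw)
  have hQh : ∀ w : List S, w.length < t → ∀ s,
      (Finsupp.mapDomain (h s) (bw h m w)).support ⊆ Q := by
    intro w hw s
    refine Finset.Subset.trans ?_ Finset.subset_union_right
    refine Finset.Subset.trans ?_ (Finset.subset_biUnion_of_mem (fun w => Finset.univ.biUnion
      fun s => (Finsupp.mapDomain (h s) (bw h m w)).support) (hWm w hw.le))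
    exact Finset.subset_biUnion_of_mem
      (fun s => (Finsupp.mapDomain (h s) (bw h m w)).support) (Finset.mem_univ s)
  set B : ℝ := ∑ w ∈ W, l1 (bw h m w) ^ p with hBdef
  have hB : ∀ w : List S, w.length ≤ t → l1 (bw h m w) ^ p ≤ B := fun w hw =>
    Finset.single_le_sum (f := fun w => l1 (bw h m w) ^ p)
      (fun w _ => Real.rpow_nonneg (l1_nonneg _) p) (hWm w hw)
  have hB0 : 0 ≤ B := Finset.sum_nonneg fun w _ => Real.rpow_nonneg (l1_nonneg _) p
  set M : ℝ := ∑ s, l1 (m s) ^ p with hM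
  have hM0 : 0 ≤ M := Finset.sum_nonneg fun s _ => Real.rpow_nonneg (l1_nonneg _) p
  have hS : (0 : ℝ) < Fintype.card S := by exact_mod_cast Fintype.card_pos
  refine ⟨Q.card, B + (K ^ p * t * ((Fintype.card S : ℝ)⁻¹ * M) +
    B * t * (Fintype.card S : ℝ) ^ 2), by positivity, ?_⟩
  intro Ω A _ _ μ hμ hμ1 ζ ε H w hw hw1 x hx
  obtain ⟨N, hN⟩ : ∃ N : ℕ, ∀ ω i, i < 2 * Q.card → ζ ω i ≤ N := by
    refine ⟨∑ ω, ∑ i ∈ Finset.range (2 * Q.card), ζ ω i, fun ω i hi => ?_⟩
    refine le_trans ?_ (Finset.single_le_sum (f := fun ω => ∑ i ∈ Finset.range (2 * Q.card), ζ ω i)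
      (fun _ _ => Nat.zero_le _) (Finset.mem_univ ω))
    exact Finset.single_le_sum (f := fun i => ζ ω i) (fun _ _ => Nat.zero_le _)
      (Finset.mem_range.mpr hi)
  have hε : 0 ≤ ε := H.nonneg
  -- one sequence
  set q1 : (ℕ → X) → List ℝ → ℝ := fun y l =>
    av μ (fun ω => ‖∑ j : Fin l.length, l.get j • y (ζ ω j)‖ ^ p) with hq1
  have hone : ∀ y : ℕ → X, (∀ i, ‖y i‖ ≤ 1) →
      wordAvg t (fun w => q1 y (listOf (bw h m w))) ≤
        K ^ p * t * ((Fintype.card S : ℝ)⁻¹ * ∑ s, q1 y (listOf (m s))) +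
        (B + (K ^ p * t * ((Fintype.card S : ℝ)⁻¹ * M) + B * t * (Fintype.card S : ℝ) ^ 2)) * ε := by
    intro y hy
    have h1 := one_seq hX hp hK inv hinv h h_inv m m_inv t ht Q hQm hQb hQh B
      (fun w hw => hB w hw.le) hμ hμ1 H N (fun ν : Fin (N + 1) => y ν) (fun i => hy i)
    have h2 : wordAvg t (fun w => q1 y (listOf (bw h m w))) ≤
        wordAvg t (fun w => av μ (fun ω => ‖Dv Q (fun ν : Fin (N + 1) => y ν) (bw h m w)
          (zr Q Q ζ N ω)‖ ^ p)) + B * ε := by
      rw [← wordAvg_const (S := S) t (B * ε), ← wordAvg_add]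
      refine wordAvg_mono t _ _ fun w hw => ?_
      have h3 := av_close hp0 Q Q subset_rfl (by omega) H N hN y hy (bw h m w) (hQb w hw.le)
      have h4 := (abs_le.mp h3).1
      have h5 := mul_le_mul_of_nonneg_right (hB w hw.le) hε
      simp only [hq1]
      linarith
    have h6 : ∑ s, av μ (fun ω => ‖Dv Q (fun ν : Fin (N + 1) => y ν) (m s)
        (zr Q (Qs (h s) Q) ζ N ω)‖ ^ p) ≤ ∑ s, q1 y (listOf (m s)) + M * ε := by
      rw [hM, Finset.sum_mul, ← Finset.sum_add_distrib]
      refine Finset.sum_le_sum fun s _ => ?_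
      have h3 := av_close hp0 Q (Qs (h s) Q) Finset.subset_union_left (Qs_card (h s) Q) H N hN y hy
        (m s) (hQm s)
      have h4 := (abs_le.mp h3).2
      simp only [hq1]
      linarith
    have h7 : K ^ p * t * ((Fintype.card S : ℝ)⁻¹ * ∑ s, av μ (fun ω =>
        ‖Dv Q (fun ν : Fin (N + 1) => y ν) (m s) (zr Q (Qs (h s) Q) ζ N ω)‖ ^ p)) ≤
        K ^ p * t * ((Fintype.card S : ℝ)⁻¹ * (∑ s, q1 y (listOf (m s)) + M * ε)) := by
      refine mul_le_mul_of_nonneg_left ?_ (by positivity)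
      exact mul_le_mul_of_nonneg_left h6 (by positivity)
    calc wordAvg t (fun w => q1 y (listOf (bw h m w))) ≤ _ := h2
      _ ≤ _ := add_le_add_left (h1.trans (add_le_add_left h7 _)) _
      _ = _ := by ring
  -- the family
  have hQQ : ∀ l, QQ p μ ζ w x l = ∑ a, w a * q1 (x a) l := by
    intro l
    unfold QQ
    simp only [hq1, av]
    rw [Finset.sum_congr rfl fun ω _ => Finset.mul_sum _ _ _, Finset.sum_comm]
    refine Finset.sum_congr rfl fun a _ => ?_
    rw [Finset.mul_sum]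
    exact Finset.sum_congr rfl fun ω _ => by ring
  rw [← wordAvg_eq_sum t (fun wd => QQ p μ ζ w x (listOf (bw h m wd)))]
  simp only [hQQ]
  rw [wordAvg_sum Finset.univ t (fun a wd => w a * q1 (x a) (listOf (bw h m wd)))]
  have h8 : ∀ a, wordAvg t (fun wd => w a * q1 (x a) (listOf (bw h m wd))) ≤
      w a * (K ^ p * t * ((Fintype.card S : ℝ)⁻¹ * ∑ s, q1 (x a) (listOf (m s))) +
        (B + (K ^ p * t * ((Fintype.card S : ℝ)⁻¹ * M) + B * t * (Fintype.card S : ℝ) ^ 2)) * ε) := by
    intro a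
    rw [wordAvg_mul_left]
    exact mul_le_mul_of_nonneg_left (hone (x a) (hx a)) (hw a)
  refine (Finset.sum_le_sum fun a _ => h8 a).trans (le_of_eq ?_)
  rw [Finset.sum_congr rfl fun a _ => mul_add (w a) _ _, Finset.sum_add_distrib, ← Finset.sum_mul,
    hw1, one_mul]
  congr 1
  have h9 : ∑ s, ∑ a, w a * q1 (x a) (listOf (m s)) = ∑ a, w a * ∑ s, q1 (x a) (listOf (m s)) := by
    rw [Finset.sum_comm]
    exact Finset.sum_congr rfl fun a _ => (Finset.mul_sum _ _ _).symm
  rw [h9, Finset.sum_div, Finset.mul_sum]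
  exact Finset.sum_congr rfl fun a _ => by ring

end Crest.Agent.R140
end

-- ▼ part R140/Contract
section

/-!
# Row 140: the contract theorem `exists_spr` between {C1, C2, C3} and {C4, C5}
-/

set_option autoImplicit false

namespace Crest.Agent.R140

open Crest.AnalysisR Filter Crest.Agent.R140.LimNorm

/-- **Contract.** A space of Markov type `p > 1` with separated families of all lengths carries
a spreading invariant list norm, bounded below on `(1,…,1,-1,…,-1)`, which satisfies the group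
inequality for every linear order. -/
theorem exists_spr {X : Type*} [NormedAddCommGroup X] [NormedSpace ℝ X] {p K θ : ℝ}
    (hX : HasMarkovType X p K) (hp : 1 < p) (hK : 0 < K) (hsep : ∀ n, SepFam X θ n) :
    ∃ M : SprNorm, (∀ m : ℕ, θ * m ≤ M.N (List.replicate m 1 ++ List.replicate m (-1))) ∧
      (∀ (L : Type) [LinearOrder L] (S : Type) [Fintype S] [Nonempty S] (inv : S → S)
        (h : S → L ≃o L) (m : S → L →₀ ℤ), (∀ s, inv (inv s) = s) →
        (∀ s, h (inv s) = (h s).symm) → (∀ s, m (inv s) = -(m s).mapDomain (h s).symm) →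
        ∀ t : ℕ, (∑ w : Fin t → S, M.fnZ (bw h m (List.ofFn w)) ^ p) / (Fintype.card S : ℝ) ^ t ≤
          K ^ p * t * ((∑ s, M.fnZ (m s) ^ p) / Fintype.card S)) := by
  obtain ⟨U, nn, ee, Z, F, M, hn, he, hM, _, hM3⟩ := limNorm (X := X) (p := p) (θ := θ) hp.le hsep
  refine ⟨M, hM3, ?_⟩
  intro L _ S _ _ inv h m h1 h2 h3 t
  rcases Nat.eq_zero_or_pos t with rfl | ht
  · have h0 : M.fnZ (bw h m ([] : List S)) = 0 := by
      rw [M.fnZ_eq_fnZ']
      exact M.listNorm.fnZ'_zero
    simp [h0, Real.zero_rpow (by linarith : p ≠ 0)]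
  obtain ⟨k, C, hC0, hC⟩ := core hX hp hK inv h1 h h2 m h3 t ht
  have key : ∀ v : L →₀ ℤ,
      Tendsto (fun r => C3.QQ p (Z r).μ (Z r).ζ (F r).w (F r).x (C3.listOf v)) U
        (nhds (M.fnZ v ^ p)) := fun v => hM (C3.listOf v)
  have t1 : Tendsto (fun r => (∑ w : Fin t → S,
      C3.QQ p (Z r).μ (Z r).ζ (F r).w (F r).x (C3.listOf (bw h m (List.ofFn w)))) /
        (Fintype.card S : ℝ) ^ t) U
      (nhds ((∑ w : Fin t → S, M.fnZ (bw h m (List.ofFn w)) ^ p) / (Fintype.card S : ℝ) ^ t)) :=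
    (tendsto_finsetSum _ fun w _ => key _).div_const _
  have t2 : Tendsto (fun r => K ^ p * t *
      ((∑ s, C3.QQ p (Z r).μ (Z r).ζ (F r).w (F r).x (C3.listOf (m s))) / Fintype.card S) +
        C * ee r) U
      (nhds (K ^ p * t * ((∑ s, M.fnZ (m s) ^ p) / Fintype.card S) + C * 0)) :=
    (((tendsto_finsetSum _ fun s _ => key _).div_const _).const_mul _).add
      (he.const_mul C)
  rw [mul_zero, add_zero] at t2
  refine le_of_tendsto_of_tendsto t1 t2 ?_
  filter_upwards [hn.eventually_ge_atTop (2 * k)] with r hr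
  refine hC (Z r).Ω (F r).A (Z r).μ (Z r).μ_nonneg (Z r).μ_sum (Z r).ζ (ee r) ?_
    (F r).w (F r).w_nonneg (F r).w_sum (F r).x (F r).norm_le
  intro j _ i i' hi hi' hin hin' G hG
  exact (Z r).spr j i i' hi hi' (fun a => (hin a).trans_le hr) (fun a => (hin' a).trans_le hr) G hG

end Crest.Agent.R140
end

-- ▼ part R140/Blow
section

/-!
# Row 140, module C4a (helper798): the subdivision norm `M.inf`

For a spreading-invariant list norm `M`, replacing atoms `c` by `k` atoms `c / k` does not increase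
the norm (average over the position inside the blocks), so the infimum over `k` is again such a
norm, and it does not see subdivisions.
-/

set_option autoImplicit false

open Finset

namespace Crest.Agent.R140

noncomputable section

/-- subdivision of every atom into `k` atoms -/
def blow (k : ℕ) (l : List ℝ) : List ℝ := l.flatMap (fun c => List.replicate k (c / k))

@[simp] theorem blow_nil (k : ℕ) : blow k [] = [] := rfl

theorem blow_cons (k : ℕ) (c : ℝ) (l : List ℝ) :
    blow k (c :: l) = List.replicate k (c / k) ++ blow k l := rfl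

theorem blow_append (k : ℕ) (l l' : List ℝ) : blow k (l ++ l') = blow k l ++ blow k l' := by
  simp [blow]

theorem blow_one (l : List ℝ) : blow 1 l = l := by
  induction l with
  | nil => rfl
  | cons c l ih => rw [blow_cons, ih]; simp

theorem blow_replicate (k n : ℕ) (x : ℝ) :
    blow k (List.replicate n x) = List.replicate (n * k) (x / k) := by
  induction n with
  | zero => simp
  | succ n ih =>
    rw [List.replicate_succ, blow_cons, ih, List.replicate_append_replicate]
    congr 1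
    ring

theorem blow_blow (k m : ℕ) (l : List ℝ) : blow k (blow m l) = blow (m * k) l := by
  induction l with
  | nil => rfl
  | cons c l ih =>
    rw [blow_cons, blow_append, ih, blow_replicate, blow_cons]
    congr 2
    rw [div_div]
    push_cast
    rfl

theorem blow_map (k : ℕ) (t : ℝ) (l : List ℝ) :
    blow k (l.map (fun x => t * x)) = (blow k l).map (fun x => t * x) := by
  induction l with
  | nil => rfl
  | cons c l ih =>
    rw [List.map_cons, blow_cons, blow_cons, List.map_append, ih, List.map_replicate]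
    congr 2
    ring

theorem blow_length (k : ℕ) (l : List ℝ) : (blow k l).length = l.length * k := by
  induction l with
  | nil => simp
  | cons c l ih =>
    rw [blow_cons, List.length_append, ih, List.length_replicate, List.length_cons]
    ring

theorem blow_zipWith (k : ℕ) (l l' : List ℝ) (h : l.length = l'.length) :
    blow k (List.zipWith (fun x y => x + y) l l') =
      List.zipWith (fun x y => x + y) (blow k l) (blow k l') := by
  induction l generalizing l' with
  | nil => simp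
  | cons c l ih =>
    cases l' with
    | nil => simp at h
    | cons c' l' =>
      rw [List.zipWith_cons_cons, blow_cons, blow_cons, blow_cons,
        List.zipWith_append (by simp), ih l' (by simpa using h)]
      congr 1
      rw [List.zipWith_replicate]
      simp only [min_self]
      congr 1
      ring

/-! ### zero insertion -/

theorem SprNorm.N_zeros (M : SprNorm) (n : ℕ) (A B : List ℝ) :
    M.N (A ++ (List.replicate n 0 ++ B)) = M.N (A ++ B) := by
  induction n with
  | zero => simp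
  | succ n ih =>
    rw [List.replicate_succ, List.cons_append, M.zero, ih]

theorem SprNorm.N_replicate_zero (M : SprNorm) (n : ℕ) : M.N (List.replicate n 0) = 0 := by
  have h := M.smul 0 (List.replicate n (0 : ℝ))
  rw [List.map_replicate, abs_zero, zero_mul, zero_mul] at h
  exact h

/-- the block with the atom `c` at position `j` of `k` -/
def slot (k j : ℕ) (c : ℝ) : List ℝ := List.replicate j 0 ++ c :: List.replicate (k - 1 - j) 0

/-- every atom placed at position `j` of a block of length `k` -/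
def ins (k j : ℕ) (l : List ℝ) : List ℝ := l.flatMap (slot k j)

theorem ins_cons (k j : ℕ) (c : ℝ) (l : List ℝ) :
    ins k j (c :: l) = slot k j c ++ ins k j l := rfl

theorem slot_length {k j : ℕ} (h : j < k) (c : ℝ) : (slot k j c).length = k := by
  simp only [slot, List.length_append, List.length_replicate, List.length_cons]
  omega

theorem ins_length {k j : ℕ} (h : j < k) (l : List ℝ) : (ins k j l).length = l.length * k := by
  induction l with
  | nil => simp [ins]
  | cons c l ih =>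
    rw [ins_cons, List.length_append, ih, slot_length h, List.length_cons]
    ring

theorem SprNorm.N_ins (M : SprNorm) (k j : ℕ) (Q : List ℝ) : ∀ A B : List ℝ,
    M.N (A ++ (ins k j Q ++ B)) = M.N (A ++ (Q ++ B)) := by
  induction Q with
  | nil => intro A B; rfl
  | cons c Q ih =>
    intro A B
    have e1 : A ++ (ins k j (c :: Q) ++ B) = A ++ (List.replicate j 0 ++
        (c :: (List.replicate (k - 1 - j) 0 ++ (ins k j Q ++ B)))) := by
      rw [ins_cons, slot]; simp
    have e2 : A ++ (c :: (List.replicate (k - 1 - j) 0 ++ (ins k j Q ++ B))) =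
        (A ++ [c]) ++ (List.replicate (k - 1 - j) 0 ++ (ins k j Q ++ B)) := by simp
    have e3 : A ++ (c :: Q ++ B) = (A ++ [c]) ++ (Q ++ B) := by simp
    rw [e1, M.N_zeros, e2, M.N_zeros, ih, e3]

/-! ### sums of lists -/

/-- entrywise sum of `f 0, …, f (k - 1)` (lists of length `n`) -/
def lsum (n : ℕ) (f : ℕ → List ℝ) : ℕ → List ℝ
  | 0 => List.replicate n 0
  | k + 1 => List.zipWith (fun x y => x + y) (lsum n f k) (f k)

theorem lsum_length (n : ℕ) (f : ℕ → List ℝ) (k : ℕ) (h : ∀ j < k, (f j).length = n) :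
    (lsum n f k).length = n := by
  induction k with
  | zero => simp [lsum]
  | succ k ih =>
    rw [lsum, List.length_zipWith, ih (fun j hj => h j (by omega)), h k (by omega), min_self]

theorem SprNorm.N_lsum_le (M : SprNorm) (n : ℕ) (f : ℕ → List ℝ) (k : ℕ)
    (h : ∀ j < k, (f j).length = n) : M.N (lsum n f k) ≤ ∑ j ∈ range k, M.N (f j) := by
  induction k with
  | zero => simp [lsum, M.N_replicate_zero]
  | succ k ih =>
    rw [lsum, Finset.sum_range_succ]
    refine (M.add _ _ ?_).trans (add_le_add (ih fun j hj => h j (by omega)) le_rfl)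
    rw [lsum_length n f k (fun j hj => h j (by omega)), h k (by omega)]

theorem lsum_append (n m : ℕ) (f g : ℕ → List ℝ) (k : ℕ) (hf : ∀ j < k, (f j).length = n)
    (hg : ∀ j < k, (g j).length = m) :
    lsum (n + m) (fun j => f j ++ g j) k = lsum n f k ++ lsum m g k := by
  induction k with
  | zero => simp [lsum, List.replicate_append_replicate]
  | succ k ih =>
    rw [lsum, lsum, lsum, ih (fun j hj => hf j (by omega)) (fun j hj => hg j (by omega)),
      List.zipWith_append]
    rw [lsum_length n f k (fun j hj => hf j (by omega)), hf k (by omega)]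


theorem lsum_const (P : List ℝ) (k : ℕ) :
    lsum P.length (fun _ => P) k = P.map (fun x => (k : ℝ) * x) := by
  induction k with
  | zero =>
    rw [lsum]
    simp
  | succ k ih =>
    rw [lsum, ih]
    conv_lhs => rw [← List.map_id P]
    rw [List.map_id, List.zipWith_map_left]
    have : ∀ Q : List ℝ, List.zipWith (fun a b => (k : ℝ) * a + b) Q Q =
        Q.map (fun x => ((k + 1 : ℕ) : ℝ) * x) := by
      intro Q
      induction Q with
      | nil => rfl
      | cons c Q ihQ =>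
        rw [List.zipWith_cons_cons, List.map_cons, ihQ]
        congr 1
        push_cast; ring
    exact this P

theorem lsum_slot_aux (k : ℕ) (c : ℝ) : ∀ i ≤ k, lsum k (fun j => slot k j c) i =
    List.replicate i c ++ List.replicate (k - i) 0 := by
  intro i
  induction i with
  | zero => intro _; simp [lsum]
  | succ i ih =>
    intro h
    have e : k - i = (k - (i + 1)) + 1 := by omega
    have e' : k - 1 - i = k - (i + 1) := by omega
    rw [lsum, ih (by omega), slot, e, List.replicate_succ, e', List.zipWith_append (by simp),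
      List.zipWith_cons_cons, List.zipWith_replicate, List.zipWith_replicate]
    simp only [min_self, add_zero, zero_add]
    rw [List.replicate_succ']
    simp

theorem lsum_slot (k : ℕ) (c : ℝ) : lsum k (fun j => slot k j c) k = List.replicate k c := by
  rw [lsum_slot_aux k c k le_rfl]
  simp

theorem lsum_ins (k : ℕ) (Q : List ℝ) : lsum (Q.length * k) (fun j => ins k j Q) k =
    (blow k Q).map (fun x => (k : ℝ) * x) := by
  induction Q with
  | nil =>
    have : ∀ i, lsum 0 (fun j => ins k j []) i = [] := by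
      intro i
      induction i with
      | zero => rfl
      | succ i ih => rw [lsum, ih]; rfl
    simpa using this k
  | cons c Q ih =>
    rcases Nat.eq_zero_or_pos k with hk | hk
    · subst hk
      simp [lsum, blow]
    have e : (c :: Q).length * k = k + Q.length * k := by
      rw [List.length_cons]; ring
    rw [e]
    have := lsum_append k (Q.length * k) (fun j => slot k j c) (fun j => ins k j Q) k
      (fun j hj => slot_length hj c) (fun j hj => ins_length hj Q)
    have e2 : (fun j => ins k j (c :: Q)) = fun j => slot k j c ++ ins k j Q := by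
      funext j; exact ins_cons k j c Q
    rw [e2, this, ih, lsum_slot, blow_cons, List.map_append, List.map_replicate]
    congr 2
    have hk' : (k : ℝ) ≠ 0 := by exact_mod_cast hk.ne'
    field_simp

/-- subdividing the atoms of a block does not increase the norm -/
theorem SprNorm.blow_le (M : SprNorm) (P Q R : List ℝ) {k : ℕ} (hk : 0 < k) :
    M.N (P ++ (blow k Q ++ R)) ≤ M.N (P ++ (Q ++ R)) := by
  have hk' : (0 : ℝ) < k := by exact_mod_cast hk
  have hlen : ∀ j < k, (P ++ (ins k j Q ++ R)).length = P.length + (Q.length * k + R.length) := by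
    intro j hj
    rw [List.length_append, List.length_append, ins_length hj]
  have h1 := M.N_lsum_le (P.length + (Q.length * k + R.length))
    (fun j => P ++ (ins k j Q ++ R)) k hlen
  rw [lsum_append P.length (Q.length * k + R.length) (fun _ => P) (fun j => ins k j Q ++ R) k
    (fun j _ => rfl) (fun j hj => by rw [List.length_append, ins_length hj]),
    lsum_append (Q.length * k) R.length (fun j => ins k j Q) (fun _ => R) k
      (fun j hj => ins_length hj Q) (fun j _ => rfl), lsum_const, lsum_ins, lsum_const,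
    ← List.map_append, ← List.map_append, M.smul, abs_of_pos hk'] at h1
  have h2 : ∑ j ∈ range k, M.N (P ++ (ins k j Q ++ R)) = k * M.N (P ++ (Q ++ R)) := by
    rw [Finset.sum_congr rfl (fun j _ => M.N_ins k j Q P R), Finset.sum_const, Finset.card_range,
      nsmul_eq_mul]
  rw [h2] at h1
  exact le_of_mul_le_mul_left h1 hk'

theorem SprNorm.blow_le' (M : SprNorm) (Q : List ℝ) {k : ℕ} (hk : 0 < k) :
    M.N (blow k Q) ≤ M.N Q := by
  have := M.blow_le [] Q [] hk
  simpa using this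

/-! ### the infimum over subdivisions -/

/-- the value of the subdivision norm -/
def SprNorm.infN (M : SprNorm) (l : List ℝ) : ℝ := ⨅ k : ℕ, M.N (blow (k + 1) l)

theorem SprNorm.infN_bdd (M : SprNorm) (l : List ℝ) :
    BddBelow (Set.range fun k : ℕ => M.N (blow (k + 1) l)) :=
  ⟨0, by rintro _ ⟨k, rfl⟩; exact M.nonneg _⟩

theorem SprNorm.infN_nonneg (M : SprNorm) (l : List ℝ) : 0 ≤ M.infN l :=
  le_ciInf fun _ => M.nonneg _

theorem SprNorm.infN_le (M : SprNorm) (l : List ℝ) {k : ℕ} (hk : 0 < k) :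
    M.infN l ≤ M.N (blow k l) := by
  obtain ⟨k, rfl⟩ : ∃ j, k = j + 1 := ⟨k - 1, by omega⟩
  exact ciInf_le (M.infN_bdd l) k

theorem SprNorm.infN_le_self (M : SprNorm) (l : List ℝ) : M.infN l ≤ M.N l := by
  have := M.infN_le l Nat.one_pos
  rwa [blow_one] at this

theorem SprNorm.le_infN (M : SprNorm) (l : List ℝ) (a : ℝ)
    (h : ∀ k : ℕ, 0 < k → a ≤ M.N (blow k l)) : a ≤ M.infN l :=
  le_ciInf fun k => h (k + 1) k.succ_pos

theorem SprNorm.exists_infN (M : SprNorm) (l : List ℝ) {ε : ℝ} (hε : 0 < ε) :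
    ∃ k : ℕ, 0 < k ∧ M.N (blow k l) ≤ M.infN l + ε := by
  obtain ⟨k, hk⟩ := exists_lt_of_ciInf_lt (show M.infN l < M.infN l + ε by linarith)
  exact ⟨k + 1, k.succ_pos, hk.le⟩

/-- subdividing further does not increase the norm -/
theorem SprNorm.blow_mul_le (M : SprNorm) (l : List ℝ) (k : ℕ) {m : ℕ} (hm : 0 < m) :
    M.N (blow (k * m) l) ≤ M.N (blow k l) := by
  rw [← blow_blow]
  exact M.blow_le' _ hm

/-- The subdivision norm of a spreading invariant list norm. -/
def SprNorm.inf (M : SprNorm) : SubNorm where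
  N := M.infN
  nonneg := M.infN_nonneg
  smul t l := by
    unfold SprNorm.infN
    rw [Real.mul_iInf_of_nonneg (abs_nonneg t)]
    congr 1
    funext k
    rw [blow_map, M.smul]
  add l l' h := by
    refine le_of_forall_pos_le_add fun ε hε => ?_
    obtain ⟨k, hk, h1⟩ := M.exists_infN l (half_pos hε)
    obtain ⟨m, hm, h2⟩ := M.exists_infN l' (half_pos hε)
    have h3 := M.infN_le (List.zipWith (fun x y => x + y) l l') (Nat.mul_pos hk hm)
    rw [blow_zipWith _ _ _ h] at h3
    have h4 := M.add (blow (k * m) l) (blow (k * m) l') (by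
      rw [blow_length, blow_length, h])
    have h5 := M.blow_mul_le l k hm
    have h6 := M.blow_mul_le l' m hk
    rw [mul_comm m k] at h6
    linarith
  zero l l' := by
    unfold SprNorm.infN
    congr 1
    funext k
    rw [blow_append, blow_cons, blow_append, zero_div, M.N_zeros]
  single := by
    refine (M.infN_le_self [1]).trans M.single
  sub A B c k hk := by
    have key : ∀ m : ℕ, blow m (A ++ List.replicate k (c / k) ++ B) =
        blow m A ++ (List.replicate (k * m) (c / (k * m : ℕ)) ++ blow m B) := by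
      intro m
      rw [blow_append, blow_append, blow_replicate, List.append_assoc, div_div]
      push_cast
      rfl
    apply le_antisymm
    · refine M.le_infN _ _ fun m hm => ?_
      have h1 := M.infN_le (A ++ List.replicate k (c / k) ++ B) hm
      rw [key m] at h1
      refine h1.trans ?_
      have h2 := M.blow_le (blow m A) (List.replicate m (c / m)) (blow m B) hk
      rw [blow_replicate, div_div] at h2
      rw [blow_append, blow_cons]
      refine le_trans (le_of_eq ?_) h2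
      rw [mul_comm k m]
      push_cast
      rfl
    · refine M.le_infN _ _ fun m hm => ?_
      rw [key m]
      have h1 := M.infN_le (A ++ c :: B) (Nat.mul_pos hk hm)
      rw [blow_append, blow_cons] at h1
      refine h1.trans ?_
      rw [mul_comm k m, ← blow_blow, ← blow_blow]
      have h2 := M.blow_le [] (blow m A)
        (List.replicate (m * k) (c / (m * k : ℕ)) ++ blow k (blow m B)) hk
      simp only [List.nil_append] at h2
      refine h2.trans ?_
      have h3 := M.blow_le (blow m A ++ List.replicate (m * k) (c / (m * k : ℕ))) (blow m B) [] hk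
      simp only [List.append_nil, List.append_assoc] at h3
      exact h3


/-- separation passes to the subdivision norm -/
theorem SprNorm.inf_sep (M : SprNorm) {θ : ℝ}
    (h : ∀ m : ℕ, θ * m ≤ M.N (List.replicate m 1 ++ List.replicate m (-1))) :
    θ ≤ M.inf.N [1, -1] := by
  refine M.le_infN _ _ fun k hk => ?_
  have hk' : (0 : ℝ) < k := by exact_mod_cast hk
  have h1 := h k
  have e : List.replicate k (1 : ℝ) ++ List.replicate k (-1) =
      (blow k [1, -1]).map (fun x => (k : ℝ) * x) := by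
    rw [blow_cons, blow_cons, blow_nil, List.append_nil, List.map_append, List.map_replicate,
      List.map_replicate]
    congr 2 <;> field_simp
  rw [e, M.smul, abs_of_pos hk'] at h1
  rw [mul_comm θ] at h1
  exact le_of_mul_le_mul_left h1 hk'

end

end Crest.Agent.R140
private theorem rz_19bd8e1786 : type_of% @_root_.Crest.Agent.R140.lsum.eq_def := @_root_.Crest.Agent.R140.lsum.eq_def -- L138
private theorem rz_a9970174dd : type_of% @_root_.Crest.Agent.R140.lsum.eq_1 := @_root_.Crest.Agent.R140.lsum.eq_1 -- L138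
end

-- ▼ part R140/Blow2
section

/-!
# Row 140, module C4a, second half (helper798): the group inequality passes from `M` to `M.inf`
-/

set_option autoImplicit false

open Finset

namespace Crest.Agent.R140

noncomputable section

section

variable {Λ : Type} [LinearOrder Λ]

/-- the list of values of a finitely supported integer function -/
def lst (c : Λ →₀ ℤ) : List ℝ := (c.support.sort (· ≤ ·)).map (fun x => ((c x : ℤ) : ℝ))

theorem SprNorm.fnZ_eq (M : SprNorm) (c : Λ →₀ ℤ) : M.fnZ c = M.N (lst c) := rfl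

/-- every atom replaced by `k` copies -/
def blowZ (k : ℕ) (c : Λ →₀ ℤ) : (Λ ×ₗ Fin k) →₀ ℤ :=
  ∑ j : Fin k, c.mapDomain (fun x => toLex (x, j))

theorem blowZ_apply (k : ℕ) (c : Λ →₀ ℤ) (x : Λ) (j : Fin k) :
    blowZ k c (toLex (x, j)) = c x := by
  unfold blowZ
  rw [Finsupp.finsetSum_apply, Finset.sum_eq_single j]
  · refine Finsupp.mapDomain_apply (f := fun x => toLex (x, j)) ?_ c x
    intro a b hab
    simpa using hab
  · intro j' _ hj
    refine Finsupp.mapDomain_of_notMem_range _ _ ?_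
    rintro ⟨y, hy⟩
    have : j' = j := by
      have := congrArg (fun a => (ofLex a).2) hy
      simpa using this
    exact hj this
  · intro h
    exact absurd (Finset.mem_univ j) h

theorem blowZ_add (k : ℕ) (c d : Λ →₀ ℤ) : blowZ k (c + d) = blowZ k c + blowZ k d := by
  simp only [blowZ, Finsupp.mapDomain_add, Finset.sum_add_distrib]

theorem blowZ_zero (k : ℕ) : blowZ k (0 : Λ →₀ ℤ) = 0 := by
  simp [blowZ]

theorem blowZ_neg (k : ℕ) (c : Λ →₀ ℤ) : blowZ k (-c) = -blowZ k c := by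
  have := blowZ_add k c (-c)
  rw [add_neg_cancel, blowZ_zero] at this
  exact (neg_eq_of_add_eq_zero_right this.symm).symm

/-- the order automorphism acting on the first coordinate -/
def liftIso (k : ℕ) (h : Λ ≃o Λ) : (Λ ×ₗ Fin k) ≃o (Λ ×ₗ Fin k) :=
  Prod.Lex.prodLexCongr h (OrderIso.refl (Fin k))


theorem blowZ_mapDomain (k : ℕ) (c : Λ →₀ ℤ) (h : Λ ≃o Λ) :
    blowZ k (c.mapDomain h) = (blowZ k c).mapDomain (liftIso k h) := by
  unfold blowZ
  rw [Finsupp.mapDomain_finsetSum]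
  refine Finset.sum_congr rfl fun j _ => ?_
  rw [← Finsupp.mapDomain_comp, ← Finsupp.mapDomain_comp]
  rfl

theorem bw_blowZ {S : Type} (k : ℕ) (h : S → Λ ≃o Λ) (m : S → Λ →₀ ℤ) (w : List S) :
    bw (fun s => liftIso k (h s)) (fun s => blowZ k (m s)) w = blowZ k (bw h m w) := by
  induction w with
  | nil => simp only [bw]; exact (blowZ_zero k).symm
  | cons s w ih => simp only [bw]; rw [ih, blowZ_add, blowZ_mapDomain]

theorem sort_blowZ (k : ℕ) (c : Λ →₀ ℤ) :
    (blowZ k c).support.sort (· ≤ ·) = (c.support.sort (· ≤ ·)).flatMap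
      (fun x => (List.finRange k).map (fun j => toLex (x, j))) := by
  classical
  set L : List (Λ ×ₗ Fin k) := (c.support.sort (· ≤ ·)).flatMap
      (fun x => (List.finRange k).map (fun j => toLex (x, j))) with hL
  have hlt : L.Pairwise (· < ·) := by
    rw [hL, List.pairwise_flatMap]
    constructor
    · intro x _
      rw [List.pairwise_map]
      refine (List.pairwise_lt_finRange k).imp fun {a b} hab => ?_
      rw [Prod.Lex.lt_iff]
      right
      exact ⟨rfl, hab⟩
    · refine (Finset.sortedLT_sort c.support).pairwise.imp fun {a b} hab => ?_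
      intro x hx y hy
      obtain ⟨i, -, rfl⟩ := List.mem_map.1 hx
      obtain ⟨j, -, rfl⟩ := List.mem_map.1 hy
      rw [Prod.Lex.lt_iff]
      left
      exact hab
  have hnd : L.Nodup := hlt.imp fun h => h.ne
  have hle : L.Pairwise (· ≤ ·) := hlt.imp fun h => h.le
  have hfin : L.toFinset = (blowZ k c).support := by
    ext a
    obtain ⟨⟨x, j⟩, rfl⟩ := toLex.surjective a
    rw [List.mem_toFinset, Finsupp.mem_support_iff, blowZ_apply, hL, List.mem_flatMap]
    constructor
    · rintro ⟨y, hy, h2⟩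
      obtain ⟨i, -, hi⟩ := List.mem_map.1 h2
      have : y = x := by
        have := congrArg (fun a => (ofLex a).1) hi
        simpa using this
      subst this
      rw [Finset.mem_sort] at hy
      exact Finsupp.mem_support_iff.1 hy
    · intro hx
      refine ⟨x, ?_, List.mem_map.2 ⟨j, List.mem_finRange j, rfl⟩⟩
      rw [Finset.mem_sort]
      exact Finsupp.mem_support_iff.2 hx
  rw [← hfin]
  exact (List.toFinset_sort (· ≤ ·) hnd).2 hle

theorem lst_blowZ {k : ℕ} (hk : 0 < k) (c : Λ →₀ ℤ) :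
    lst (blowZ k c) = (blow k (lst c)).map (fun x => (k : ℝ) * x) := by
  have hk' : (k : ℝ) ≠ 0 := by exact_mod_cast hk.ne'
  unfold lst
  rw [sort_blowZ, List.map_flatMap]
  unfold blow
  rw [List.flatMap_map, List.map_flatMap]
  congr 1
  funext x
  rw [List.map_map, List.map_replicate]
  have h1 : (k : ℝ) * (((c x : ℤ) : ℝ) / k) = ((c x : ℤ) : ℝ) := by field_simp
  rw [h1]
  have h2 : ((fun a => ((blowZ k c a : ℤ) : ℝ)) ∘ fun j : Fin k => toLex (x, j)) =
      fun _ => ((c x : ℤ) : ℝ) := by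
    funext j
    simp only [Function.comp]
    rw [blowZ_apply]
  rw [h2, List.map_const']
  simp

theorem SprNorm.fnZ_blowZ (M : SprNorm) {k : ℕ} (hk : 0 < k) (c : Λ →₀ ℤ) :
    M.fnZ (blowZ k c) = k * M.N (blow k (lst c)) := by
  rw [M.fnZ_eq, lst_blowZ hk, M.smul, abs_of_nonneg (Nat.cast_nonneg k)]

theorem SprNorm.inf_fnZ_le (M : SprNorm) {k : ℕ} (hk : 0 < k) (c : Λ →₀ ℤ) :
    M.inf.fnZ c ≤ M.N (blow k (lst c)) := M.infN_le (lst c) hk

end

theorem SprNorm.blow_dvd_le (M : SprNorm) (l : List ℝ) {k m : ℕ} (h : k ∣ m) (hm : 0 < m) :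
    M.N (blow m l) ≤ M.N (blow k l) := by
  obtain ⟨d, rfl⟩ := h
  exact M.blow_mul_le l k (Nat.pos_of_mul_pos_left hm)

/-- The group inequality at length `t` passes from `M` to `M.inf`. -/
theorem SprNorm.inf_group (M : SprNorm) {p K : ℝ} (hp : 0 < p) (hK : 0 ≤ K) (t : ℕ)
    (hM : ∀ (Λ : Type) [LinearOrder Λ] (S : Type) [Fintype S] [Nonempty S] (inv : S → S)
      (h : S → Λ ≃o Λ) (m : S → Λ →₀ ℤ), (∀ s, inv (inv s) = s) →
      (∀ s, h (inv s) = (h s).symm) → (∀ s, m (inv s) = -(m s).mapDomain (h s).symm) →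
      (∑ w : Fin t → S, M.fnZ (bw h m (List.ofFn w)) ^ p) / (Fintype.card S : ℝ) ^ t ≤
        K ^ p * t * ((∑ s, M.fnZ (m s) ^ p) / Fintype.card S)) :
    ∀ (Λ : Type) [LinearOrder Λ] (S : Type) [Fintype S] [Nonempty S] (inv : S → S)
      (h : S → Λ ≃o Λ) (m : S → Λ →₀ ℤ), (∀ s, inv (inv s) = s) →
      (∀ s, h (inv s) = (h s).symm) → (∀ s, m (inv s) = -(m s).mapDomain (h s).symm) →
      (∑ w : Fin t → S, M.inf.fnZ (bw h m (List.ofFn w)) ^ p) / (Fintype.card S : ℝ) ^ t ≤
        K ^ p * t * ((∑ s, M.inf.fnZ (m s) ^ p) / Fintype.card S) := by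
  intro Λ _ S _ _ inv h m h1 h2 h3
  have hn : (0 : ℝ) < Fintype.card S := by exact_mod_cast Fintype.card_pos
  have hKp : 0 ≤ K ^ p * t := mul_nonneg (Real.rpow_nonneg hK p) (Nat.cast_nonneg t)
  -- level `k`
  have key : ∀ k : ℕ, 0 < k →
      (∑ w : Fin t → S, M.inf.fnZ (bw h m (List.ofFn w)) ^ p) / (Fintype.card S : ℝ) ^ t ≤
        K ^ p * t * ((∑ s, M.N (blow k (lst (m s))) ^ p) / Fintype.card S) := by
    intro k hk
    have hk' : (0 : ℝ) < k := by exact_mod_cast hk
    have hkp : (0 : ℝ) < (k : ℝ) ^ p := Real.rpow_pos_of_pos hk' p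
    have h4 := hM (Λ ×ₗ Fin k) S inv (fun s => liftIso k (h s)) (fun s => blowZ k (m s)) h1
      (fun s => by
        rw [h2 s]
        rfl)
      (fun s => by
        rw [h3 s, blowZ_neg, blowZ_mapDomain]
        rfl)
    have e1 : ∀ w : Fin t → S, M.fnZ (bw (fun s => liftIso k (h s)) (fun s => blowZ k (m s))
        (List.ofFn w)) ^ p = (k : ℝ) ^ p * M.N (blow k (lst (bw h m (List.ofFn w)))) ^ p := by
      intro w
      rw [bw_blowZ, M.fnZ_blowZ hk, Real.mul_rpow hk'.le (M.nonneg _)]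
    have e2 : ∀ s, M.fnZ (blowZ k (m s)) ^ p = (k : ℝ) ^ p * M.N (blow k (lst (m s))) ^ p := by
      intro s
      rw [M.fnZ_blowZ hk, Real.mul_rpow hk'.le (M.nonneg _)]
    rw [Finset.sum_congr rfl (fun w _ => e1 w), Finset.sum_congr rfl (fun s _ => e2 s),
      ← Finset.mul_sum, ← Finset.mul_sum, mul_div_assoc, mul_div_assoc, mul_left_comm] at h4
    have h5 := le_of_mul_le_mul_left h4 hkp
    refine le_trans ?_ h5
    refine div_le_div_of_nonneg_right ?_ (pow_nonneg hn.le t)
    refine Finset.sum_le_sum fun w _ => ?_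
    exact Real.rpow_le_rpow (M.inf.nonneg _) (M.inf_fnZ_le hk _) hp.le
  -- with an error
  have key2 : ∀ ε : ℝ, 0 < ε →
      (∑ w : Fin t → S, M.inf.fnZ (bw h m (List.ofFn w)) ^ p) / (Fintype.card S : ℝ) ^ t ≤
        K ^ p * t * ((∑ s, (M.inf.fnZ (m s) + ε) ^ p) / Fintype.card S) := by
    intro ε hε
    choose k hk0 hk using fun s => M.exists_infN (lst (m s)) hε
    have hprod : 0 < ∏ s, k s := Finset.prod_pos fun s _ => hk0 s
    refine (key _ hprod).trans ?_
    refine mul_le_mul_of_nonneg_left ?_ hKp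
    refine div_le_div_of_nonneg_right ?_ hn.le
    refine Finset.sum_le_sum fun s _ => ?_
    refine Real.rpow_le_rpow (M.nonneg _) ?_ hp.le
    exact (M.blow_dvd_le _ (Finset.dvd_prod_of_mem k (Finset.mem_univ s)) hprod).trans (hk s)
  have hcont : Continuous fun ε : ℝ =>
      K ^ p * t * ((∑ s, (M.inf.fnZ (m s) + ε) ^ p) / Fintype.card S) := by
    refine continuous_const.mul (Continuous.div_const ?_ _)
    refine continuous_finsetSum _ fun s _ => ?_
    exact (continuous_const.add continuous_id).rpow_const fun _ => Or.inr hp.le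
  have hlim := (hcont.tendsto 0).mono_left (nhdsWithin_le_nhds (s := Set.Ioi 0))
  simp only [add_zero] at hlim
  refine ge_of_tendsto hlim ?_
  filter_upwards [self_mem_nhdsWithin] with ε hε
  exact key2 ε hε

end

end Crest.Agent.R140
end

-- ▼ part R140/Dyn
section

/-!
# Row 140 (S0191), part C5: the dynamics

Piecewise affine order automorphisms `sig i` of `ℝ`, the `±1`-functions `phi i`, the window vectors,
the two recursions, sampling, and the final contradiction from the abstract properties of the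
limit norm (`MonoNorm`) and the group inequality (hypothesis `hC3`).
-/

set_option autoImplicit false

namespace Crest.Agent.R140.Dyn

open Finset

noncomputable section

/-! ## The basic map and the basic function -/

/-- the basic `±1` function of period `3` : `+1` on `[0,1)`, `-1` on `[1,3)`. -/
def phi (x : ℝ) : ℤ := if x - 3 * (⌊x / 3⌋ : ℝ) < 1 then 1 else -1

/-- the basic automorphism : `[0,1) → [1,3)`, `[1,3) → [3,4)`, commuting with `x ↦ x + 3`. -/
def sigf (x : ℝ) : ℝ :=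
  3 * (⌊x / 3⌋ : ℝ) +
    (if x - 3 * (⌊x / 3⌋ : ℝ) < 1 then 1 + 2 * (x - 3 * (⌊x / 3⌋ : ℝ))
      else (x - 3 * (⌊x / 3⌋ : ℝ) + 5) / 2)

def tauf (y : ℝ) : ℝ :=
  3 * (⌊(y - 1) / 3⌋ : ℝ) +
    (if y - 1 - 3 * (⌊(y - 1) / 3⌋ : ℝ) < 2 then (y - 1 - 3 * (⌊(y - 1) / 3⌋ : ℝ)) / 2
      else 2 * (y - 1 - 3 * (⌊(y - 1) / 3⌋ : ℝ)) - 3)

lemma exists_rep (x : ℝ) : ∃ (q : ℤ) (r : ℝ), 0 ≤ r ∧ r < 3 ∧ x = 3 * (q : ℝ) + r := by
  refine ⟨⌊x / 3⌋, x - 3 * (⌊x / 3⌋ : ℝ), ?_, ?_, by ring⟩
  · have := Int.floor_le (x / 3)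
    linarith
  · have := Int.lt_floor_add_one (x / 3)
    linarith

lemma floor_rep (q : ℤ) (r : ℝ) (h0 : 0 ≤ r) (h3 : r < 3) : ⌊(3 * (q : ℝ) + r) / 3⌋ = q := by
  rw [Int.floor_eq_iff]
  constructor <;> linarith

lemma phi_rep (q : ℤ) (r : ℝ) (h0 : 0 ≤ r) (h3 : r < 3) :
    phi (3 * (q : ℝ) + r) = if r < 1 then 1 else -1 := by
  unfold phi
  rw [floor_rep q r h0 h3, show 3 * (q : ℝ) + r - 3 * (q : ℝ) = r by ring]

lemma sigf_rep (q : ℤ) (r : ℝ) (h0 : 0 ≤ r) (h3 : r < 3) :
    sigf (3 * (q : ℝ) + r) = 3 * (q : ℝ) + (if r < 1 then 1 + 2 * r else (r + 5) / 2) := by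
  unfold sigf
  rw [floor_rep q r h0 h3, show 3 * (q : ℝ) + r - 3 * (q : ℝ) = r by ring]

lemma sigf_tauf (y : ℝ) : sigf (tauf y) = y := by
  obtain ⟨q, r, h0, h3, hy⟩ := exists_rep (y - 1)
  have hy' : y = 3 * (q : ℝ) + r + 1 := by linarith
  have ht : tauf y = 3 * (q : ℝ) + (if r < 2 then r / 2 else 2 * r - 3) := by
    unfold tauf
    rw [hy, floor_rep q r h0 h3, show 3 * (q : ℝ) + r - 3 * (q : ℝ) = r by ring]
  rw [ht]
  by_cases h : r < 2
  · rw [if_pos h, sigf_rep q (r / 2) (by linarith) (by linarith), if_pos (by linarith), hy']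
    ring
  · rw [if_neg h, sigf_rep q (2 * r - 3) (by linarith) (by linarith), if_neg (by linarith), hy']
    ring

lemma sigf_strictMono : StrictMono sigf := by
  intro x y hxy
  obtain ⟨q, r, h0, h3, hx⟩ := exists_rep x
  obtain ⟨q', r', h0', h3', hy⟩ := exists_rep y
  rw [hx, hy, sigf_rep q r h0 h3, sigf_rep q' r' h0' h3']
  have hqq : q ≤ q' := by
    by_contra hc
    have h1 : q' + 1 ≤ q := by omega
    have h2 : (q' : ℝ) + 1 ≤ q := by exact_mod_cast h1
    linarith
  rcases eq_or_lt_of_le hqq with h | h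
  · subst h
    have hr : r < r' := by linarith
    split_ifs <;> linarith
  · have h2 : (q : ℝ) + 1 ≤ q' := by exact_mod_cast h
    split_ifs <;> linarith

/-- the basic automorphism as an order isomorphism -/
def sig0 : ℝ ≃o ℝ := StrictMono.orderIsoOfRightInverse sigf sigf_strictMono tauf sigf_tauf

@[simp] lemma sig0_apply (x : ℝ) : sig0 x = sigf x := rfl

lemma phi_sigf (x : ℝ) : phi (sigf x) = - phi x := by
  obtain ⟨q, r, h0, h3, hx⟩ := exists_rep x
  rw [hx, sigf_rep q r h0 h3, phi_rep q r h0 h3]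
  by_cases h : r < 1
  · rw [if_pos h, if_pos h, phi_rep q _ (by linarith) (by linarith), if_neg (by linarith)]
  · rw [if_neg h, if_neg h,
      show 3 * (q : ℝ) + (r + 5) / 2 = 3 * ((q + 1 : ℤ) : ℝ) + (r - 1) / 2 by push_cast; ring,
      phi_rep (q + 1) _ (by linarith) (by linarith), if_pos (by linarith)]
    rfl

lemma lt_sigf (x : ℝ) : x < sigf x := by
  obtain ⟨q, r, h0, h3, hx⟩ := exists_rep x
  rw [hx, sigf_rep q r h0 h3]
  split_ifs <;> linarith

lemma sigf_le (x : ℝ) : sigf x ≤ x + 2 := by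
  obtain ⟨q, r, h0, h3, hx⟩ := exists_rep x
  rw [hx, sigf_rep q r h0 h3]
  split_ifs <;> linarith

lemma sigf_add_three (x : ℝ) : sigf (x + 3) = sigf x + 3 := by
  obtain ⟨q, r, h0, h3, hx⟩ := exists_rep x
  rw [hx, sigf_rep q r h0 h3,
    show 3 * (q : ℝ) + r + 3 = 3 * ((q + 1 : ℤ) : ℝ) + r by push_cast; ring,
    sigf_rep (q + 1) r h0 h3]
  push_cast
  ring

lemma phi_add_three (x : ℝ) : phi (x + 3) = phi x := by
  obtain ⟨q, r, h0, h3, hx⟩ := exists_rep x
  rw [hx, phi_rep q r h0 h3,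
    show 3 * (q : ℝ) + r + 3 = 3 * ((q + 1 : ℤ) : ℝ) + r by push_cast; ring,
    phi_rep (q + 1) r h0 h3]

lemma phi_sum (x : ℝ) : phi x + phi (x - 1) + phi (x - 2) = -1 := by
  obtain ⟨q, r, h0, h3, hx⟩ := exists_rep x
  rw [hx, phi_rep q r h0 h3]
  by_cases h1 : r < 1
  · rw [if_pos h1,
      show 3 * (q : ℝ) + r - 1 = 3 * ((q - 1 : ℤ) : ℝ) + (r + 2) by push_cast; ring,
      show 3 * (q : ℝ) + r - 2 = 3 * ((q - 1 : ℤ) : ℝ) + (r + 1) by push_cast; ring,
      phi_rep (q - 1) _ (by linarith) (by linarith), phi_rep (q - 1) _ (by linarith) (by linarith),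
      if_neg (by linarith), if_neg (by linarith)]
    norm_num
  · by_cases h2 : r < 2
    · rw [if_neg h1,
        show 3 * (q : ℝ) + r - 1 = 3 * (q : ℝ) + (r - 1) by ring,
        show 3 * (q : ℝ) + r - 2 = 3 * ((q - 1 : ℤ) : ℝ) + (r + 1) by push_cast; ring,
        phi_rep q _ (by linarith) (by linarith), phi_rep (q - 1) _ (by linarith) (by linarith),
        if_pos (by linarith), if_neg (by linarith)]
      norm_num
    · rw [if_neg h1,
        show 3 * (q : ℝ) + r - 1 = 3 * (q : ℝ) + (r - 1) by ring,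
        show 3 * (q : ℝ) + r - 2 = 3 * (q : ℝ) + (r - 2) by ring,
        phi_rep q _ (by linarith) (by linarith), phi_rep q _ (by linarith) (by linarith),
        if_neg (by linarith), if_pos (by linarith)]
      norm_num

/-! ## The six generators -/

/-- the automorphism `σ_i` -/
def sig (i : Fin 3) : ℝ ≃o ℝ :=
  (OrderIso.addRight (-(i : ℝ))).trans (sig0.trans (OrderIso.addRight (i : ℝ)))

lemma sig_apply (i : Fin 3) (x : ℝ) : sig i x = sigf (x - (i : ℝ)) + (i : ℝ) := by
  simp [sig, sub_eq_add_neg]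

/-- `φ_i` -/
def ph (i : Fin 3) (x : ℝ) : ℤ := phi (x - (i : ℝ))

lemma ph_sig (i : Fin 3) (x : ℝ) : ph i (sig i x) = - ph i x := by
  unfold ph
  rw [sig_apply, add_sub_cancel_right, phi_sigf]

lemma ph_sig_symm (i : Fin 3) (x : ℝ) : ph i ((sig i).symm x) = - ph i x := by
  have h := ph_sig i ((sig i).symm x)
  rw [OrderIso.apply_symm_apply] at h
  rw [h, neg_neg]

lemma ph_sum (x : ℝ) : ∑ i : Fin 3, ph i x = -1 := by
  rw [Fin.sum_univ_three]
  have h := phi_sum x
  simpa [ph] using h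

/-- alphabet of generators -/
abbrev Gen : Type := Fin 3 × Bool

def hh (s : Gen) : ℝ ≃o ℝ := if s.2 then sig s.1 else (sig s.1).symm

lemma ph_hh (s : Gen) (x : ℝ) : ph s.1 (hh s x) = - ph s.1 x := by
  unfold hh
  split_ifs
  · exact ph_sig _ _
  · exact ph_sig_symm _ _

lemma sig_abs (i : Fin 3) (x : ℝ) : |sig i x - x| ≤ 2 := by
  rw [sig_apply, abs_le]
  have h1 := lt_sigf (x - (i : ℝ))
  have h2 := sigf_le (x - (i : ℝ))
  constructor <;> linarith

lemma sig_symm_abs (i : Fin 3) (x : ℝ) : |(sig i).symm x - x| ≤ 2 := by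
  have h := sig_abs i ((sig i).symm x)
  rw [OrderIso.apply_symm_apply, abs_sub_comm] at h
  exact h

lemma hh_symm_abs (s : Gen) (x : ℝ) : |(hh s).symm x - x| ≤ 2 := by
  unfold hh
  split_ifs
  · exact sig_symm_abs _ _
  · simpa using sig_abs _ _

lemma sig_add_three (i : Fin 3) (x : ℝ) : sig i (x + 3) = sig i x + 3 := by
  rw [sig_apply, sig_apply, show x + 3 - (i : ℝ) = (x - (i : ℝ)) + 3 by ring, sigf_add_three]
  ring

lemma sig_symm_add_three (i : Fin 3) (x : ℝ) : (sig i).symm (x + 3) = (sig i).symm x + 3 := by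
  apply (sig i).injective
  rw [OrderIso.apply_symm_apply, sig_add_three, OrderIso.apply_symm_apply]

lemma hh_symm_add_three (s : Gen) (x : ℝ) : (hh s).symm (x + 3) = (hh s).symm x + 3 := by
  unfold hh
  split_ifs
  · exact sig_symm_add_three _ _
  · simpa using sig_add_three _ _

lemma ph_add_three (i : Fin 3) (x : ℝ) : ph i (x + 3) = ph i x := by
  unfold ph
  rw [show x + 3 - (i : ℝ) = (x - (i : ℝ)) + 3 by ring, phi_add_three]

/-! ## Words -/

/-- `Φ_w` -/
def Ph : List Gen → ℝ → ℤ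
  | [], _ => 0
  | s :: w, x => ph s.1 x + Ph w ((hh s).symm x)

/-- `P_w` -/
def PP : List Gen → ℝ → ℝ
  | [], y => y
  | s :: w, y => hh s (PP w y)

lemma Ph_add_three (w : List Gen) : ∀ x : ℝ, Ph w (x + 3) = Ph w x := by
  induction w with
  | nil => intro x; rfl
  | cons s w ih =>
    intro x
    simp only [Ph]
    rw [ph_add_three, hh_symm_add_three, ih]

lemma Ph_add_nat (w : List Gen) (x : ℝ) (j : ℕ) : Ph w (x + 3 * (j : ℝ)) = Ph w x := by
  induction j with
  | zero => simp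
  | succ j ih =>
    rw [show x + 3 * ((j + 1 : ℕ) : ℝ) = (x + 3 * (j : ℝ)) + 3 by push_cast; ring,
      Ph_add_three, ih]

lemma Ph_add_int (w : List Gen) (x : ℝ) (j : ℤ) : Ph w (x + 3 * (j : ℝ)) = Ph w x := by
  rcases Int.eq_nat_or_neg j with ⟨n, h | h⟩
  · subst h
    have := Ph_add_nat w x n
    simpa using this
  · subst h
    have := Ph_add_nat w (x + 3 * ((-(n : ℤ) : ℤ) : ℝ)) n
    rw [← this]
    congr 1
    push_cast
    ring

lemma sum_words {A : Type} [AddCommMonoid A] (t : ℕ) (g : List Gen → A) :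
    ∑ w : Fin (t + 1) → Gen, g (List.ofFn w) =
      ∑ s : Gen, ∑ w : Fin t → Gen, g (s :: List.ofFn w) := by
  rw [← (Fin.consEquiv (fun _ : Fin (t + 1) => Gen)).sum_comp, Fintype.sum_prod_type]
  refine Finset.sum_congr rfl fun s _ => Finset.sum_congr rfl fun w _ => ?_
  congr 1
  simp [Fin.consEquiv]

lemma card_words (t : ℕ) : Fintype.card (Fin t → Gen) = 6 ^ t := by
  simp [Gen]

lemma sum_gen_ph (x : ℝ) : ∑ s : Gen, ph s.1 x = -2 := by
  rw [Fintype.sum_prod_type]
  simp only [Finset.sum_const, Finset.card_univ, Fintype.card_bool]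
  rw [← Finset.smul_sum, ph_sum]
  rfl

/-- forward recursion -/
lemma sum_Ph (t : ℕ) : ∀ x : ℝ, 3 * ∑ w : Fin t → Gen, Ph (List.ofFn w) x = -(t * 6 ^ t : ℤ) := by
  induction t with
  | zero => intro x; simp [Ph]
  | succ t ih =>
    intro x
    rw [sum_words t (fun w => Ph w x)]
    have h1 : ∀ s : Gen, 3 * ∑ w : Fin t → Gen, Ph (s :: List.ofFn w) x =
        (3 * 6 ^ t) * ph s.1 x + -(t * 6 ^ t : ℤ) := by
      intro s
      simp only [Ph]
      rw [Finset.sum_add_distrib, mul_add, ih, Finset.sum_const, Finset.card_univ, card_words,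
        nsmul_eq_mul]
      push_cast
      ring
    rw [Finset.mul_sum, Finset.sum_congr rfl (fun s _ => h1 s), Finset.sum_add_distrib,
      ← Finset.mul_sum, sum_gen_ph, Finset.sum_const, Finset.card_univ]
    have hc : Fintype.card Gen = 6 := by simp [Gen]
    rw [hc, nsmul_eq_mul]
    push_cast
    ring

/-- backward recursion -/
lemma sum_Ph_PP (t : ℕ) : ∀ y : ℝ,
    3 * ∑ w : Fin t → Gen, Ph (List.ofFn w) (PP (List.ofFn w) y) = (t * 6 ^ t : ℤ) := by
  induction t with
  | zero => intro x; simp [Ph]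
  | succ t ih =>
    intro y
    rw [sum_words t (fun w => Ph w (PP w y)), Finset.sum_comm]
    have h1 : ∀ w : Fin t → Gen, ∑ s : Gen, Ph (s :: List.ofFn w) (PP (s :: List.ofFn w) y) =
        2 + 6 * Ph (List.ofFn w) (PP (List.ofFn w) y) := by
      intro w
      simp only [Ph, PP, ph_hh, OrderIso.symm_apply_apply]
      rw [Finset.sum_add_distrib, Finset.sum_neg_distrib, sum_gen_ph, Finset.sum_const,
        Finset.card_univ]
      have hc : Fintype.card Gen = 6 := by simp [Gen]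
      rw [hc, nsmul_eq_mul]
      push_cast
      ring
    rw [Finset.sum_congr rfl (fun w _ => h1 w), Finset.sum_add_distrib, Finset.sum_const,
      Finset.card_univ, card_words, ← Finset.mul_sum]
    have h2 := ih y
    rw [nsmul_eq_mul]
    push_cast
    linear_combination 6 * h2

/-! ## Finitely supported integer vectors -/

/-- vector of a word -/
def bvec {S : Type} (h : S → ℝ ≃o ℝ) (m : S → ℝ →₀ ℤ) : List S → (ℝ →₀ ℤ)
  | [] => 0
  | s :: w => m s + (bvec h m w).mapDomain (h s)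

/-- abstract properties of the limit norm -/
structure MonoNorm (N : (ℝ →₀ ℤ) → ℝ) : Prop where
  nonneg : ∀ a, 0 ≤ N a
  add_le : ∀ a b, N (a + b) ≤ N a + N b
  smul : ∀ (n : ℤ) (a : ℝ →₀ ℤ), N (n • a) = |(n : ℝ)| * N a
  mono : ∀ f : ℝ → ℝ, Monotone f → ∀ a : ℝ →₀ ℤ, N (a.mapDomain f) ≤ N a

/-- cumulative function as an additive map -/
def cum (x : ℝ) : (ℝ →₀ ℤ) →+ ℤ :=
  Finsupp.liftAddHom (fun y : ℝ => if y ≤ x then AddMonoidHom.id ℤ else 0)

def tot : (ℝ →₀ ℤ) →+ ℤ := Finsupp.liftAddHom (fun _ : ℝ => AddMonoidHom.id ℤ)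

@[simp] lemma cum_single (x y : ℝ) (c : ℤ) :
    cum x (Finsupp.single y c) = if y ≤ x then c else 0 := by
  unfold cum
  rw [Finsupp.liftAddHom_apply_single]
  split_ifs <;> rfl

@[simp] lemma tot_single (y : ℝ) (c : ℤ) : tot (Finsupp.single y c) = c := by
  unfold tot
  rw [Finsupp.liftAddHom_apply_single]
  rfl

lemma cum_mapDomain (h : ℝ ≃o ℝ) (a : ℝ →₀ ℤ) (x : ℝ) :
    cum x (a.mapDomain h) = cum (h.symm x) a := by
  induction a using Finsupp.induction_linear with
  | zero => simp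
  | add f g hf hg => rw [Finsupp.mapDomain_add, map_add, map_add, hf, hg]
  | single y c =>
    rw [Finsupp.mapDomain_single, cum_single, cum_single]
    congr 1
    exact propext (OrderIso.le_symm_apply h).symm

lemma tot_mapDomain (f : ℝ → ℝ) (a : ℝ →₀ ℤ) : tot (a.mapDomain f) = tot a := by
  induction a using Finsupp.induction_linear with
  | zero => simp
  | add f g hf hg => rw [Finsupp.mapDomain_add, map_add, map_add, hf, hg]
  | single y c => rw [Finsupp.mapDomain_single, tot_single, tot_single]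

/-- index function of samples `τ 0 ≤ … ≤ τ n` -/
def idx (τ : ℕ → ℝ) (n : ℕ) (x : ℝ) : ℝ := (((Finset.range (n + 1)).filter (fun k => τ k < x)).card : ℝ)

lemma idx_mono (τ : ℕ → ℝ) (n : ℕ) : Monotone (idx τ n) := by
  intro x y hxy
  unfold idx
  have : ((Finset.range (n + 1)).filter (fun k => τ k < x)).card ≤
      ((Finset.range (n + 1)).filter (fun k => τ k < y)).card := by
    apply Finset.card_le_card
    intro k hk
    rw [Finset.mem_filter] at hk ⊢
    exact ⟨hk.1, lt_of_lt_of_le hk.2 hxy⟩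
  exact_mod_cast this

lemma idx_succ (τ : ℕ → ℝ) (n : ℕ) (x : ℝ) (hτ : Monotone τ) :
    idx τ (n + 1) x = if τ (n + 1) < x then ((n + 2 : ℕ) : ℝ) else idx τ n x := by
  unfold idx
  split_ifs with h
  · rw [Finset.filter_true_of_mem, Finset.card_range]
    intro k hk
    rw [Finset.mem_range] at hk
    exact lt_of_le_of_lt (hτ (by omega)) h
  · rw [Finset.range_add_one, Finset.filter_insert, if_neg h]

lemma idx_zero (τ : ℕ → ℝ) (x : ℝ) : idx τ 0 x = if τ 0 < x then 1 else 0 := by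
  unfold idx
  split_ifs with h
  · rw [Finset.filter_true_of_mem]
    · simp
    · intro k hk
      rw [Finset.mem_range] at hk
      have : k = 0 := by omega
      rw [this]; exact h
  · rw [Finset.filter_false_of_mem]
    · simp
    · intro k hk
      rw [Finset.mem_range] at hk
      have : k = 0 := by omega
      rw [this]; exact h

/-- sampling: push-forward under the index function -/
lemma mapDomain_idx (τ : ℕ → ℝ) (hτ : Monotone τ) (n : ℕ) (b : ℝ →₀ ℤ) :
    b.mapDomain (idx τ n) = Finsupp.single 0 (cum (τ 0) b) +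
      ∑ k ∈ Finset.range n, Finsupp.single ((k : ℝ) + 1) (cum (τ (k + 1)) b - cum (τ k) b) +
      Finsupp.single ((n : ℝ) + 1) (tot b - cum (τ n) b) := by
  induction b using Finsupp.induction_linear with
  | zero => simp
  | add f g hf hg =>
    rw [Finsupp.mapDomain_add, hf, hg]
    simp only [map_add]
    have e1 : ∀ k : ℕ, Finsupp.single ((k : ℝ) + 1)
        ((cum (τ (k + 1))) f + (cum (τ (k + 1))) g - ((cum (τ k)) f + (cum (τ k)) g)) =
        Finsupp.single ((k : ℝ) + 1) ((cum (τ (k + 1))) f - (cum (τ k)) f) +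
        Finsupp.single ((k : ℝ) + 1) ((cum (τ (k + 1))) g - (cum (τ k)) g) := by
      intro k
      rw [← Finsupp.single_add]
      congr 1
      ring
    rw [Finset.sum_congr rfl (fun k _ => e1 k), Finset.sum_add_distrib, Finsupp.single_add,
      show (tot f + tot g - ((cum (τ n)) f + (cum (τ n)) g)) =
        (tot f - (cum (τ n)) f) + (tot g - (cum (τ n)) g) by ring, Finsupp.single_add]
    abel
  | single y c =>
    rw [Finsupp.mapDomain_single]
    simp only [cum_single, tot_single]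
    induction n with
    | zero =>
      rw [idx_zero]
      by_cases h : y ≤ τ 0
      · rw [if_neg (not_lt.mpr h), if_pos h]
        simp
      · rw [if_pos (not_le.mp h), if_neg h]
        simp
    | succ n ih =>
      rw [idx_succ τ n y hτ]
      by_cases h : y ≤ τ (n + 1)
      · rw [if_neg (not_lt.mpr h), ih, Finset.sum_range_succ, if_pos h]
        simp only [Finsupp.single_sub, sub_self, Finsupp.single_zero, Nat.cast_add, Nat.cast_one]
        abel
      · rw [if_pos (not_le.mp h)]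
        have hall : ∀ k, k ≤ n + 1 → ¬ (y ≤ τ k) := by
          intro k hk hy
          exact h (le_trans hy (hτ hk))
        rw [if_neg (hall 0 (by omega)), Finset.sum_eq_zero]
        · rw [if_neg (hall (n + 1) le_rfl)]
          simp
          ring_nf
        · intro k hk
          rw [Finset.mem_range] at hk
          rw [if_neg (hall (k + 1) (by omega)), if_neg (hall k (by omega))]
          simp

/-! ## The reference vectors -/

/-- `V n = (1,-1)^n` placed at `0,1,…,2n-1`. -/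
def V (n : ℕ) : ℝ →₀ ℤ :=
  ∑ j ∈ Finset.range n, (Finsupp.single (2 * (j : ℝ)) 1 - Finsupp.single (2 * (j : ℝ) + 1) 1)

lemma mapDomain_pair (f : ℝ → ℝ) (u v : ℝ) (c : ℤ) :
    (Finsupp.single u c - Finsupp.single v c).mapDomain f =
      Finsupp.single (f u) c - Finsupp.single (f v) c := by
  rw [sub_eq_add_neg, Finsupp.mapDomain_add, ← Finsupp.single_neg, Finsupp.mapDomain_single,
    Finsupp.mapDomain_single, Finsupp.single_neg, ← sub_eq_add_neg]

lemma mapDomain_V (f : ℝ → ℝ) (n : ℕ) : (V n).mapDomain f =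
    ∑ j ∈ Finset.range n, (Finsupp.single (f (2 * (j : ℝ))) 1 - Finsupp.single (f (2 * (j : ℝ) + 1)) 1) := by
  unfold V
  rw [Finsupp.mapDomain_finsetSum]
  exact Finset.sum_congr rfl fun j _ => mapDomain_pair _ _ _ _

section norm

variable {N : (ℝ →₀ ℤ) → ℝ} (hN : MonoNorm N)

include hN

lemma N_neg (a : ℝ →₀ ℤ) : N (-a) = N a := by
  have := hN.smul (-1) a
  simpa using this

lemma N_sub_le (a b : ℝ →₀ ℤ) : N (a - b) ≤ N a + N b := by
  rw [sub_eq_add_neg]
  calc N (a + -b) ≤ N a + N (-b) := hN.add_le _ _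
    _ = N a + N b := by rw [N_neg hN]

lemma N_zero : N 0 = 0 := by
  have := hN.smul 0 0
  simpa using this

lemma N_V_add (a b : ℕ) : N (V (a + b)) ≤ N (V a) + N (V b) := by
  have h : V (a + b) = V a + (V b).mapDomain (fun x => x + 2 * (a : ℝ)) := by
    rw [mapDomain_V]
    unfold V
    rw [Finset.sum_range_add]
    congr 1
    refine Finset.sum_congr rfl fun j _ => ?_
    congr 2 <;> push_cast <;> ring
  rw [h]
  refine (hN.add_le _ _).trans ?_
  have := hN.mono (fun x => x + 2 * (a : ℝ)) (fun x y hxy => by simpa using hxy) (V b)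
  linarith

lemma N_V_mul (k t : ℕ) : N (V (k * t)) ≤ k * N (V t) := by
  induction k with
  | zero => simp [V, N_zero hN]
  | succ k ih =>
    rw [Nat.succ_mul]
    refine (N_V_add hN _ _).trans ?_
    push_cast
    linarith

lemma N_V_one (t : ℕ) (ht : 1 ≤ t) : N (Finsupp.single 0 1 - Finsupp.single 1 1) ≤ N (V t) := by
  obtain ⟨n, rfl⟩ := Nat.exists_eq_add_of_le' ht
  have h := hN.mono (fun x : ℝ => if x ≤ 0 then 0 else 1) (by
    intro x y hxy
    dsimp only
    split_ifs with h1 h2 h2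
    · exact le_rfl
    · norm_num
    · exact absurd (hxy.trans h2) h1
    · exact le_rfl) (V (n + 1))
  rw [mapDomain_V, Finset.sum_range_succ'] at h
  have h0 : ∑ k ∈ Finset.range n, (Finsupp.single ((fun x : ℝ => if x ≤ 0 then (0:ℝ) else 1) (2 * ((k + 1 : ℕ) : ℝ))) (1 : ℤ) -
      Finsupp.single ((fun x : ℝ => if x ≤ 0 then (0:ℝ) else 1) (2 * ((k + 1 : ℕ) : ℝ) + 1)) 1) = 0 := by
    apply Finset.sum_eq_zero
    intro k _
    have h1 : ¬ (2 * ((k + 1 : ℕ) : ℝ) ≤ 0) := not_le.mpr (by positivity)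
    have h2 : ¬ (2 * ((k + 1 : ℕ) : ℝ) + 1 ≤ 0) := not_le.mpr (by positivity)
    simp only [h1, h2, if_false, sub_self]
  rw [h0, zero_add] at h
  have h3 : ¬ ((1 : ℝ) ≤ 0) := by norm_num
  simpa [h3] using h

/-- pairs placed at a monotone sequence -/
lemma N_pairs_le (q : ℤ → ℝ) (hq : Monotone q) (n : ℕ) :
    N (∑ j ∈ Finset.range n, (Finsupp.single (q (2 * (j : ℤ))) 1 - Finsupp.single (q (2 * (j : ℤ) + 1)) 1)) ≤
      N (V n) := by
  have h := hN.mono (fun x : ℝ => q ⌊x⌋) (fun x y hxy => hq (Int.floor_mono hxy)) (V n)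
  rw [mapDomain_V] at h
  have e : ∀ j : ℕ, (Finsupp.single (q ⌊(2 * (j : ℝ))⌋) (1 : ℤ) - Finsupp.single (q ⌊(2 * (j : ℝ) + 1)⌋) 1) =
      Finsupp.single (q (2 * (j : ℤ))) 1 - Finsupp.single (q (2 * (j : ℤ) + 1)) 1 := by
    intro j
    have e1 : ⌊(2 * (j : ℝ))⌋ = 2 * (j : ℤ) := by
      rw [show (2 * (j : ℝ)) = ((2 * (j : ℤ) : ℤ) : ℝ) by push_cast; ring, Int.floor_intCast]
    have e2 : ⌊(2 * (j : ℝ) + 1)⌋ = 2 * (j : ℤ) + 1 := by
      rw [show (2 * (j : ℝ) + 1) = ((2 * (j : ℤ) + 1 : ℤ) : ℝ) by push_cast; ring, Int.floor_intCast]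
    rw [e1, e2]
  simpa only [e] using h

lemma N_two_le (u v : ℝ) (huv : u ≤ v) :
    N (Finsupp.single u 1 - Finsupp.single v 1) ≤ N (Finsupp.single 0 1 - Finsupp.single 1 1) := by
  have h := hN.mono (fun x : ℝ => u + (v - u) * x) (by
    intro x y hxy
    have : 0 ≤ v - u := by linarith
    dsimp only
    nlinarith) (Finsupp.single 0 1 - Finsupp.single 1 1)
  rw [mapDomain_pair] at h
  simpa using h

end norm

/-! ## Window vectors -/

/-- the window vector `m_(i,+)` with window `[-3R, 3R)` -/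
def Mv (R : ℕ) (i : Fin 3) : ℝ →₀ ℤ :=
  -(Finsupp.single (-(3 * (R : ℝ))) 1 - Finsupp.single (3 * (R : ℝ)) 1) +
    (2 : ℤ) • ∑ j ∈ Finset.range (2 * R),
      (Finsupp.single (3 * ((j : ℝ) - R) + (i : ℝ)) 1 - Finsupp.single (3 * ((j : ℝ) - R) + (i : ℝ) + 1) 1)

lemma tot_Mv (R : ℕ) (i : Fin 3) : tot (Mv R i) = 0 := by
  unfold Mv
  rw [map_add, map_neg, map_sub, map_zsmul, map_sum]
  simp

lemma cum_Mv (R : ℕ) (i : Fin 3) (x : ℝ) (h1 : -(3 * (R : ℝ)) ≤ x) (h2 : x < 3 * (R : ℝ)) :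
    cum x (Mv R i) = ph i x := by
  obtain ⟨q, r, h0, h3, hx⟩ := exists_rep (x - (i : ℝ))
  have hi0 : (0 : ℝ) ≤ ((i : ℕ) : ℝ) := Nat.cast_nonneg _
  have hi2 : (((i : ℕ)) : ℝ) ≤ 2 := by
    have : (i : ℕ) ≤ 2 := by omega
    exact_mod_cast this
  have hxx : x = 3 * (q : ℝ) + r + ((i : ℕ) : ℝ) := by linarith
  unfold Mv
  rw [map_add, map_neg, map_sub, map_zsmul, map_sum]
  have hsum : ∑ j ∈ Finset.range (2 * R), cum x (Finsupp.single (3 * ((j : ℝ) - R) + ((i : ℕ) : ℝ)) 1 -
      Finsupp.single (3 * ((j : ℝ) - R) + ((i : ℕ) : ℝ) + 1) 1) = if r < 1 then 1 else 0 := by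
    have hterm : ∀ j : ℕ, cum x (Finsupp.single (3 * ((j : ℝ) - R) + ((i : ℕ) : ℝ)) 1 -
        Finsupp.single (3 * ((j : ℝ) - R) + ((i : ℕ) : ℝ) + 1) 1) =
        if ((j : ℤ) = q + R ∧ r < 1) then 1 else 0 := by
      intro j
      rw [map_sub, cum_single, cum_single]
      by_cases hj : (j : ℤ) ≤ q + R
      · have hj' : (j : ℝ) ≤ q + R := by exact_mod_cast hj
        have c1 : 3 * ((j : ℝ) - R) + ((i : ℕ) : ℝ) ≤ x := by linarith
        rw [if_pos c1]
        by_cases hje : (j : ℤ) = q + R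
        · have hje' : (j : ℝ) = q + R := by exact_mod_cast hje
          by_cases hr : r < 1
          · rw [if_neg (by linarith), if_pos ⟨hje, hr⟩]; rfl
          · rw [if_pos (by linarith), if_neg (fun h => hr h.2)]; rfl
        · have hj2 : (j : ℤ) + 1 ≤ q + R := by omega
          have hj3 : (j : ℝ) + 1 ≤ q + R := by exact_mod_cast hj2
          rw [if_pos (by linarith), if_neg (fun h => hje h.1)]; rfl
      · have hj2 : q + R + 1 ≤ (j : ℤ) := by omega
        have hj3 : (q : ℝ) + R + 1 ≤ j := by exact_mod_cast hj2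
        rw [if_neg (by linarith), if_neg (by linarith), if_neg (fun h => hj h.1.le)]; rfl
    rw [Finset.sum_congr rfl (fun j _ => hterm j)]
    by_cases hr : r < 1
    · rw [if_pos hr]
      have hq1 : -(R : ℤ) ≤ q := by
        by_contra hc
        have : q + 1 ≤ -(R : ℤ) := by omega
        have : (q : ℝ) + 1 ≤ -(R : ℝ) := by exact_mod_cast this
        linarith
      have hq2 : q < (R : ℤ) := by
        by_contra hc
        have : (R : ℤ) ≤ q := by omega
        have : (R : ℝ) ≤ q := by exact_mod_cast this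
        linarith
      obtain ⟨n, hn⟩ := Int.eq_ofNat_of_zero_le (show 0 ≤ q + R by omega)
      rw [Finset.sum_eq_single n]
      · rw [if_pos ⟨hn.symm, hr⟩]
      · intro b _ hb
        rw [if_neg]
        rintro ⟨h, _⟩
        apply hb
        omega
      · intro hnn
        exfalso
        apply hnn
        rw [Finset.mem_range]
        omega
    · rw [if_neg hr]
      apply Finset.sum_eq_zero
      intro j _
      rw [if_neg (fun h => hr h.2)]
  rw [hsum, cum_single, cum_single, if_pos h1, if_neg (not_le.mpr h2)]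
  unfold ph
  rw [hx, phi_rep q r h0 h3]
  split_ifs <;> norm_num

/-- generator vectors -/
def mm (R : ℕ) (s : Gen) : ℝ →₀ ℤ :=
  if s.2 then Mv R s.1 else -((Mv R s.1).mapDomain (sig s.1).symm)

lemma tot_mm (R : ℕ) (s : Gen) : tot (mm R s) = 0 := by
  unfold mm
  split_ifs
  · exact tot_Mv _ _
  · rw [map_neg, tot_mapDomain, tot_Mv, neg_zero]

lemma cum_mm (R : ℕ) (s : Gen) (x : ℝ) (hx : |x| + 3 ≤ 3 * (R : ℝ)) :
    cum x (mm R s) = ph s.1 x := by
  have ha := abs_le.mp (le_refl |x|)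
  unfold mm
  split_ifs
  · exact cum_Mv _ _ _ (by linarith [ha.1]) (by linarith [ha.2])
  · have h2 := abs_le.mp (sig_abs s.1 x)
    rw [map_neg, cum_mapDomain, OrderIso.symm_symm,
      cum_Mv _ _ _ (by linarith [ha.1, h2.1]) (by linarith [ha.2, h2.2]), ph_sig, neg_neg]

lemma tot_bvec (R : ℕ) (w : List Gen) : tot (bvec hh (mm R) w) = 0 := by
  induction w with
  | nil => simp [bvec]
  | cons s w ih => rw [bvec, map_add, tot_mm, tot_mapDomain, ih, add_zero]

lemma cum_bvec (R : ℕ) (w : List Gen) : ∀ x : ℝ, |x| + 2 * (w.length : ℝ) + 3 ≤ 3 * (R : ℝ) →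
    cum x (bvec hh (mm R) w) = Ph w x := by
  induction w with
  | nil => intro x _; simp [bvec, Ph]
  | cons s w ih =>
    intro x hx
    rw [List.length_cons] at hx
    push_cast at hx
    have hl : (0 : ℝ) ≤ (w.length : ℝ) := Nat.cast_nonneg _
    have h2 := hh_symm_abs s x
    have h3 : |(hh s).symm x| ≤ |x| + 2 := by
      have := abs_add_le ((hh s).symm x - x) x
      rw [sub_add_cancel] at this
      linarith
    rw [bvec, map_add, cum_mapDomain, cum_mm R s x (by linarith), ih _ (by linarith), Ph]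

/-! ## The two inequalities -/

section main

variable {N : (ℝ →₀ ℤ) → ℝ} (hN : MonoNorm N)

include hN

lemma N_Mv_le (R : ℕ) (i : Fin 3) :
    N (Mv R i) ≤ N (Finsupp.single 0 1 - Finsupp.single 1 1) + 2 * N (V (2 * R)) := by
  unfold Mv
  refine (hN.add_le _ _).trans ?_
  rw [N_neg hN, hN.smul]
  have h1 := N_two_le hN (-(3 * (R : ℝ))) (3 * (R : ℝ)) (by
    have : (0 : ℝ) ≤ R := Nat.cast_nonneg _
    linarith)
  have h2 := N_pairs_le hN (fun k : ℤ => ((3 * (k / 2) + k % 2 : ℤ) : ℝ) - 3 * (R : ℝ) + ((i : ℕ) : ℝ))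
    (by
      intro a b hab
      have : (3 * (a / 2) + a % 2 : ℤ) ≤ 3 * (b / 2) + b % 2 := by omega
      have h : ((3 * (a / 2) + a % 2 : ℤ) : ℝ) ≤ ((3 * (b / 2) + b % 2 : ℤ) : ℝ) := by exact_mod_cast this
      dsimp only
      linarith) (2 * R)
  have e : ∀ j : ℕ, (Finsupp.single (((3 * ((2 * (j : ℤ)) / 2) + (2 * (j : ℤ)) % 2 : ℤ) : ℝ) - 3 * (R : ℝ) + ((i : ℕ) : ℝ)) (1 : ℤ) -
      Finsupp.single (((3 * ((2 * (j : ℤ) + 1) / 2) + (2 * (j : ℤ) + 1) % 2 : ℤ) : ℝ) - 3 * (R : ℝ) + ((i : ℕ) : ℝ)) 1) =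
      Finsupp.single (3 * ((j : ℝ) - R) + ((i : ℕ) : ℝ)) 1 - Finsupp.single (3 * ((j : ℝ) - R) + ((i : ℕ) : ℝ) + 1) 1 := by
    intro j
    have e1 : (3 * ((2 * (j : ℤ)) / 2) + (2 * (j : ℤ)) % 2 : ℤ) = 3 * (j : ℤ) := by omega
    have e2 : (3 * ((2 * (j : ℤ) + 1) / 2) + (2 * (j : ℤ) + 1) % 2 : ℤ) = 3 * (j : ℤ) + 1 := by omega
    rw [e1, e2]
    congr 2 <;> push_cast <;> ring
  simp only [e] at h2
  have h3 : |((2 : ℤ) : ℝ)| = 2 := by norm_num
  rw [h3]
  linarith

lemma N_mm_le (t : ℕ) (ht : 1 ≤ t) (s : Gen) : N (mm (4 * t) s) ≤ 17 * N (V t) := by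
  have h1 : N (Mv (4 * t) s.1) ≤ 17 * N (V t) := by
    have h2 := N_Mv_le hN (4 * t) s.1
    have h3 := N_V_one hN t ht
    have h4 := N_V_mul hN 8 t
    rw [show 2 * (4 * t) = 8 * t by ring] at h2
    push_cast at h4
    linarith
  unfold mm
  split_ifs
  · exact h1
  · rw [N_neg hN]
    exact (hN.mono _ (sig s.1).symm.monotone _).trans h1

/-- sampling inequality -/
lemma sample (b : ℝ →₀ ℤ) (τ : ℕ → ℝ) (hτ : Monotone τ) (t : ℕ) (L H : ℤ)
    (hb : tot b = 0) (h0 : ∀ j, j ≤ t → cum (τ (2 * j)) b = L)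
    (h1 : ∀ j, j < t → cum (τ (2 * j + 1)) b = H) :
    |((H - L : ℤ) : ℝ)| * N (V t) ≤ 2 * N b := by
  -- first sampling
  have hA := hN.mono _ (idx_mono τ (2 * t)) b
  rw [mapDomain_idx τ hτ (2 * t) b] at hA
  -- second sampling
  have hB := hN.mono _ (idx_mono τ 0) b
  rw [mapDomain_idx τ hτ 0 b] at hB
  have hL : cum (τ 0) b = L := by simpa using h0 0 (Nat.zero_le _)
  have hL2 : cum (τ (2 * t)) b = L := h0 t le_rfl
  rw [hL, hb, hL2] at hA
  rw [hL, hb] at hB
  -- second list
  have hB2 : |(L : ℝ)| * N (Finsupp.single 0 1 - Finsupp.single 1 1) ≤ N b := by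
    rw [← hN.smul]
    refine le_trans (le_of_eq ?_) hB
    congr 1
    simp [sub_eq_add_neg]
  have hsum : ∀ n, n ≤ t → ∑ k ∈ Finset.range (2 * n), Finsupp.single ((k : ℝ) + 1)
      (cum (τ (k + 1)) b - cum (τ k) b) =
      (H - L) • ∑ j ∈ Finset.range n,
        (Finsupp.single (2 * (j : ℝ) + 1) (1 : ℤ) - Finsupp.single (2 * (j : ℝ) + 2) 1) := by
    intro n
    induction n with
    | zero => intro _; simp
    | succ n ih =>
      intro hn
      rw [show 2 * (n + 1) = 2 * n + 1 + 1 by ring, Finset.sum_range_succ, Finset.sum_range_succ,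
        ih (by omega), Finset.sum_range_succ, smul_add, add_assoc]
      congr 1
      rw [h0 n (by omega), h1 n (by omega), show 2 * n + 1 + 1 = 2 * (n + 1) by ring,
        h0 (n + 1) hn, show L - H = -(H - L) by ring, Finsupp.single_neg, smul_sub,
        Finsupp.smul_single, Finsupp.smul_single, smul_eq_mul, mul_one, ← sub_eq_add_neg]
      congr 2 <;> (push_cast; ring)
  rw [hsum t le_rfl] at hA
  have hV : N (V t) ≤ N (∑ j ∈ Finset.range t,
      (Finsupp.single (2 * (j : ℝ) + 1) (1 : ℤ) - Finsupp.single (2 * (j : ℝ) + 2) 1)) := by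
    have h := hN.mono (fun x : ℝ => x - 1) (fun x y hxy => by simpa using hxy)
      (∑ j ∈ Finset.range t,
        (Finsupp.single (2 * (j : ℝ) + 1) (1 : ℤ) - Finsupp.single (2 * (j : ℝ) + 2) 1))
    refine le_trans (le_of_eq ?_) h
    congr 1
    rw [Finsupp.mapDomain_finsetSum]
    unfold V
    refine Finset.sum_congr rfl fun j _ => ?_
    rw [mapDomain_pair]
    congr 2 <;> ring
  have hends : N (L • (Finsupp.single 0 (1 : ℤ) - Finsupp.single (((2 * t : ℕ) : ℝ) + 1) 1)) ≤ N b := by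
    rw [hN.smul]
    refine le_trans ?_ hB2
    apply mul_le_mul_of_nonneg_left _ (abs_nonneg _)
    exact N_two_le hN _ _ (by positivity)
  calc |((H - L : ℤ) : ℝ)| * N (V t) ≤ |((H - L : ℤ) : ℝ)| * N (∑ j ∈ Finset.range t,
      (Finsupp.single (2 * (j : ℝ) + 1) (1 : ℤ) - Finsupp.single (2 * (j : ℝ) + 2) 1)) :=
        mul_le_mul_of_nonneg_left hV (abs_nonneg _)
    _ = N ((H - L) • ∑ j ∈ Finset.range t,
      (Finsupp.single (2 * (j : ℝ) + 1) (1 : ℤ) - Finsupp.single (2 * (j : ℝ) + 2) 1)) := (hN.smul _ _).symm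
    _ = N ((Finsupp.single 0 L + (H - L) • ∑ j ∈ Finset.range t,
          (Finsupp.single (2 * (j : ℝ) + 1) (1 : ℤ) - Finsupp.single (2 * (j : ℝ) + 2) 1) +
          Finsupp.single (((2 * t : ℕ) : ℝ) + 1) (0 - L)) -
        L • (Finsupp.single 0 (1 : ℤ) - Finsupp.single (((2 * t : ℕ) : ℝ) + 1) 1)) := by
        congr 1
        rw [smul_sub, Finsupp.smul_single, Finsupp.smul_single, zero_sub, Finsupp.single_neg]
        simp only [smul_eq_mul, mul_one]
        abel
    _ ≤ _ + _ := N_sub_le hN _ _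
    _ ≤ N b + N b := add_le_add hA hends
    _ = 2 * N b := by ring

/-- the sample points : `3j` and `3j + z` -/
lemma word_ineq (t : ℕ) (ht : 1 ≤ t) (w : List Gen) (hw : w.length = t) :
    |((Ph w (PP w 0) - Ph w 0 : ℤ) : ℝ)| * N (V t) ≤ 2 * N (bvec hh (mm (4 * t)) w) := by
  obtain ⟨q, z, hz0, hz3, hz⟩ := exists_rep (PP w 0)
  have hPz : Ph w z = Ph w (PP w 0) := by
    rw [hz, add_comm, Ph_add_int]
  have ht' : (1 : ℝ) ≤ t := by exact_mod_cast ht
  have hcum : ∀ x : ℝ, 0 ≤ x → x ≤ 3 * (t : ℝ) + 3 → cum x (bvec hh (mm (4 * t)) w) = Ph w x := by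
    intro x hx0 hx1
    apply cum_bvec
    rw [abs_of_nonneg hx0, hw]
    push_cast
    linarith
  let τ : ℕ → ℝ := fun k => 3 * ((k / 2 : ℕ) : ℝ) + (if k % 2 = 0 then 0 else z)
  have hτ : Monotone τ := by
    refine monotone_nat_of_le_succ fun k => ?_
    simp only [τ]
    rcases Nat.even_or_odd' k with ⟨j, hj | hj⟩
    · subst hj
      have e1 : (2 * j) / 2 = j := by omega
      have e2 : (2 * j + 1) / 2 = j := by omega
      have e3 : (2 * j) % 2 = 0 := by omega
      have e4 : ¬ ((2 * j + 1) % 2 = 0) := by omega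
      rw [e1, e2, if_pos e3, if_neg e4]
      linarith
    · subst hj
      have e1 : (2 * j + 1) / 2 = j := by omega
      have e2 : (2 * j + 1 + 1) / 2 = j + 1 := by omega
      have e3 : (2 * j + 1 + 1) % 2 = 0 := by omega
      have e4 : ¬ ((2 * j + 1) % 2 = 0) := by omega
      rw [e1, e2, if_neg e4, if_pos e3]
      push_cast
      linarith
  apply sample hN _ τ hτ t (Ph w 0) (Ph w (PP w 0)) (tot_bvec _ _)
  · intro j hj
    have e1 : (2 * j) / 2 = j := by omega
    have e3 : (2 * j) % 2 = 0 := by omega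
    have hj' : (j : ℝ) ≤ t := by exact_mod_cast hj
    have hj0 : (0 : ℝ) ≤ j := Nat.cast_nonneg _
    simp only [τ]
    rw [e1, if_pos e3, hcum _ (by linarith) (by linarith), add_zero]
    have := Ph_add_nat w 0 j
    rw [zero_add] at this
    exact this
  · intro j hj
    have e2 : (2 * j + 1) / 2 = j := by omega
    have e4 : ¬ ((2 * j + 1) % 2 = 0) := by omega
    have hj' : (j : ℝ) ≤ t := by exact_mod_cast hj.le
    have hj0 : (0 : ℝ) ≤ j := Nat.cast_nonneg _
    simp only [τ]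
    rw [e2, if_neg e4, hcum _ (by linarith) (by linarith), add_comm, Ph_add_nat, hPz]

omit hN in
lemma mm_inv (R : ℕ) (s : Gen) :
    mm R (s.1, !s.2) = -((mm R s).mapDomain (hh s).symm) := by
  obtain ⟨i, b⟩ := s
  cases b
  · simp only [mm, hh, Bool.not_false, if_true, Bool.false_eq_true, if_false]
    have h1 : ∀ a : ℝ →₀ ℤ, (-a).mapDomain (sig i).symm.symm = -(a.mapDomain (sig i)) := by
      intro a
      have h := Finsupp.mapDomain_add (f := (sig i)) (v₁ := a) (v₂ := -a)
      rw [add_neg_cancel, Finsupp.mapDomain_zero] at h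
      rw [OrderIso.symm_symm]
      exact (neg_eq_of_add_eq_zero_right h.symm).symm
    rw [h1, neg_neg, ← Finsupp.mapDomain_comp]
    have h2 : (⇑(sig i) ∘ ⇑(sig i).symm) = id := by
      funext x
      simp
    rw [h2, Finsupp.mapDomain_id]
  · simp only [mm, hh, Bool.not_true, if_true, Bool.false_eq_true, if_false]

omit hN in
lemma hh_inv (s : Gen) : hh (s.1, !s.2) = (hh s).symm := by
  obtain ⟨i, b⟩ := s
  cases b <;> simp [hh]

/-- the key inequality for every `t`. -/
lemma key (hpos : 0 < N (Finsupp.single 0 1 - Finsupp.single 1 1)) {p K : ℝ} (hp : 1 < p)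
    (hK : 0 < K)
    (hC3 : ∀ (S : Type) [Fintype S] [Nonempty S] (inv : S → S) (h : S → ℝ ≃o ℝ)
      (m : S → ℝ →₀ ℤ), (∀ s, inv (inv s) = s) → (∀ s, h (inv s) = (h s).symm) →
      (∀ s, m (inv s) = -((m s).mapDomain (h s).symm)) → ∀ t : ℕ, 1 ≤ t →
      (∑ w : Fin t → S, N (bvec h m (List.ofFn w)) ^ p) / (Fintype.card S : ℝ) ^ t ≤
        K ^ p * t * ((∑ s, N (m s) ^ p) / Fintype.card S))
    (t : ℕ) (ht : 1 ≤ t) : ((t : ℝ) / 3) ^ p ≤ K ^ p * t * 17 ^ p := by
  have h := hC3 Gen (fun s => (s.1, !s.2)) hh (mm (4 * t)) (fun s => by simp) hh_inv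
    (mm_inv (4 * t)) t ht
  have hcard : (Fintype.card Gen : ℝ) = 6 := by
    have : Fintype.card Gen = 6 := by simp [Gen]
    rw [this]; norm_num
  rw [hcard] at h
  have hVpos : 0 < N (V t) := lt_of_lt_of_le hpos (N_V_one hN t ht)
  have hp0 : 0 < p := by linarith
  -- right hand side
  have hR : (∑ s, N (mm (4 * t) s) ^ p) / 6 ≤ (17 * N (V t)) ^ p := by
    have : ∑ s : Gen, N (mm (4 * t) s) ^ p ≤ ∑ _s : Gen, (17 * N (V t)) ^ p :=
      Finset.sum_le_sum fun s _ => Real.rpow_le_rpow (hN.nonneg _) (N_mm_le hN t ht s) hp0.le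
    rw [Finset.sum_const, Finset.card_univ, nsmul_eq_mul, hcard] at this
    linarith
  -- left hand side
  have hw6 : (0 : ℝ) < 6 ^ t := by positivity
  have hJ := Real.rpow_arith_mean_le_arith_mean_rpow (Finset.univ : Finset (Fin t → Gen))
    (fun _ => 1 / (6 : ℝ) ^ t) (fun w => N (bvec hh (mm (4 * t)) (List.ofFn w)))
    (fun _ _ => by positivity)
    (by
      rw [Finset.sum_const, Finset.card_univ, card_words, nsmul_eq_mul]
      push_cast
      field_simp)
    (fun _ _ => hN.nonneg _) hp.le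
  rw [← Finset.mul_sum, ← Finset.mul_sum] at hJ
  have hD : (N (V t)) * ((t : ℝ) / 3) ≤
      1 / (6 : ℝ) ^ t * ∑ w : Fin t → Gen, N (bvec hh (mm (4 * t)) (List.ofFn w)) := by
    have h1 : ∑ w : Fin t → Gen, (((Ph (List.ofFn w) (PP (List.ofFn w) 0) - Ph (List.ofFn w) 0 : ℤ) : ℝ) * (N (V t) / 2)) ≤
        ∑ w : Fin t → Gen, N (bvec hh (mm (4 * t)) (List.ofFn w)) := by
      refine Finset.sum_le_sum fun w _ => ?_
      have h2 := word_ineq hN t ht (List.ofFn w) (by simp)
      have h3 := le_abs_self ((Ph (List.ofFn w) (PP (List.ofFn w) 0) - Ph (List.ofFn w) 0 : ℤ) : ℝ)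
      nlinarith
    rw [← Finset.sum_mul] at h1
    have h2 : (∑ w : Fin t → Gen, ((Ph (List.ofFn w) (PP (List.ofFn w) 0) - Ph (List.ofFn w) 0 : ℤ) : ℝ)) =
        2 * t * 6 ^ t / 3 := by
      have e1 := sum_Ph t 0
      have e2 := sum_Ph_PP t 0
      have e3 : 3 * ∑ w : Fin t → Gen, (Ph (List.ofFn w) (PP (List.ofFn w) 0) - Ph (List.ofFn w) 0) =
          2 * t * 6 ^ t := by
        rw [Finset.sum_sub_distrib]
        linarith
      have e4 : (3 : ℝ) * ∑ w : Fin t → Gen, ((Ph (List.ofFn w) (PP (List.ofFn w) 0) - Ph (List.ofFn w) 0 : ℤ) : ℝ) =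
          2 * t * 6 ^ t := by
        exact_mod_cast e3
      linarith
    rw [h2] at h1
    rw [one_div, inv_mul_eq_div, le_div_iff₀ hw6]
    linarith
  have hL : (N (V t) * ((t : ℝ) / 3)) ^ p ≤ K ^ p * t * (17 * N (V t)) ^ p := by
    calc (N (V t) * ((t : ℝ) / 3)) ^ p ≤ _ :=
          Real.rpow_le_rpow (by positivity) hD hp0.le
      _ ≤ _ := hJ
      _ = (∑ w : Fin t → Gen, N (bvec hh (mm (4 * t)) (List.ofFn w)) ^ p) / 6 ^ t := by
          rw [one_div, inv_mul_eq_div]
      _ ≤ _ := h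
      _ ≤ _ := mul_le_mul_of_nonneg_left hR (by positivity)
  rw [Real.mul_rpow hVpos.le (by positivity), Real.mul_rpow (by norm_num) hVpos.le] at hL
  have hVp : 0 < N (V t) ^ p := Real.rpow_pos_of_pos hVpos p
  have : N (V t) ^ p * ((t : ℝ) / 3) ^ p ≤ N (V t) ^ p * (K ^ p * t * 17 ^ p) := by
    linarith
  exact le_of_mul_le_mul_left this hVp

/-- **C5** : the limit norm with the group inequality cannot exist. -/
theorem dyn_false (hpos : 0 < N (Finsupp.single 0 1 - Finsupp.single 1 1)) {p K : ℝ} (hp : 1 < p)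
    (hK : 0 < K)
    (hC3 : ∀ (S : Type) [Fintype S] [Nonempty S] (inv : S → S) (h : S → ℝ ≃o ℝ)
      (m : S → ℝ →₀ ℤ), (∀ s, inv (inv s) = s) → (∀ s, h (inv s) = (h s).symm) →
      (∀ s, m (inv s) = -((m s).mapDomain (h s).symm)) → ∀ t : ℕ, 1 ≤ t →
      (∑ w : Fin t → S, N (bvec h m (List.ofFn w)) ^ p) / (Fintype.card S : ℝ) ^ t ≤
        K ^ p * t * ((∑ s, N (m s) ^ p) / Fintype.card S)) : False := by
  have hlim : Filter.Tendsto (fun t : ℕ => (t : ℝ) ^ (p - 1)) Filter.atTop Filter.atTop :=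
    (tendsto_rpow_atTop (by linarith)).comp tendsto_natCast_atTop_atTop
  obtain ⟨t, ht1, ht⟩ := ((hlim.eventually_gt_atTop ((51 * K) ^ p)).and
    (Filter.eventually_ge_atTop 1)).exists
  have h := key hN hpos hp hK hC3 t ht
  have ht0 : (0 : ℝ) < t := by exact_mod_cast ht
  rw [Real.div_rpow ht0.le (by norm_num), div_le_iff₀ (by positivity)] at h
  have e1 : (51 * K) ^ p = K ^ p * 17 ^ p * 3 ^ p := by
    rw [show (51 : ℝ) * K = K * 17 * 3 by ring, Real.mul_rpow (by positivity) (by norm_num),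
      Real.mul_rpow hK.le (by norm_num)]
  have e2 : (t : ℝ) ^ p = (t : ℝ) ^ (p - 1) * t := by
    rw [← Real.rpow_add_one ht0.ne']
    congr 1
    ring
  rw [e2] at h
  have h5 : (t : ℝ) ^ (p - 1) * t ≤ (51 * K) ^ p * t := by
    rw [e1]
    linarith
  have h6 := le_of_mul_le_mul_right h5 ht0
  linarith

end main

end

end Crest.Agent.R140.Dyn
private theorem rz_ffab53f601 : type_of% @_root_.Crest.Agent.R140.Dyn.PP.eq_def := @_root_.Crest.Agent.R140.Dyn.PP.eq_def -- L229
private theorem rz_5d614c32ad : type_of% @_root_.Crest.Agent.R140.Dyn.PP.eq_1 := @_root_.Crest.Agent.R140.Dyn.PP.eq_1 -- L229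
private theorem rz_90291d9cf1 : type_of% @_root_.Crest.Agent.R140.Dyn.Ph.eq_def := @_root_.Crest.Agent.R140.Dyn.Ph.eq_def -- L224
private theorem rz_a0fe1f5d0c : type_of% @_root_.Crest.Agent.R140.Dyn.Ph.eq_1 := @_root_.Crest.Agent.R140.Dyn.Ph.eq_1 -- L224
private theorem rz_5bb5245715 : type_of% @_root_.Crest.Agent.R140.Dyn.bvec.eq_def := @_root_.Crest.Agent.R140.Dyn.bvec.eq_def -- L327
private theorem rz_a91110d039 : type_of% @_root_.Crest.Agent.R140.Dyn.bvec.eq_1 := @_root_.Crest.Agent.R140.Dyn.bvec.eq_1 -- L327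
end

-- ▼ part R140/MonoLink
section

/-!
Row 140: `SubNorm.fnZ` on `ℝ →₀ ℤ` satisfies `Dyn.MonoNorm`; value on `δ₀ - δ₁`.
-/

set_option autoImplicit false

namespace Crest.Agent.R140



/-- The functional of C5. -/
theorem SubNorm.monoNorm (M : SubNorm) :
    Dyn.MonoNorm (fun a : ℝ →₀ ℤ => M.toSprNorm.fnZ a) where
  nonneg := fun a => M.toSprNorm.fnZ_nonneg a
  add_le := fun a b => M.toSprNorm.fnZ_add_le a b
  smul := fun n a => M.toSprNorm.fnZ_smul n a
  mono := fun f hf a => M.fnZ_mapDomain_le f hf a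

theorem SprNorm.fnZ_single_sub (M : SprNorm) :
    M.fnZ (Finsupp.single (0 : ℝ) (1 : ℤ) - Finsupp.single (1 : ℝ) (1 : ℤ)) = M.N [1, -1] := by
  classical
  have h1 : (Finsupp.single (0 : ℝ) (1 : ℤ) - Finsupp.single (1 : ℝ) (1 : ℤ)).support ⊆ ({0, 1} : Finset ℝ) := by
    intro x hx
    by_contra hcon
    simp only [Finset.mem_insert, Finset.mem_singleton, not_or] at hcon
    rw [Finsupp.mem_support_iff, Finsupp.sub_apply, Finsupp.single_apply, Finsupp.single_apply,
      if_neg (fun h => hcon.1 h.symm), if_neg (fun h => hcon.2 h.symm)] at hx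
    exact hx rfl
  rw [M.fnZ_eq_fnZ', M.listNorm.fnZ'_eq _ _ h1]
  have h2 : (({0, 1} : Finset ℝ).sort (· ≤ ·)) = [0, 1] := by
    have := (List.toFinset_sort (· ≤ ·) (l := [(0 : ℝ), 1]) (by simp)).mpr (by simp)
    rw [← this]
    congr 1
    simp
  rw [h2]
  simp

theorem SubNorm.pos_of_sep (M : SubNorm) {θ : ℝ} (hθ : 0 < θ) (h : θ ≤ M.N [1, -1]) :
    0 < (fun a : ℝ →₀ ℤ => M.toSprNorm.fnZ a) (Finsupp.single (0 : ℝ) (1 : ℤ) - Finsupp.single (1 : ℝ) (1 : ℤ)) := by
  show 0 < M.toSprNorm.fnZ _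
  rw [M.toSprNorm.fnZ_single_sub]
  linarith

end Crest.Agent.R140
end

-- ▼ part R140/Trees
section

/-!
Row 140 (S0191), PART B: trees in the unit ball and separated families.
-/

set_option autoImplicit false

namespace Crest.Agent.R140

open Finset

/-- finite binary martingale trees -/
inductive Tree (X : Type*) where
  | leaf (x : X) : Tree X
  | node (lam : ℝ) (l r : Tree X) : Tree X

namespace Tree

variable {X : Type*} [NormedAddCommGroup X] [NormedSpace ℝ X]

/-- value at the root -/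
noncomputable def val : Tree X → X
  | leaf x => x
  | node lam l r => lam • l.val + (1 - lam) • r.val

/-- all leaves in the unit ball, all parameters in `[0,1]` -/
def Ok : Tree X → Prop
  | leaf x => ‖x‖ ≤ 1
  | node lam l r => (0 ≤ lam ∧ lam ≤ 1) ∧ l.Ok ∧ r.Ok

/-- `ε`-big nodes -/
def Big (ε lam : ℝ) (l r : Tree X) : Prop := lam = 1 / 2 ∧ 2 * ε ≤ ‖l.val - r.val‖

open Classical in
/-- expected number of big nodes on a random root-leaf path -/
noncomputable def C (ε : ℝ) : Tree X → ℝ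
  | leaf _ => 0
  | node lam l r => (if Big ε lam l r then 1 else 0) + (lam * l.C ε + (1 - lam) * r.C ε)

open Classical in
/-- probability that a random root-leaf path has at least `j` big nodes -/
noncomputable def p (ε : ℝ) : Tree X → ℕ → ℝ
  | leaf _ => fun j => if j = 0 then 1 else 0
  | node lam l r => fun j =>
      if Big ε lam l r then lam * l.p ε (j - 1) + (1 - lam) * r.p ε (j - 1)
      else lam * l.p ε j + (1 - lam) * r.p ε j

lemma val_node (lam : ℝ) (l r : Tree X) :
    (node lam l r).val = lam • l.val + (1 - lam) • r.val := rfl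

lemma norm_val_le {T : Tree X} (h : T.Ok) : ‖T.val‖ ≤ 1 := by
  induction T with
  | leaf x => exact h
  | node lam l r hl hr =>
    obtain ⟨⟨h0, h1⟩, h2, h3⟩ := h
    rw [val_node]
    calc ‖lam • l.val + (1 - lam) • r.val‖ ≤ ‖lam • l.val‖ + ‖(1 - lam) • r.val‖ := norm_add_le _ _
      _ = lam * ‖l.val‖ + (1 - lam) * ‖r.val‖ := by
          rw [norm_smul, norm_smul, Real.norm_of_nonneg h0, Real.norm_of_nonneg (by linarith)]
      _ ≤ lam * 1 + (1 - lam) * 1 := by
          have := hl h2; have := hr h3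
          gcongr
      _ = 1 := by ring

variable {ε : ℝ}

lemma p_zero (T : Tree X) : T.p ε 0 = 1 := by
  induction T with
  | leaf x => simp [p]
  | node lam l r hl hr =>
    simp only [p, Nat.zero_sub, hl, hr]
    split_ifs <;> ring

lemma p_nonneg {T : Tree X} (h : T.Ok) (j : ℕ) : 0 ≤ T.p ε j := by
  induction T generalizing j with
  | leaf x => simp only [p]; split_ifs <;> norm_num
  | node lam l r hl hr =>
    obtain ⟨⟨h0, h1⟩, h2, h3⟩ := h
    simp only [p]
    have h1' : 0 ≤ 1 - lam := by linarith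
    split_ifs
    · have := hl h2 (j - 1); have := hr h3 (j - 1); positivity
    · have := hl h2 j; have := hr h3 j; positivity

lemma p_antitone {T : Tree X} (h : T.Ok) : Antitone (T.p ε) := by
  induction T with
  | leaf x =>
    intro i j hij
    simp only [p]
    split_ifs with h1 h2 h2
    · norm_num
    · omega
    · norm_num
    · norm_num
  | node lam l r hl hr =>
    obtain ⟨⟨h0, h1⟩, h2, h3⟩ := h
    have h1' : 0 ≤ 1 - lam := by linarith
    intro i j hij
    simp only [p]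
    split_ifs
    · have := hl h2 (Nat.sub_le_sub_right hij 1); have := hr h3 (Nat.sub_le_sub_right hij 1)
      gcongr
    · have := hl h2 hij; have := hr h3 hij
      gcongr

lemma p_add_le {s : ℝ} {j : ℕ} (hs : ∀ T : Tree X, T.Ok → T.p ε j ≤ s) (_hs0 : 0 ≤ s)
    {T : Tree X} (h : T.Ok) (i : ℕ) : T.p ε (i + j) ≤ T.p ε i * s := by
  induction T generalizing i with
  | leaf x =>
    rcases Nat.eq_zero_or_pos i with rfl | hi
    · rw [p_zero, zero_add, one_mul]; exact hs _ h
    · have h1 : (leaf x : Tree X).p ε (i + j) = 0 := by simp only [p]; rw [if_neg (by omega)]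
      have h2 : (leaf x : Tree X).p ε i = 0 := by simp only [p]; rw [if_neg (by omega)]
      rw [h1, h2, zero_mul]
  | node lam l r hl hr =>
    rcases Nat.eq_zero_or_pos i with rfl | hi
    · rw [p_zero, zero_add, one_mul]; exact hs _ h
    obtain ⟨⟨h0, h1⟩, h2, h3⟩ := h
    have h1' : 0 ≤ 1 - lam := by linarith
    simp only [p]
    split_ifs
    · have e : i + j - 1 = (i - 1) + j := by omega
      rw [e, add_mul, mul_assoc, mul_assoc]
      have := hl h2 (i - 1); have := hr h3 (i - 1)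
      gcongr
    · rw [add_mul, mul_assoc, mul_assoc]
      have := hl h2 i; have := hr h3 i
      gcongr

/-- height -/
def ht : Tree X → ℕ
  | leaf _ => 0
  | node _ l r => max l.ht r.ht + 1


lemma C_eq {T : Tree X} {n : ℕ} (hn : T.ht ≤ n) : T.C ε = ∑ j ∈ range n, T.p ε (j + 1) := by
  induction T generalizing n with
  | leaf x => simp [C, p]
  | node lam l r hl hr =>
    simp only [ht] at hn
    have a1 : l.ht ≤ max l.ht r.ht := le_max_left _ _
    have a2 : r.ht ≤ max l.ht r.ht := le_max_right _ _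
    obtain ⟨m, rfl⟩ : ∃ m, n = m + 1 := ⟨n - 1, by omega⟩
    simp only [C, p]
    split_ifs with hb
    · simp only [Nat.add_sub_cancel]
      rw [sum_add_distrib, ← mul_sum, ← mul_sum, sum_range_succ', sum_range_succ', p_zero, p_zero,
        ← hl (by omega), ← hr (by omega)]
      ring
    · rw [sum_add_distrib, ← mul_sum, ← mul_sum, ← hl (by omega), ← hr (by omega)]
      ring

/-- (B1): if `p_n ≤ 1/2` on all trees then the expected number of big nodes is at most `2 n`. -/
theorem C_le {n : ℕ} (hn : ∀ T : Tree X, T.Ok → T.p ε n ≤ 1 / 2) {T : Tree X} (h : T.Ok) :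
    T.C ε ≤ 2 * n := by
  have hpos : 0 < n := by
    rcases Nat.eq_zero_or_pos n with rfl | h'
    · have := hn T h; rw [p_zero] at this; norm_num at this
    · exact h'
  have key : ∀ k, T.p ε (n * k) ≤ (1 / 2) ^ k := by
    intro k
    induction k with
    | zero => simp [p_zero]
    | succ k ih =>
      rw [Nat.mul_succ, pow_succ]
      refine (p_add_le hn (by norm_num) h (n * k)).trans ?_
      gcongr
  have key2 : ∀ k, ∑ j ∈ range (n * k), T.p ε j ≤ n * ∑ i ∈ range k, (1 / 2 : ℝ) ^ i := by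
    intro k
    induction k with
    | zero => simp
    | succ k ih =>
      rw [Nat.mul_succ, sum_range_add, sum_range_succ, mul_add]
      have : ∑ i ∈ range n, T.p ε (n * k + i) ≤ ∑ _i ∈ range n, (1 / 2 : ℝ) ^ k :=
        sum_le_sum fun i _ => (p_antitone h (Nat.le_add_right _ _)).trans (key k)
      rw [sum_const, card_range, nsmul_eq_mul] at this
      linarith
  have hgeo : ∀ k : ℕ, ∑ i ∈ range k, (1 / 2 : ℝ) ^ i ≤ 2 := by
    intro k
    have := geom_sum_eq (x := (1 / 2 : ℝ)) (by norm_num) k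
    rw [this]
    have h2 : (0 : ℝ) ≤ (1 / 2) ^ k := by positivity
    rw [div_le_iff_of_neg (by norm_num)]
    linarith
  rw [C_eq (n := T.ht) le_rfl]
  have h3 : ∑ j ∈ range T.ht, T.p ε (j + 1) ≤ ∑ j ∈ range (n * (T.ht + 1)), T.p ε j := by
    have h4 : ∑ j ∈ range (T.ht + 1), T.p ε j ≤ ∑ j ∈ range (n * (T.ht + 1)), T.p ε j := by
      apply sum_le_sum_of_subset_of_nonneg
      · intro j hj; rw [mem_range] at *; nlinarith
      · intro j _ _; exact p_nonneg h j
    rw [sum_range_succ'] at h4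
    have := p_nonneg (ε := ε) h 0
    linarith
  refine h3.trans ((key2 _).trans ?_)
  have := hgeo (T.ht + 1)
  have h5 : (0 : ℝ) ≤ n := Nat.cast_nonneg n
  nlinarith

/-- (B2) the family of a tree. -/
theorem exists_family (ε : ℝ) (T : Tree X) (h : T.Ok) :
    ∃ (A : Type) (_ : Fintype A) (w : A → ℝ) (x : A → ℕ → X),
      (∀ a, 0 ≤ w a) ∧ (∑ a, w a = 1) ∧ (∀ a i, ‖x a i‖ ≤ 1) ∧
      (∀ i, ∑ a, w a • x a i = T.val) ∧
      (∀ (n j : ℕ) (_ : 1 ≤ j) (c : ℕ → ℝ) (v : X), ∑ i ∈ Ico j n, c i = 1 →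
        ε * T.p ε j ≤ ∑ a, w a * ‖∑ i ∈ range n, c i • x a i - v‖) := by
  classical
  induction T with
  | leaf x =>
    refine ⟨Unit, inferInstance, fun _ => 1, fun _ _ => x, by simp, by simp, fun _ _ => h,
      by simp [val], ?_⟩
    intro n j hj c v _
    have : (leaf x : Tree X).p ε j = 0 := by simp only [p]; rw [if_neg (by omega)]
    rw [this, mul_zero]
    positivity
  | node lam l r hl hr =>
    obtain ⟨⟨h0, h1⟩, h2, h3⟩ := id h
    have h1' : 0 ≤ 1 - lam := by linarith
    obtain ⟨A, iA, w, x, hw, hw1, hx, hm, hs⟩ := hl h2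
    obtain ⟨B, iB, w', x', hw', hw1', hx', hm', hs'⟩ := hr h3
    by_cases hb : Big ε lam l r
    · refine ⟨A ⊕ B, inferInstance, Sum.elim (fun a => lam * w a) (fun b => (1 - lam) * w' b),
        Sum.elim (fun a i => if i = 0 then (node lam l r).val else x a (i - 1))
          (fun b i => if i = 0 then (node lam l r).val else x' b (i - 1)), ?_, ?_, ?_, ?_, ?_⟩
      · rintro (a | b)
        · exact mul_nonneg h0 (hw a)
        · exact mul_nonneg h1' (hw' b)
      · simp only [Fintype.sum_sum_type, Sum.elim_inl, Sum.elim_inr]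
        rw [← mul_sum, ← mul_sum, hw1, hw1']; ring
      · rintro (a | b) i
        · simp only [Sum.elim_inl]
          split_ifs
          · exact norm_val_le h
          · exact hx _ _
        · simp only [Sum.elim_inr]
          split_ifs
          · exact norm_val_le h
          · exact hx' _ _
      · intro i
        simp only [Fintype.sum_sum_type, Sum.elim_inl, Sum.elim_inr, mul_smul]
        rw [← smul_sum, ← smul_sum]
        rcases Nat.eq_zero_or_pos i with rfl | hi
        · simp only [if_true]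
          rw [← sum_smul, ← sum_smul, hw1, hw1', one_smul, ← add_smul]
          simp
        · have : i ≠ 0 := by omega
          simp only [this, if_false]
          rw [hm, hm', val_node]
      · intro n j hj c v hc
        obtain ⟨m, rfl⟩ : ∃ m, n = m + 1 := by
          rcases n with _ | m
          · simp at hc
          · exact ⟨m, rfl⟩
        obtain ⟨k, rfl⟩ : ∃ k, j = k + 1 := ⟨j - 1, by omega⟩
        have hc' : ∑ i ∈ Ico k m, c (i + 1) = 1 := by
          rw [← hc, sum_Ico_add' (fun i => c i) k m 1]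
        simp only [Fintype.sum_sum_type, Sum.elim_inl, Sum.elim_inr]
        have e1 : ∀ a, ∑ i ∈ range (m + 1), c i • (if i = 0 then (node lam l r).val else x a (i - 1)) - v
            = ∑ i ∈ range m, c (i + 1) • x a i - (v - c 0 • (node lam l r).val) := by
          intro a
          rw [sum_range_succ']
          simp only [Nat.add_eq_zero_iff, one_ne_zero, and_false, if_false, if_true,
            Nat.add_sub_cancel]
          abel
        have e2 : ∀ a, ∑ i ∈ range (m + 1), c i • (if i = 0 then (node lam l r).val else x' a (i - 1)) - v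
            = ∑ i ∈ range m, c (i + 1) • x' a i - (v - c 0 • (node lam l r).val) := by
          intro a
          rw [sum_range_succ']
          simp only [Nat.add_eq_zero_iff, one_ne_zero, and_false, if_false, if_true,
            Nat.add_sub_cancel]
          abel
        simp only [e1, e2]
        set v' := v - c 0 • (node lam l r).val
        have hp : (node lam l r).p ε (k + 1) = lam * l.p ε k + (1 - lam) * r.p ε k := by
          simp only [p]; rw [if_pos hb, Nat.add_sub_cancel]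
        rw [hp]
        have g1 : ∀ (F : A → ℝ), ∑ a, lam * w a * F a = lam * ∑ a, w a * F a := by
          intro F; rw [mul_sum]; exact sum_congr rfl fun a _ => by ring
        have g2 : ∀ (F : B → ℝ), ∑ a, (1 - lam) * w' a * F a = (1 - lam) * ∑ a, w' a * F a := by
          intro F; rw [mul_sum]; exact sum_congr rfl fun a _ => by ring
        rw [g1, g2]
        rcases Nat.eq_zero_or_pos k with rfl | hk
        · -- the big node itself
          rw [p_zero, p_zero]
          obtain ⟨hlam, hbig⟩ := hb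
          have mean : ∀ (A : Type) (_ : Fintype A) (w : A → ℝ) (x : A → ℕ → X) (u : X),
              (∀ a, 0 ≤ w a) → (∑ a, w a = 1) → (∀ i, ∑ a, w a • x a i = u) →
              ‖u - v'‖ ≤ ∑ a, w a * ‖∑ i ∈ range m, c (i + 1) • x a i - v'‖ := by
            intro A _ w x u hw hw1 hm
            have e3 : u - v' = ∑ a, w a • (∑ i ∈ range m, c (i + 1) • x a i - v') := by
              simp only [smul_sub, sum_sub_distrib, smul_sum]
              rw [sum_comm, ← sum_smul, hw1, one_smul]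
              congr 1
              have : ∀ i ∈ range m, ∑ a, w a • c (i + 1) • x a i = c (i + 1) • u := by
                intro i _
                rw [← hm i, smul_sum]
                exact sum_congr rfl fun a _ => smul_comm _ _ _
              rw [sum_congr rfl this, ← sum_smul, range_eq_Ico, hc', one_smul]
            rw [e3]
            refine (norm_sum_le _ _).trans (le_of_eq (sum_congr rfl fun a _ => ?_))
            rw [norm_smul, Real.norm_of_nonneg (hw a)]
          have m1 := mean A iA w x _ hw hw1 hm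
          have m2 := mean B iB w' x' _ hw' hw1' hm'
          have m3 : ‖l.val - r.val‖ ≤ ‖l.val - v'‖ + ‖r.val - v'‖ := by
            have : l.val - r.val = (l.val - v') - (r.val - v') := by abel
            rw [this]; exact norm_sub_le _ _
          rw [hlam]
          linarith
        · have i1 := hs m k hk (fun i => c (i + 1)) v' hc'
          have i2 := hs' m k hk (fun i => c (i + 1)) v' hc'
          have j1 := mul_le_mul_of_nonneg_left i1 h0
          have j2 := mul_le_mul_of_nonneg_left i2 h1'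
          linarith
    · refine ⟨A ⊕ B, inferInstance, Sum.elim (fun a => lam * w a) (fun b => (1 - lam) * w' b),
        Sum.elim x x', ?_, ?_, ?_, ?_, ?_⟩
      · rintro (a | b)
        · exact mul_nonneg h0 (hw a)
        · exact mul_nonneg h1' (hw' b)
      · simp only [Fintype.sum_sum_type, Sum.elim_inl, Sum.elim_inr]
        rw [← mul_sum, ← mul_sum, hw1, hw1']; ring
      · rintro (a | b) i
        · exact hx _ _
        · exact hx' _ _
      · intro i
        simp only [Fintype.sum_sum_type, Sum.elim_inl, Sum.elim_inr, mul_smul]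
        rw [← smul_sum, ← smul_sum, hm, hm', val_node]
      · intro n j hj c v hc
        simp only [Fintype.sum_sum_type, Sum.elim_inl, Sum.elim_inr]
        have hp : (node lam l r).p ε j = lam * l.p ε j + (1 - lam) * r.p ε j := by
          simp only [p]; rw [if_neg hb]
        rw [hp]
        have g1 : ∀ (F : A → ℝ), ∑ a, lam * w a * F a = lam * ∑ a, w a * F a := by
          intro F; rw [mul_sum]; exact sum_congr rfl fun a _ => by ring
        have g2 : ∀ (F : B → ℝ), ∑ a, (1 - lam) * w' a * F a = (1 - lam) * ∑ a, w' a * F a := by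
          intro F; rw [mul_sum]; exact sum_congr rfl fun a _ => by ring
        rw [g1, g2]
        have i1 := hs n j hj c v hc
        have i2 := hs' n j hj c v hc
        have j1 := mul_le_mul_of_nonneg_left i1 h0
        have j2 := mul_le_mul_of_nonneg_left i2 h1'
        linarith

end Tree

/-- `SepFamN X θ n`: a finite weighted family of sequences in the unit ball, `θ`-separated on `[n]`. -/
def SepFamN (X : Type*) [NormedAddCommGroup X] [NormedSpace ℝ X] (θ : ℝ) (n : ℕ) : Prop :=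
  ∃ (A : Type) (_ : Fintype A) (w : A → ℝ) (x : A → ℕ → X),
    (∀ a, 0 ≤ w a) ∧ (∑ a, w a = 1) ∧ (∀ a i, ‖x a i‖ ≤ 1) ∧
    ∀ (m : ℕ) (z : ℕ → ℕ), (∀ i j, i < j → j < 2 * m → z i < z j) → (∀ i, i < 2 * m → z i < n) →
      θ * m ≤ ∑ a, w a * ‖∑ i ∈ range m, x a (z i) - ∑ i ∈ Ico m (2 * m), x a (z i)‖

variable {X : Type*} [NormedAddCommGroup X] [NormedSpace ℝ X]

theorem sepFamN_of_tree {ε : ℝ} (hε : 0 ≤ ε) {n : ℕ} {T : Tree X} (h : T.Ok)
    (hp : 1 / 2 ≤ T.p ε n) : SepFamN X (ε / 2) n := by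
  obtain ⟨A, iA, w, x, hw, hw1, hx, -, hs⟩ := T.exists_family ε h
  refine ⟨A, iA, w, x, hw, hw1, hx, ?_⟩
  intro m z hz hzn
  rcases Nat.eq_zero_or_pos m with rfl | hm
  · simp
  have hm' : (0 : ℝ) < m := by exact_mod_cast hm
  -- `i ≤ z i`
  have hiz : ∀ i, i < 2 * m → i ≤ z i := by
    intro i
    induction i with
    | zero => intro _; exact Nat.zero_le _
    | succ i ih => intro hi; have := ih (by omega); have := hz i (i + 1) (by omega) hi; omega
  have hinj : ∀ i j, i < 2 * m → j < 2 * m → z i = z j → i = j := by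
    intro i j hi hj hij
    rcases lt_trichotomy i j with h1 | h1 | h1
    · have := hz i j h1 hj; omega
    · exact h1
    · have := hz j i h1 hi; omega
  set c : ℕ → ℝ := fun k => ∑ i ∈ range (2 * m), if z i = k then (if i < m then -(1 / m : ℝ) else 1 / m) else 0
    with hc
  have hsum : ∀ (a : A), ∑ k ∈ range n, c k • x a k
      = -((1 / m : ℝ) • (∑ i ∈ range m, x a (z i) - ∑ i ∈ Ico m (2 * m), x a (z i))) := by
    intro a
    have e1 : ∑ k ∈ range n, c k • x a k
        = ∑ i ∈ range (2 * m), (if i < m then -(1 / m : ℝ) else 1 / m) • x a (z i) := by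
      simp only [hc, sum_smul]
      rw [sum_comm]
      refine sum_congr rfl fun i hi => ?_
      rw [sum_eq_single (z i)]
      · simp
      · intro k _ hk; rw [if_neg (Ne.symm hk), zero_smul]
      · intro hk; exact absurd (mem_range.2 (hzn i (mem_range.1 hi))) hk
    rw [e1, ← sum_range_add_sum_Ico _ (by omega : m ≤ 2 * m)]
    have e2 : ∑ i ∈ range m, (if i < m then -(1 / m : ℝ) else 1 / m) • x a (z i)
        = -((1 / m : ℝ) • ∑ i ∈ range m, x a (z i)) := by
      rw [smul_sum, ← sum_neg_distrib]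
      exact sum_congr rfl fun i hi => by rw [if_pos (mem_range.1 hi), neg_smul]
    have e3 : ∑ i ∈ Ico m (2 * m), (if i < m then -(1 / m : ℝ) else 1 / m) • x a (z i)
        = (1 / m : ℝ) • ∑ i ∈ Ico m (2 * m), x a (z i) := by
      rw [smul_sum]
      exact sum_congr rfl fun i hi => by rw [if_neg (not_lt.2 (mem_Ico.1 hi).1)]
    rw [e2, e3, smul_sub]
    abel
  have hcsum : ∑ k ∈ Ico (z m) n, c k = 1 := by
    simp only [hc]
    rw [sum_comm]
    have e1 : ∀ i ∈ range (2 * m), ∑ k ∈ Ico (z m) n,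
        (if z i = k then (if i < m then -(1 / m : ℝ) else 1 / m) else 0)
        = if i < m then (0 : ℝ) else 1 / m := by
      intro i hi
      have hi' := mem_range.1 hi
      by_cases him : i < m
      · rw [if_pos him, if_pos him]
        refine sum_eq_zero fun k hk => ?_
        have := (mem_Ico.1 hk).1
        have := hz i m him (by omega)
        rw [if_neg (by omega)]
      · have hzi : z m ≤ z i := by
          rcases Nat.eq_or_lt_of_le (not_lt.1 him) with h1 | h1
          · rw [h1]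
          · exact (hz m i h1 hi').le
        rw [sum_eq_single (z i)]
        · simp [him]
        · intro k _ hk; rw [if_neg (Ne.symm hk)]
        · intro hk; exact absurd (mem_Ico.2 ⟨hzi, hzn i hi'⟩) hk
    rw [sum_congr rfl e1, ← sum_range_add_sum_Ico _ (by omega : m ≤ 2 * m)]
    have e2 : ∑ i ∈ range m, (if i < m then (0 : ℝ) else 1 / m) = 0 :=
      sum_eq_zero fun i hi => by rw [if_pos (mem_range.1 hi)]
    have e3 : ∑ i ∈ Ico m (2 * m), (if i < m then (0 : ℝ) else 1 / m)
        = ∑ _i ∈ Ico m (2 * m), (1 / m : ℝ) :=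
      sum_congr rfl fun i hi => by rw [if_neg (not_lt.2 (mem_Ico.1 hi).1)]
    rw [e2, e3, sum_const, Nat.card_Ico, zero_add, nsmul_eq_mul]
    have : 2 * m - m = m := by omega
    rw [this]
    field_simp
  have hzm : 1 ≤ z m := by have := hiz m (by omega); omega
  have key := hs n (z m) hzm c 0 hcsum
  have hpm : 1 / 2 ≤ T.p ε (z m) :=
    hp.trans (Tree.p_antitone h (hzn m (by omega)).le)
  have e4 : ∀ a, ‖∑ i ∈ range n, c i • x a i - 0‖
      = (1 / m : ℝ) * ‖∑ i ∈ range m, x a (z i) - ∑ i ∈ Ico m (2 * m), x a (z i)‖ := by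
    intro a
    rw [sub_zero, hsum a, norm_neg, norm_smul, Real.norm_of_nonneg (by positivity)]
  simp only [e4] at key
  have e5 : ∑ a, w a * ((1 / m : ℝ) * ‖∑ i ∈ range m, x a (z i) - ∑ i ∈ Ico m (2 * m), x a (z i)‖)
      = (1 / m : ℝ) * ∑ a, w a * ‖∑ i ∈ range m, x a (z i) - ∑ i ∈ Ico m (2 * m), x a (z i)‖ := by
    rw [mul_sum]; exact sum_congr rfl fun a _ => by ring
  rw [e5] at key
  have h1 : ε / 2 ≤ ε * T.p ε (z m) := by nlinarith
  have h2 := h1.trans key
  rw [one_div, inv_mul_eq_div, le_div_iff₀ hm'] at h2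
  exact h2

/-- PART B: if the number of big nodes is unbounded then separated families exist for every `n`. -/
theorem sepFamN_of_unbounded {ε : ℝ} (hε : 0 ≤ ε)
    (hU : ∀ W : ℝ, ∃ T : Tree X, T.Ok ∧ W < T.C ε) (n : ℕ) : SepFamN X (ε / 2) n := by
  by_contra hcon
  have hn : ∀ T : Tree X, T.Ok → T.p ε n ≤ 1 / 2 := by
    intro T hT
    by_contra hlt
    exact hcon (sepFamN_of_tree hε hT (not_le.1 hlt).le)
  obtain ⟨T, hT, hW⟩ := hU (2 * n)
  exact absurd (Tree.C_le hn hT) (not_le.2 hW)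

/-- dichotomy. -/
theorem bounded_or_sepFamN {ε : ℝ} (hε : 0 ≤ ε) :
    (∃ W : ℝ, ∀ T : Tree X, T.Ok → T.C ε ≤ W) ∨ ∀ n, SepFamN X (ε / 2) n := by
  by_cases h : ∃ W : ℝ, ∀ T : Tree X, T.Ok → T.C ε ≤ W
  · exact Or.inl h
  · push Not at h
    exact Or.inr (sepFamN_of_unbounded hε h)

/-- conversion to the form of `Defs.lean` -/
theorem SepFamN.sepFam {θ : ℝ} {n : ℕ} (h : SepFamN X θ n) : SepFam X θ n := by
  obtain ⟨A, iA, w, x, hw, hw1, hx, hs⟩ := h
  refine ⟨A, iA, w, x, hw, hw1, hx, ?_⟩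
  intro m z hz hzn
  set z' : ℕ → ℕ := fun i => if h : i < 2 * m then z ⟨i, h⟩ else 0 with hz'
  have e0 : ∀ j : Fin (2 * m), z' j = z j := by
    intro j; simp only [hz']; rw [dif_pos j.2]
  have h1 := hs m z' ?_ ?_
  · refine h1.trans (le_of_eq (sum_congr rfl fun a _ => ?_))
    congr 2
    have e1 : ∑ j : Fin (2 * m), (if (j : ℕ) < m then (1 : ℝ) else -1) • x a (z j)
        = ∑ i ∈ range (2 * m), (if i < m then (1 : ℝ) else -1) • x a (z' i) := by
      rw [← Fin.sum_univ_eq_sum_range (fun i => (if i < m then (1 : ℝ) else -1) • x a (z' i))]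
      exact sum_congr rfl fun j _ => by rw [e0]
    rw [e1, ← sum_range_add_sum_Ico _ (by omega : m ≤ 2 * m), sub_eq_add_neg, ← sum_neg_distrib]
    congr 1
    · exact sum_congr rfl fun i hi => by rw [if_pos (mem_range.1 hi), one_smul]
    · exact sum_congr rfl fun i hi => by
        rw [if_neg (not_lt.2 (mem_Ico.1 hi).1), neg_smul, one_smul]
  · intro i j hij hj
    simp only [hz']
    rw [dif_pos hj, dif_pos (by omega)]
    exact hz (by simpa using hij)
  · intro i hi
    simp only [hz']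
    rw [dif_pos hi]
    exact hzn _


/-- dichotomy. -/
theorem bounded_or_sepFam {ε : ℝ} (hε : 0 ≤ ε) :
    (∃ W : ℝ, ∀ T : Tree X, T.Ok → T.C ε ≤ W) ∨ ∀ n, SepFam X (ε / 2) n := by
  rcases bounded_or_sepFamN (X := X) hε with h | h
  · exact Or.inl h
  · exact Or.inr fun n => (h n).sepFam

end Crest.Agent.R140
private theorem rz_09956d19a2 : type_of% @_root_.Crest.Agent.R140.Tree.C.eq_def := @_root_.Crest.Agent.R140.Tree.C.eq_def -- L38
private theorem rz_a126797f63 : type_of% @_root_.Crest.Agent.R140.Tree.C.eq_1 := @_root_.Crest.Agent.R140.Tree.C.eq_1 -- L38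
private theorem rz_36a3c2e5a1 : type_of% @_root_.Crest.Agent.R140.Tree.ht.eq_def := @_root_.Crest.Agent.R140.Tree.ht.eq_def -- L134
private theorem rz_a664173dbe : type_of% @_root_.Crest.Agent.R140.Tree.ht.eq_1 := @_root_.Crest.Agent.R140.Tree.ht.eq_1 -- L134
private theorem rz_2bbf329673 : type_of% @_root_.Crest.Agent.R140.Tree.p.eq_def := @_root_.Crest.Agent.R140.Tree.p.eq_def -- L44
private theorem rz_275ab0f50e : type_of% @_root_.Crest.Agent.R140.Tree.p.eq_1 := @_root_.Crest.Agent.R140.Tree.p.eq_1 -- L44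
private theorem rz_b228b6fec4 : type_of% @_root_.Crest.Agent.R140.Tree.val.eq_def := @_root_.Crest.Agent.R140.Tree.val.eq_def -- L24
private theorem rz_698f86bec5 : type_of% @_root_.Crest.Agent.R140.Tree.val.eq_1 := @_root_.Crest.Agent.R140.Tree.val.eq_1 -- L24
end

-- ▼ part R140/NoSep
section

/-!
# Row 140: a space of Markov type `p > 1` has no separated families of all lengths
-/

set_option autoImplicit false

namespace Crest.Agent.R140

open Crest.AnalysisR

theorem bw_eq_bvec {S : Type} (h : S → ℝ ≃o ℝ) (m : S → ℝ →₀ ℤ) :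
    ∀ w : List S, bw h m w = Dyn.bvec h m w := by
  intro w
  induction w with
  | nil => rfl
  | cons s w ih => rw [bw, Dyn.bvec, ih]

theorem no_sepFam {X : Type*} [NormedAddCommGroup X] [NormedSpace ℝ X] {p K θ : ℝ}
    (hX : HasMarkovType X p K) (hp : 1 < p) (hK : 0 < K) (hθ : 0 < θ) :
    ¬ ∀ n, SepFam X θ n := by
  intro hsep
  obtain ⟨M, hM1, hM2⟩ := exists_spr hX hp hK hsep
  have h1 := M.inf_sep hM1
  have hmono := M.inf.monoNorm
  have hpos := M.inf.pos_of_sep hθ h1
  refine Dyn.dyn_false hmono hpos hp hK ?_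
  intro S _ _ inv h m e1 e2 e3 t _
  have := M.inf_group (by linarith : 0 < p) hK.le t
    (fun Λ _ S _ _ inv h m a b c => hM2 Λ S inv h m a b c t) ℝ S inv h m e1 e2 e3
  simpa only [bw_eq_bvec] using this

/-- The expected number of big nodes of trees in the unit ball is bounded. -/
theorem tree_bound {X : Type*} [NormedAddCommGroup X] [NormedSpace ℝ X] {p K : ℝ}
    (hX : HasMarkovType X p K) (hp : 1 < p) (hK : 0 < K) (ε : ℝ) (hε : 0 < ε) :
    ∃ W : ℝ, ∀ T : Tree X, T.Ok → T.C ε ≤ W := by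
  rcases bounded_or_sepFam (X := X) hε.le with h | h
  · exact h
  · exact absurd h (no_sepFam hX hp hK (by positivity))

end Crest.Agent.R140
end

-- ▼ part R140/Renorm

/-!
Row 140 (S0191), PART A: renorming.  Bounded tree cost for every `ε` gives an equivalent
uniformly convex norm.
-/

set_option autoImplicit false
set_option linter.unusedSectionVars false

namespace Crest.Agent.R140.Renorm

open Crest.AnalysisR

variable {X : Type*} [NormedAddCommGroup X] [NormedSpace ℝ X]

/-- the function `φ` of the blueprint -/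
structure Mod (φ : X → ℝ) : Prop where
  le0 : ∀ x, ‖x‖ ≤ 1 → φ x ≤ 0
  ge : ∀ x, ‖x‖ ≤ 1 → -1 ≤ φ x
  even : ∀ x, ‖x‖ ≤ 1 → φ (-x) = φ x
  conv : ∀ x y, ‖x‖ ≤ 1 → ‖y‖ ≤ 1 → ∀ a : ℝ, 0 ≤ a → a ≤ 1 →
    φ (a • x + (1 - a) • y) ≤ a * φ x + (1 - a) * φ y
  gain : ∀ ε : ℝ, 0 < ε → ∃ η : ℝ, 0 < η ∧ η ≤ 1 ∧ ∀ x y, ‖x‖ ≤ 1 → ‖y‖ ≤ 1 → ε ≤ ‖x - y‖ →
    φ ((1 / 2 : ℝ) • (x + y)) ≤ (φ x + φ y) / 2 - η

theorem norm_comb_le {x y : X} {R : ℝ} (hx : ‖x‖ ≤ R) (hy : ‖y‖ ≤ R) {a : ℝ} (h0 : 0 ≤ a)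
    (h1 : a ≤ 1) : ‖a • x + (1 - a) • y‖ ≤ R := by
  calc ‖a • x + (1 - a) • y‖ ≤ ‖a • x‖ + ‖(1 - a) • y‖ := norm_add_le _ _
    _ = a * ‖x‖ + (1 - a) * ‖y‖ := by
        rw [norm_smul, norm_smul, Real.norm_of_nonneg h0, Real.norm_of_nonneg (by linarith)]
    _ ≤ a * R + (1 - a) * R := by
        have : 0 ≤ 1 - a := by linarith
        gcongr
    _ = R := by ring

theorem exists_mod (h : ∀ e : ℝ, 0 < e → e ≤ 1 → ∃ (V : X → ℝ) (W : ℝ),
    (∀ x, ‖x‖ ≤ 1 → 0 ≤ V x ∧ V x ≤ W) ∧ (∀ x, ‖x‖ ≤ 1 → V (-x) = V x) ∧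
    (∀ x y, ‖x‖ ≤ 1 → ‖y‖ ≤ 1 → ∀ a : ℝ, 0 ≤ a → a ≤ 1 →
      a * V x + (1 - a) * V y ≤ V (a • x + (1 - a) • y)) ∧
    (∀ x y, ‖x‖ ≤ 1 → ‖y‖ ≤ 1 → 2 * e ≤ ‖x - y‖ →
      (V x + V y) / 2 + 1 ≤ V ((1 / 2 : ℝ) • (x + y)))) :
    ∃ φ : X → ℝ, Mod φ := by
  have h' := fun j : ℕ => h ((1 / 2) ^ j) (by positivity)
    (pow_le_one₀ (by norm_num) (by norm_num))
  choose V W hb he hc hg using h'
  have hW : ∀ j, 0 ≤ W j := fun j => (hb j 0 (by simp)).1.trans (hb j 0 (by simp)).2
  set c : ℕ → ℝ := fun j => (1 / 2) ^ (j + 1) / (W j + 1) with hcdef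
  have hcpos : ∀ j, 0 < c j := fun j => div_pos (by positivity) (by linarith [hW j])
  have hterm0 : ∀ x, ‖x‖ ≤ 1 → ∀ j, 0 ≤ c j * V j x := fun x hx j =>
    mul_nonneg (hcpos j).le (hb j x hx).1
  have hterm1 : ∀ x, ‖x‖ ≤ 1 → ∀ j, c j * V j x ≤ (1 / 2) ^ (j + 1) := by
    intro x hx j
    have h1 : c j * (W j + 1) = (1 / 2) ^ (j + 1) := by
      rw [hcdef]
      have : W j + 1 ≠ 0 := by linarith [hW j]
      field_simp
    rw [← h1]
    exact mul_le_mul_of_nonneg_left (by linarith [(hb j x hx).2]) (hcpos j).le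
  have hgeo : HasSum (fun j : ℕ => ((1 / 2 : ℝ)) ^ (j + 1)) 1 := by
    have h1 := (hasSum_geometric_of_lt_one (r := (1 / 2 : ℝ)) (by norm_num) (by norm_num)).mul_left
      (1 / 2 : ℝ)
    have e1 : (1 / 2 : ℝ) * (1 - 1 / 2)⁻¹ = 1 := by norm_num
    have e2 : (fun j : ℕ => ((1 / 2 : ℝ)) ^ (j + 1)) = fun j : ℕ => 1 / 2 * (1 / 2 : ℝ) ^ j := by
      funext j
      rw [pow_succ, mul_comm]
    rw [e1] at h1
    rw [e2]
    exact h1
  have hsum : ∀ x, ‖x‖ ≤ 1 → Summable (fun j => c j * V j x) := fun x hx =>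
    Summable.of_nonneg_of_le (hterm0 x hx) (hterm1 x hx) hgeo.summable
  refine ⟨fun x => - ∑' j, c j * V j x, ?_, ?_, ?_, ?_, ?_⟩
  · intro x hx
    exact neg_nonpos.2 (tsum_nonneg (hterm0 x hx))
  · intro x hx
    have := (hsum x hx).tsum_le_tsum (hterm1 x hx) hgeo.summable
    rw [hgeo.tsum_eq] at this
    linarith
  · intro x hx
    congr 2
    ext j
    rw [he j x hx]
  · intro x y hx hy a h0 h1
    have hxy := norm_comb_le hx hy h0 h1
    have hs := ((hsum x hx).mul_left a).add ((hsum y hy).mul_left (1 - a))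
    have h2 : ∑' j, (a * (c j * V j x) + (1 - a) * (c j * V j y)) ≤
        ∑' j, c j * V j (a • x + (1 - a) • y) := by
      refine hs.tsum_le_tsum (fun j => ?_) (hsum _ hxy)
      have := mul_le_mul_of_nonneg_left (hc j x y hx hy a h0 h1) (hcpos j).le
      linarith
    rw [((hsum x hx).mul_left a).tsum_add ((hsum y hy).mul_left (1 - a)), tsum_mul_left,
      tsum_mul_left] at h2
    linarith
  · intro ε hε
    obtain ⟨j, hj⟩ := exists_pow_lt_of_lt_one (show 0 < ε / 2 by linarith)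
      (show (1 / 2 : ℝ) < 1 by norm_num)
    refine ⟨c j, hcpos j, ?_, ?_⟩
    · have h1 : (1 / 2 : ℝ) ^ (j + 1) ≤ 1 := pow_le_one₀ (by norm_num) (by norm_num)
      rw [hcdef]
      exact (div_le_one (by linarith [hW j])).2 (by linarith [hW j])
    · intro x y hx hy hxy
      have hm : ‖(1 / 2 : ℝ) • (x + y)‖ ≤ 1 := by
        have := norm_comb_le hx hy (a := 1 / 2) (by norm_num) (by norm_num)
        convert this using 2
        rw [smul_add]; norm_num
      have hs := (((hsum x hx).mul_left (1 / 2)).add ((hsum y hy).mul_left (1 / 2)))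
      have hs2 : Summable (fun i => if i = j then c j else 0) :=
        summable_of_ne_finset_zero (s := {j}) (fun i hi => by
          rw [Finset.mem_singleton] at hi; rw [if_neg hi])
      have h2 : ∑' i, ((1 / 2 * (c i * V i x) + 1 / 2 * (c i * V i y)) +
          (if i = j then c j else 0)) ≤ ∑' i, c i * V i ((1 / 2 : ℝ) • (x + y)) := by
        refine (hs.add hs2).tsum_le_tsum (fun i => ?_) (hsum _ hm)
        by_cases hij : i = j
        · subst hij
          rw [if_pos rfl]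
          have := mul_le_mul_of_nonneg_left (hg i x y hx hy (by linarith)) (hcpos i).le
          linarith
        · rw [if_neg hij]
          have h3 := hc i x y hx hy (1 / 2) (by norm_num) (by norm_num)
          have e : (1 / 2 : ℝ) • x + (1 - 1 / 2 : ℝ) • y = (1 / 2 : ℝ) • (x + y) := by
            rw [smul_add]; norm_num
          rw [e] at h3
          have := mul_le_mul_of_nonneg_left h3 (hcpos i).le
          linarith
      rw [hs.tsum_add hs2, ((hsum x hx).mul_left (1 / 2)).tsum_add ((hsum y hy).mul_left (1 / 2)),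
        tsum_mul_left, tsum_mul_left, tsum_ite_eq] at h2
      linarith

/-- the unit ball of the new norm -/
def K (φ : X → ℝ) : Set X := {x | ‖x‖ ≤ 1 ∧ φ x + 4 * ‖x‖ ≤ 1}

section

variable {φ : X → ℝ} (hφ : Mod φ)
include hφ

theorem U_conv {x y : X} (hx : ‖x‖ ≤ 1) (hy : ‖y‖ ≤ 1) {a : ℝ} (h0 : 0 ≤ a) (h1 : a ≤ 1) :
    φ (a • x + (1 - a) • y) + 4 * ‖a • x + (1 - a) • y‖ ≤
      a * (φ x + 4 * ‖x‖) + (1 - a) * (φ y + 4 * ‖y‖) := by
  have h2 := hφ.conv x y hx hy a h0 h1
  have h3 : ‖a • x + (1 - a) • y‖ ≤ a * ‖x‖ + (1 - a) * ‖y‖ := by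
    refine (norm_add_le _ _).trans ?_
    rw [norm_smul, norm_smul, Real.norm_of_nonneg h0, Real.norm_of_nonneg (by linarith)]
  linarith

theorem K_convex : Convex ℝ (K φ) := by
  intro x hx y hy a b ha hb hab
  obtain rfl : b = 1 - a := by linarith
  refine ⟨norm_comb_le hx.1 hy.1 ha (by linarith), ?_⟩
  refine (U_conv hφ hx.1 hy.1 ha (by linarith)).trans ?_
  have := mul_le_mul_of_nonneg_left hx.2 ha
  have := mul_le_mul_of_nonneg_left hy.2 hb
  linarith

theorem ball_sub : Metric.ball (0 : X) (1 / 4) ⊆ K φ := by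
  intro x hx
  rw [mem_ball_zero_iff] at hx
  exact ⟨by linarith, by linarith [hφ.le0 x (by linarith)]⟩

theorem sub_ball : K φ ⊆ Metric.closedBall (0 : X) (1 / 2) := by
  intro x hx
  rw [mem_closedBall_zero_iff]
  linarith [hx.2, hφ.ge x hx.1]

theorem K_absorbent : Absorbent ℝ (K φ) :=
  (absorbent_ball_zero (by norm_num : (0 : ℝ) < 1 / 4)).mono (ball_sub hφ)

theorem K_zero : (0 : X) ∈ K φ := ball_sub hφ (by simp)

theorem K_balanced : Balanced ℝ (K φ) := by
  rw [balanced_iff_neg_mem (K_convex hφ)]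
  intro x hx
  refine ⟨by rw [norm_neg]; exact hx.1, ?_⟩
  rw [hφ.even x hx.1, norm_neg]
  exact hx.2

/-- the new norm -/
noncomputable def Nrm : Seminorm ℝ X :=
  gaugeSeminorm (K_balanced hφ) (K_convex hφ) (K_absorbent hφ)

theorem Nrm_apply (x : X) : Nrm hφ x = gauge (K φ) x := rfl

theorem two_le (x : X) : 2 * ‖x‖ ≤ Nrm hφ x := by
  have := le_gauge_of_subset_closedBall (K_absorbent hφ) (by norm_num : (0 : ℝ) ≤ 1 / 2)
    (sub_ball hφ) (x := x)
  rw [Nrm_apply]
  linarith

theorem le_four (x : X) : Nrm hφ x ≤ 4 * ‖x‖ := by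
  have := mul_gauge_le_norm (ball_sub hφ) (x := x)
  rw [Nrm_apply]
  linarith

theorem Nrm_le_one {x : X} (hx : x ∈ K φ) : Nrm hφ x ≤ 1 := gauge_le_one_of_mem hx

theorem mem_K {x : X} (hx : Nrm hφ x ≤ 1) : x ∈ K φ := by
  have hx2 : ‖x‖ ≤ 1 / 2 := by linarith [two_le hφ x]
  refine ⟨by linarith, ?_⟩
  -- for every `t ∈ (0,1/2)`: `U x ≤ 1 + 3 t`
  have key : ∀ t : ℝ, 0 < t → t < 1 / 2 → φ x + 4 * ‖x‖ ≤ 1 + 3 * t := by
    intro t ht0 ht1
    set r : ℝ := (1 - 2 * t) / (1 - t) with hr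
    have h1t : 0 < 1 - t := by linarith
    have hr0 : 0 ≤ r := div_nonneg (by linarith) h1t.le
    have hr1 : r < 1 := (div_lt_one h1t).2 (by linarith)
    have hrx : r • x ∈ K φ := by
      apply setOfPred_gauge_lt_one_subset_self (K_convex hφ) (K_zero hφ) (K_absorbent hφ)
      show gauge (K φ) (r • x) < 1
      have e : gauge (K φ) (r • x) = r * gauge (K φ) x := by
        rw [gauge_smul_of_nonneg hr0, smul_eq_mul]
      rw [e]
      have h0 : 0 ≤ gauge (K φ) x := gauge_nonneg x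
      have h1 : gauge (K φ) x ≤ 1 := hx
      nlinarith
    have h2x : ‖(2 : ℝ) • x‖ ≤ 1 := by
      rw [norm_smul, Real.norm_of_nonneg (by norm_num)]; linarith
    have e : x = (1 - t) • (r • x) + (1 - (1 - t)) • ((2 : ℝ) • x) := by
      rw [smul_smul, smul_smul, ← add_smul]
      have : (1 - t) * r + (1 - (1 - t)) * 2 = 1 := by
        rw [hr]; field_simp; ring
      rw [this, one_smul]
    have h3 := U_conv hφ hrx.1 h2x h1t.le (by linarith : 1 - t ≤ 1)
    rw [← e] at h3
    have h4 := mul_le_mul_of_nonneg_left hrx.2 h1t.le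
    have h5 : φ ((2 : ℝ) • x) + 4 * ‖(2 : ℝ) • x‖ ≤ 4 := by linarith [hφ.le0 _ h2x]
    have h6 := mul_le_mul_of_nonneg_left h5 ht0.le
    linarith
  by_contra hcon
  push Not at hcon
  set d := φ x + 4 * ‖x‖ - 1 with hd
  have hd0 : 0 < d := by linarith
  have := key (min (d / 6) (1 / 4)) (lt_min (by linarith) (by norm_num))
    ((min_le_right _ _).trans_lt (by norm_num))
  have h2 := min_le_left (d / 6) (1 / 4)
  linarith

theorem uc : ∀ ε : ℝ, 0 < ε → ε ≤ 2 → ∃ δ : ℝ, 0 < δ ∧
    ∀ x y : X, Nrm hφ x ≤ 1 → Nrm hφ y ≤ 1 → ε ≤ Nrm hφ (x - y) →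
      Nrm hφ ((1 / 2 : ℝ) • (x + y)) ≤ 1 - δ := by
  intro ε hε _
  obtain ⟨η, hη0, hη1, hη⟩ := hφ.gain (ε / 4) (by linarith)
  refine ⟨η / 8, by linarith, ?_⟩
  intro x y hx hy hxy
  have hxK := mem_K hφ hx
  have hyK := mem_K hφ hy
  have hx2 : ‖x‖ ≤ 1 / 2 := by linarith [two_le hφ x]
  have hy2 : ‖y‖ ≤ 1 / 2 := by linarith [two_le hφ y]
  have hd : ε / 4 ≤ ‖x - y‖ := by linarith [le_four hφ (x - y)]
  set m : X := (1 / 2 : ℝ) • (x + y) with hm
  have hm' : m = (1 / 2 : ℝ) • x + (1 - 1 / 2 : ℝ) • y := by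
    rw [hm, smul_add]; norm_num
  have hm2 : ‖m‖ ≤ 1 / 2 := by
    rw [hm']; exact norm_comb_le hx2 hy2 (by norm_num) (by norm_num)
  have hmn : ‖m‖ ≤ (‖x‖ + ‖y‖) / 2 := by
    rw [hm, norm_smul, Real.norm_of_nonneg (by norm_num)]
    have := norm_add_le x y
    linarith
  have hUm : φ m + 4 * ‖m‖ ≤ 1 - η := by
    have h1 := hη x y hxK.1 hyK.1 hd
    have h2 := hxK.2
    have h3 := hyK.2
    linarith
  set d : ℝ := η / 4 with hdd
  have hd0 : 0 < d := by linarith
  have hd1 : d ≤ 1 / 4 := by linarith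
  have h2m : ‖(2 : ℝ) • m‖ ≤ 1 := by
    rw [norm_smul, Real.norm_of_nonneg (by norm_num)]; linarith
  have e : (1 + d) • m = (1 - d) • m + (1 - (1 - d)) • ((2 : ℝ) • m) := by
    rw [smul_smul (1 - (1 - d)) 2 m, ← add_smul]
    congr 1
    ring
  have hmem : (1 + d) • m ∈ K φ := by
    refine ⟨?_, ?_⟩
    · rw [norm_smul, Real.norm_of_nonneg (by linarith)]
      nlinarith [norm_nonneg m]
    · rw [e]
      refine (U_conv hφ (by linarith) h2m (by linarith) (by linarith)).trans ?_
      have h5 : φ ((2 : ℝ) • m) + 4 * ‖(2 : ℝ) • m‖ ≤ 4 := by linarith [hφ.le0 _ h2m]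
      have h6 := mul_le_mul_of_nonneg_left h5 hd0.le
      have h7 := mul_le_mul_of_nonneg_left hUm (by linarith : 0 ≤ 1 - d)
      have h8 : (1 - d) * (1 - η) = (1 - d) * (1 - 4 * d) := by rw [hdd]; ring
      nlinarith
  have h9 := Nrm_le_one hφ hmem
  rw [map_smul_eq_mul, Real.norm_of_nonneg (by linarith)] at h9
  have h10 : 0 ≤ Nrm hφ m := apply_nonneg _ _
  have h11 : Nrm hφ m ≤ 1 := by nlinarith
  nlinarith

theorem hasEquiv : HasEquivUniformlyConvexNorm X :=
  ⟨Nrm hφ, 2, 4, by norm_num, by norm_num, fun x => ⟨two_le hφ x, le_four hφ x⟩, uc hφ⟩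

end

theorem renorm (h : ∀ e : ℝ, 0 < e → e ≤ 1 → ∃ (V : X → ℝ) (W : ℝ),
    (∀ x, ‖x‖ ≤ 1 → 0 ≤ V x ∧ V x ≤ W) ∧ (∀ x, ‖x‖ ≤ 1 → V (-x) = V x) ∧
    (∀ x y, ‖x‖ ≤ 1 → ‖y‖ ≤ 1 → ∀ a : ℝ, 0 ≤ a → a ≤ 1 →
      a * V x + (1 - a) * V y ≤ V (a • x + (1 - a) • y)) ∧
    (∀ x y, ‖x‖ ≤ 1 → ‖y‖ ≤ 1 → 2 * e ≤ ‖x - y‖ →
      (V x + V y) / 2 + 1 ≤ V ((1 / 2 : ℝ) • (x + y)))) :
    HasEquivUniformlyConvexNorm X := by
  obtain ⟨φ, hφ⟩ := exists_mod h
  exact hasEquiv hφ

/-! ### trees -/

/-- the negated tree -/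
def neg : Tree X → Tree X
  | .leaf x => .leaf (-x)
  | .node lam l r => .node lam (neg l) (neg r)

theorem neg_val (T : Tree X) : (neg T).val = -T.val := by
  induction T with
  | leaf x => rfl
  | node lam l r hl hr =>
    show lam • (neg l).val + (1 - lam) • (neg r).val = -(lam • l.val + (1 - lam) • r.val)
    rw [hl, hr, smul_neg, smul_neg, neg_add]

theorem neg_Ok {T : Tree X} (h : T.Ok) : (neg T).Ok := by
  induction T with
  | leaf x =>
    show ‖-x‖ ≤ 1
    rw [norm_neg]; exact h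
  | node lam l r hl hr => exact ⟨h.1, hl h.2.1, hr h.2.2⟩

theorem neg_C (ε : ℝ) (T : Tree X) : (neg T).C ε = T.C ε := by
  classical
  induction T with
  | leaf x => rfl
  | node lam l r hl hr =>
    show (if Tree.Big ε lam (neg l) (neg r) then (1 : ℝ) else 0) +
      (lam * (neg l).C ε + (1 - lam) * (neg r).C ε) =
      (if Tree.Big ε lam l r then (1 : ℝ) else 0) + (lam * l.C ε + (1 - lam) * r.C ε)
    rw [hl, hr]
    have : Tree.Big ε lam (neg l) (neg r) ↔ Tree.Big ε lam l r := by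
      unfold Tree.Big
      rw [neg_val, neg_val]
      have e : ‖-l.val - -r.val‖ = ‖l.val - r.val‖ := by
        rw [← norm_neg]; congr 1; abel
      rw [e]
    simp only [this]


theorem C_node_ge {ε lam : ℝ} {l r : Tree X} :
    lam * l.C ε + (1 - lam) * r.C ε ≤ (Tree.node lam l r).C ε := by
  classical
  show _ ≤ (if Tree.Big ε lam l r then (1 : ℝ) else 0) + (lam * l.C ε + (1 - lam) * r.C ε)
  split_ifs <;> linarith

theorem C_node_big {ε : ℝ} {l r : Tree X} (h : 2 * ε ≤ ‖l.val - r.val‖) :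
    (Tree.node (1 / 2) l r).C ε = 1 + (1 / 2 * l.C ε + (1 - 1 / 2) * r.C ε) := by
  classical
  show (if Tree.Big ε (1 / 2) l r then (1 : ℝ) else 0) + _ = _
  rw [if_pos ⟨rfl, h⟩]

/-- Part A: bounded tree cost gives an equivalent uniformly convex norm -/
theorem renorm_trees (h : ∀ eps : ℝ, 0 < eps → eps ≤ 1 →
    ∃ W : ℝ, ∀ T : Tree X, T.Ok → T.C eps ≤ W) : HasEquivUniformlyConvexNorm X := by
  apply renorm
  intro e he0 he1
  obtain ⟨W, hW⟩ := h e he0 he1
  set S : X → Set ℝ := fun x => {c | ∃ T : Tree X, T.Ok ∧ T.val = x ∧ T.C e = c} with hS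
  have hbdd : ∀ x, BddAbove (S x) := fun x => ⟨W, by rintro c ⟨T, hT, -, rfl⟩; exact hW T hT⟩
  have hleaf : ∀ x : X, ‖x‖ ≤ 1 → (0 : ℝ) ∈ S x := fun x hx => ⟨Tree.leaf x, hx, rfl, rfl⟩
  have hcomb : ∀ (x y : X), ‖x‖ ≤ 1 → ‖y‖ ≤ 1 → ∀ (a g B : ℝ), 0 ≤ a → a ≤ 1 →
      (∀ c ∈ S x, ∀ c' ∈ S y, a * c + (1 - a) * c' + g ≤ B) →
      a * sSup (S x) + (1 - a) * sSup (S y) + g ≤ B := by
    intro x y hx hy a g B h0 h1 hB
    have h2 : ∀ c ∈ S x, a * c + (1 - a) * sSup (S y) + g ≤ B := by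
      intro c hc
      rcases h1.lt_or_eq with h1 | h1
      · have h3 : sSup (S y) ≤ (B - g - a * c) / (1 - a) := by
          refine csSup_le ⟨0, hleaf y hy⟩ (fun c' hc' => ?_)
          rw [le_div_iff₀ (by linarith)]
          have := hB c hc c' hc'
          linarith
        rw [le_div_iff₀ (by linarith)] at h3
        linarith
      · subst h1
        have := hB c hc 0 (hleaf y hy)
        linarith
    rcases h0.lt_or_eq with h0 | h0
    · have h3 : sSup (S x) ≤ (B - g - (1 - a) * sSup (S y)) / a := by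
        refine csSup_le ⟨0, hleaf x hx⟩ (fun c hc => ?_)
        rw [le_div_iff₀ h0]
        have := h2 c hc
        linarith
      rw [le_div_iff₀ h0] at h3
      linarith
    · subst h0
      have := h2 0 (hleaf x hx)
      linarith
  refine ⟨fun x => sSup (S x), W, ?_, ?_, ?_, ?_⟩
  · intro x hx
    refine ⟨le_csSup (hbdd x) (hleaf x hx), csSup_le ⟨0, hleaf x hx⟩ ?_⟩
    rintro c ⟨T, hT, -, rfl⟩
    exact hW T hT
  · intro x hx
    have : S (-x) = S x := by
      ext c
      constructor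
      · rintro ⟨T, hT, h1, h2⟩
        exact ⟨neg T, neg_Ok hT, by rw [neg_val, h1, neg_neg], by rw [neg_C, h2]⟩
      · rintro ⟨T, hT, h1, h2⟩
        exact ⟨neg T, neg_Ok hT, by rw [neg_val, h1], by rw [neg_C, h2]⟩
    simp only [this]
  · intro x y hx hy a h0 h1
    have := hcomb x y hx hy a 0 (sSup (S (a • x + (1 - a) • y))) h0 h1 (by
      rintro c ⟨T, hT, hTx, rfl⟩ c' ⟨T', hT', hTy, rfl⟩
      rw [add_zero]
      refine C_node_ge.trans (le_csSup (hbdd _) ⟨Tree.node a T T', ⟨⟨h0, h1⟩, hT, hT'⟩, ?_, rfl⟩)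
      rw [Tree.val_node, hTx, hTy])
    linarith
  · intro x y hx hy hxy
    have := hcomb x y hx hy (1 / 2) 1 (sSup (S ((1 / 2 : ℝ) • (x + y)))) (by norm_num)
      (by norm_num) (by
      rintro c ⟨T, hT, hTx, rfl⟩ c' ⟨T', hT', hTy, rfl⟩
      refine le_trans (le_of_eq ?_) (le_csSup (hbdd _)
        ⟨Tree.node (1 / 2) T T', ⟨⟨by norm_num, by norm_num⟩, hT, hT'⟩, ?_, rfl⟩)
      · rw [C_node_big (by rw [hTx, hTy]; exact hxy)]
        ring
      · rw [Tree.val_node, hTx, hTy, smul_add]; norm_num)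
    linarith

end Crest.Agent.R140.Renorm
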